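import Mathlib

/-!
# Arrays with two scales for every cyclic quadrilateral

For four concyclic points with all coefficients of their affine dependency nonzero and every `L ≥ 1`
we build two finite families `P`, `N` of columns in `ℝ^4` with the same row contents, where the
quadratic pattern of `N` is `lam / L * d²` and the one of `P` is `(lam / L + lam) * d²`.
-/

set_option linter.unusedVariables false
set_option linter.unusedSectionVars false

namespace Vale.Agent.Lib.P058K.AllQuads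

open Finset

abbrev Row := Fin 4 → ℝ

/-- Column contents as an additive map. -/
noncomputable def col (m : Fin 4) : Multiset Row →+ Multiset ℝ :=
  Multiset.mapAddMonoidHom (fun r => r m)

/-- Quadratic pattern as an additive map. -/
noncomputable def pat (a c : Fin 4) : Multiset Row →+ ℝ :=
  (Multiset.sumAddMonoidHom).comp (Multiset.mapAddMonoidHom (fun r : Row => (r a - r c) ^ 2))

@[simp] theorem col_singleton (m : Fin 4) (r : Row) : col m {r} = {r m} := by
  simp [col]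

@[simp] theorem pat_singleton (a c : Fin 4) (r : Row) : pat a c {r} = (r a - r c) ^ 2 := by
  simp [pat]

theorem col_apply (m : Fin 4) (S : Multiset Row) : col m S = S.map (fun r => r m) := rfl

theorem pat_apply (a c : Fin 4) (S : Multiset Row) :
    pat a c S = (S.map (fun r : Row => (r a - r c) ^ 2)).sum := rfl

section Gadget

variable (b : Fin 4 → ℝ)

/-- The edge column: `v / b a` at `a`, `- v / b c` at `c`, zero elsewhere. -/
noncomputable def edge (a c : Fin 4) (v : ℝ) : Row :=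
  fun m => if m = a then v / b a else if m = c then -(v / b c) else 0

/-- An edge column and its negative. -/
noncomputable def pr (a c : Fin 4) (v : ℝ) : Multiset Row := {edge b a c v} + {edge b c a v}

/-- The three other indices. -/
def s1 : Fin 4 → Fin 4 := ![1, 0, 0, 0]
def s2 : Fin 4 → Fin 4 := ![2, 2, 1, 1]
def s3 : Fin 4 → Fin 4 := ![3, 3, 3, 2]

/-- The large gadget. -/
noncomputable def GP (i : Fin 4) (l : ℝ) : Multiset Row :=
  2 • (pr b i (s1 i) (b i * l) + pr b i (s2 i) (b i * l) + pr b i (s3 i) (b i * l))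

/-- The small gadget. -/
noncomputable def GN (i : Fin 4) (l : ℝ) : Multiset Row :=
  pr b (s1 i) (s2 i) (b i * l) + pr b (s1 i) (s3 i) (b i * l)
    + pr b (s2 i) (s3 i) (b i * l) + 6 • {(0 : Row)}

theorem col_GP_ne (i m : Fin 4) (l : ℝ) (h : m ≠ i) :
    col m (GP b i l) = col m (GN b i l) := by
  fin_cases i <;> fin_cases m <;> first | exact absurd rfl h | skip
  all_goals
    simp only [GP, GN, pr, map_add, map_nsmul, col_singleton]
    simp (config := {decide := true}) only [edge, s1, s2, s3, Matrix.cons_val', Matrix.cons_val_zero, Matrix.cons_val_one,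
      Matrix.cons_val, Fin.zero_eta, Fin.mk_one, Fin.reduceFinMk, if_true, if_false, Pi.zero_apply, Fin.isValue]
    abel

theorem col_GP_eq (hb : ∀ i, b i ≠ 0) (i : Fin 4) (l : ℝ) :
    col i (GP b i l) + 12 • {(0 : ℝ)} = col i (GN b i l) + 6 • ({l} + {-l} : Multiset ℝ) := by
  have h0 := hb 0
  have h1 := hb 1
  have h2 := hb 2
  have h3 := hb 3
  fin_cases i
  all_goals
    simp only [GP, GN, pr, map_add, map_nsmul, col_singleton]
    simp (config := {decide := true}) only [edge, s1, s2, s3, Matrix.cons_val', Matrix.cons_val_zero, Matrix.cons_val_one,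
      Matrix.cons_val, Fin.zero_eta, Fin.mk_one, Fin.reduceFinMk, if_true, if_false, Pi.zero_apply, Fin.isValue,
      mul_div_cancel_left₀ _ h0, mul_div_cancel_left₀ _ h1, mul_div_cancel_left₀ _ h2, mul_div_cancel_left₀ _ h3]
    abel

/-- The unit pattern of an edge. -/
noncomputable def u (a c x y : Fin 4) : ℝ := (edge b a c 1 x - edge b a c 1 y) ^ 2

theorem edge_scale (a c m : Fin 4) (v : ℝ) : edge b a c v m = v * edge b a c 1 m := by
  unfold edge
  split_ifs <;> ring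

theorem edge_neg (a c m : Fin 4) (v : ℝ) (h : a ≠ c) : edge b c a v m = - edge b a c v m := by
  unfold edge
  by_cases h1 : m = a
  · subst h1
    simp [h]
  · by_cases h2 : m = c
    · subst h2
      simp [h1]
    · simp [h1, h2]

theorem pat_pr (a c x y : Fin 4) (v : ℝ) (h : a ≠ c) :
    pat x y (pr b a c v) = 2 * v ^ 2 * u b a c x y := by
  simp only [pr, map_add, pat_singleton, u]
  rw [edge_neg b a c x v h, edge_neg b a c y v h, edge_scale b a c x v, edge_scale b a c y v]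
  ring

theorem s1_ne (i : Fin 4) : i ≠ s1 i := by fin_cases i <;> decide
theorem s2_ne (i : Fin 4) : i ≠ s2 i := by fin_cases i <;> decide
theorem s3_ne (i : Fin 4) : i ≠ s3 i := by fin_cases i <;> decide
theorem s12_ne (i : Fin 4) : s1 i ≠ s2 i := by fin_cases i <;> decide
theorem s13_ne (i : Fin 4) : s1 i ≠ s3 i := by fin_cases i <;> decide
theorem s23_ne (i : Fin 4) : s2 i ≠ s3 i := by fin_cases i <;> decide

theorem pat_GP (i x y : Fin 4) (l : ℝ) :
    pat x y (GP b i l) = 4 * (b i * l) ^ 2 * (u b i (s1 i) x y + u b i (s2 i) x y + u b i (s3 i) x y) := by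
  simp only [GP, map_nsmul, map_add, pat_pr b _ _ x y _ (s1_ne i), pat_pr b _ _ x y _ (s2_ne i),
    pat_pr b _ _ x y _ (s3_ne i), nsmul_eq_mul]
  push_cast
  ring

theorem pat_GN (i x y : Fin 4) (l : ℝ) :
    pat x y (GN b i l) = 2 * (b i * l) ^ 2 *
      (u b (s1 i) (s2 i) x y + u b (s1 i) (s3 i) x y + u b (s2 i) (s3 i) x y) := by
  simp only [GN, map_nsmul, map_add, pat_pr b _ _ x y _ (s12_ne i), pat_pr b _ _ x y _ (s13_ne i),
    pat_pr b _ _ x y _ (s23_ne i), nsmul_eq_mul, pat_singleton]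
  simp
  ring

theorem pat_GP_scale (i x y : Fin 4) (l : ℝ) : pat x y (GP b i l) = l ^ 2 * pat x y (GP b i 1) := by
  rw [pat_GP, pat_GP]
  ring

theorem pat_GN_scale (i x y : Fin 4) (l : ℝ) : pat x y (GN b i l) = l ^ 2 * pat x y (GN b i 1) := by
  rw [pat_GN, pat_GN]
  ring

/-- The total unit patterns of the gadgets. -/
noncomputable def AA (x y : Fin 4) : ℝ := ∑ i, pat x y (GP b i 1)
noncomputable def BB (x y : Fin 4) : ℝ := ∑ i, pat x y (GN b i 1)

/-- The three perfect matchings at a label. -/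
noncomputable def MA (a : ℝ) : Multiset Row := pr b 0 1 a + pr b 2 3 a
noncomputable def MB (a : ℝ) : Multiset Row := pr b 0 2 a + pr b 1 3 a
noncomputable def MC (a : ℝ) : Multiset Row := pr b 0 3 a + pr b 1 2 a

noncomputable def pA (x y : Fin 4) : ℝ := u b 0 1 x y + u b 2 3 x y
noncomputable def pB (x y : Fin 4) : ℝ := u b 0 2 x y + u b 1 3 x y
noncomputable def pC (x y : Fin 4) : ℝ := u b 0 3 x y + u b 1 2 x y

theorem pat_MA (x y : Fin 4) (a : ℝ) : pat x y (MA b a) = 2 * a ^ 2 * pA b x y := by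
  simp only [MA, pA, map_add, pat_pr b _ _ x y a (by decide : (0 : Fin 4) ≠ 1),
    pat_pr b _ _ x y a (by decide : (2 : Fin 4) ≠ 3)]
  ring

theorem pat_MB (x y : Fin 4) (a : ℝ) : pat x y (MB b a) = 2 * a ^ 2 * pB b x y := by
  simp only [MB, pB, map_add, pat_pr b _ _ x y a (by decide : (0 : Fin 4) ≠ 2),
    pat_pr b _ _ x y a (by decide : (1 : Fin 4) ≠ 3)]
  ring

theorem pat_MC (x y : Fin 4) (a : ℝ) : pat x y (MC b a) = 2 * a ^ 2 * pC b x y := by
  simp only [MC, pC, map_add, pat_pr b _ _ x y a (by decide : (0 : Fin 4) ≠ 3),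
    pat_pr b _ _ x y a (by decide : (1 : Fin 4) ≠ 2)]
  ring

theorem col_MA (m : Fin 4) (a : ℝ) : col m (MA b a) = col m (MB b a) := by
  fin_cases m
  all_goals
    simp only [MA, MB, pr, map_add, col_singleton]
    simp (config := {decide := true}) only [edge, Fin.zero_eta, Fin.mk_one, Fin.reduceFinMk, if_true, if_false, Fin.isValue]
    try abel

theorem col_MC (m : Fin 4) (a : ℝ) : col m (MC b a) = col m (MB b a) := by
  fin_cases m
  all_goals
    simp only [MC, MB, pr, map_add, col_singleton]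
    simp (config := {decide := true}) only [edge, Fin.zero_eta, Fin.mk_one, Fin.reduceFinMk, if_true, if_false, Fin.isValue]
    try abel

/-- The two coefficients. -/
noncomputable def z1 : ℝ := -(2 * (b 0 ^ 2 + b 1 ^ 2) - (b 2 ^ 2 + b 3 ^ 2)) - 6 * b 0 * b 1
noncomputable def z3 : ℝ := -(2 * (b 0 ^ 2 + b 3 ^ 2) - (b 1 ^ 2 + b 2 ^ 2)) - 6 * b 0 * b 3

theorem key_identity (hb : ∀ i, b i ≠ 0) (h0 : b 0 + b 1 + b 2 + b 3 = 0) (x y : Fin 4) :
    AA b x y - BB b x y = 2 * (z1 b * (pB b x y - pA b x y) + z3 b * (pB b x y - pC b x y)) := by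
  have h00 := hb 0
  have h01 := hb 1
  have h02 := hb 2
  have h03 := hb 3
  have ht : b 3 = - b 0 - b 1 - b 2 := by linarith
  simp only [AA, BB, Fin.sum_univ_four, pat_GP, pat_GN, pA, pB, pC, z1, z3]
  fin_cases x <;> fin_cases y
  all_goals
    simp (config := {decide := true}) only [u, edge, s1, s2, s3, Matrix.cons_val_zero, Matrix.cons_val_one,
      Matrix.cons_val, Fin.zero_eta, Fin.mk_one, Fin.reduceFinMk, if_true, if_false, Fin.isValue]
    generalize b 0 = p at *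
    generalize b 1 = q at *
    generalize b 2 = r at *
    generalize b 3 = t at *
    subst ht
    field_simp
    ring

end Gadget

section Completion

variable (b X Y : Fin 4 → ℝ)

/-- The squared distances. -/
def D (a c : Fin 4) : ℝ := (X a - X c) ^ 2 + (Y a - Y c) ^ 2

/-- A family can be completed to a multiple of the squared distances. -/
def Cmpl (S : Multiset Row) : Prop :=
  ∃ (T : Multiset Row) (γ : ℝ), 0 ≤ γ ∧ ∀ x y, pat x y S + pat x y T = γ * D X Y x y

theorem Cmpl.zero : Cmpl X Y 0 := ⟨0, 0, le_rfl, fun x y => by simp⟩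

theorem Cmpl.add {S T : Multiset Row} (hS : Cmpl X Y S) (hT : Cmpl X Y T) : Cmpl X Y (S + T) := by
  obtain ⟨S', γ, hγ, h⟩ := hS
  obtain ⟨T', γ', hγ', h'⟩ := hT
  refine ⟨S' + T', γ + γ', add_nonneg hγ hγ', fun x y => ?_⟩
  simp only [map_add]
  rw [add_mul, ← h, ← h']
  ring

theorem Cmpl.nsmul {S : Multiset Row} (hS : Cmpl X Y S) (n : ℕ) : Cmpl X Y (n • S) := by
  induction n with
  | zero => simpa using Cmpl.zero X Y
  | succ n ih =>
    rw [succ_nsmul]
    exact ih.add X Y hS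

theorem Cmpl.sum {ι : Type*} (s : Finset ι) (f : ι → Multiset Row) (h : ∀ i ∈ s, Cmpl X Y (f i)) :
    Cmpl X Y (∑ i ∈ s, f i) := by
  classical
  induction s using Finset.induction_on with
  | empty => simpa using Cmpl.zero X Y
  | insert a s ha ih =>
    rw [Finset.sum_insert ha]
    exact (h a (Finset.mem_insert_self a s)).add X Y
      (ih fun i hi => h i (Finset.mem_insert_of_mem hi))

/-- An affine column can be completed by the rotated column. -/
theorem Cmpl.single (r : Row) (τ p q : ℝ) (hr : ∀ m, r m = τ + p * X m + q * Y m) :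
    Cmpl X Y {r} := by
  refine ⟨{fun m => -q * X m + p * Y m}, p ^ 2 + q ^ 2, by positivity, fun x y => ?_⟩
  simp only [pat_singleton, hr, D]
  ring

theorem aff_of_dep (hb3 : b 3 ≠ 0) (h0 : b 0 + b 1 + b 2 + b 3 = 0)
    (hX : b 0 * X 0 + b 1 * X 1 + b 2 * X 2 + b 3 * X 3 = 0)
    (hY : b 0 * Y 0 + b 1 * Y 1 + b 2 * Y 2 + b 3 * Y 3 = 0)
    (hd : (X 1 - X 0) * (Y 2 - Y 0) - (X 2 - X 0) * (Y 1 - Y 0) ≠ 0)
    (r : Row) (hr : b 0 * r 0 + b 1 * r 1 + b 2 * r 2 + b 3 * r 3 = 0) :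
    ∃ τ p q : ℝ, ∀ m, r m = τ + p * X m + q * Y m := by
  set d := (X 1 - X 0) * (Y 2 - Y 0) - (X 2 - X 0) * (Y 1 - Y 0) with hdd
  let p : ℝ := ((r 1 - r 0) * (Y 2 - Y 0) - (r 2 - r 0) * (Y 1 - Y 0)) / d
  let q : ℝ := ((X 1 - X 0) * (r 2 - r 0) - (X 2 - X 0) * (r 1 - r 0)) / d
  let τ : ℝ := r 0 - p * X 0 - q * Y 0
  have e0 : r 0 = τ + p * X 0 + q * Y 0 := by simp only [τ]; ring
  have e1 : r 1 = τ + p * X 1 + q * Y 1 := by
    simp only [τ, p, q]
    field_simp
    rw [hdd]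
    ring
  have e2 : r 2 = τ + p * X 2 + q * Y 2 := by
    simp only [τ, p, q]
    field_simp
    rw [hdd]
    ring
  have e3 : r 3 = τ + p * X 3 + q * Y 3 := by
    have : b 3 * (r 3 - (τ + p * X 3 + q * Y 3)) = 0 := by
      have h1 : b 3 * r 3 = - (b 0 * r 0 + b 1 * r 1 + b 2 * r 2) := by linarith
      have h2 : b 0 * r 0 + b 1 * r 1 + b 2 * r 2 = b 0 * (τ + p * X 0 + q * Y 0)
          + b 1 * (τ + p * X 1 + q * Y 1) + b 2 * (τ + p * X 2 + q * Y 2) := by
        rw [← e0, ← e1, ← e2]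
      have h3 : b 0 * (τ + p * X 0 + q * Y 0) + b 1 * (τ + p * X 1 + q * Y 1)
          + b 2 * (τ + p * X 2 + q * Y 2) + b 3 * (τ + p * X 3 + q * Y 3) = 0 := by
        have : b 0 * (τ + p * X 0 + q * Y 0) + b 1 * (τ + p * X 1 + q * Y 1)
          + b 2 * (τ + p * X 2 + q * Y 2) + b 3 * (τ + p * X 3 + q * Y 3)
          = τ * (b 0 + b 1 + b 2 + b 3) + p * (b 0 * X 0 + b 1 * X 1 + b 2 * X 2 + b 3 * X 3)
            + q * (b 0 * Y 0 + b 1 * Y 1 + b 2 * Y 2 + b 3 * Y 3) := by ring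
        rw [this, h0, hX, hY]
        ring
      linarith
    have := (mul_eq_zero.mp this).resolve_left hb3
    linarith
  refine ⟨τ, p, q, fun m => ?_⟩
  fin_cases m
  · exact e0
  · exact e1
  · exact e2
  · exact e3

theorem edge_dep (hb : ∀ i, b i ≠ 0) (a c : Fin 4) (h : a ≠ c) (v : ℝ) :
    b 0 * edge b a c v 0 + b 1 * edge b a c v 1 + b 2 * edge b a c v 2 + b 3 * edge b a c v 3 = 0 := by
  have h00 := hb 0
  have h01 := hb 1
  have h02 := hb 2
  have h03 := hb 3
  fin_cases a <;> fin_cases c <;> first | exact absurd rfl h | skip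
  all_goals
    simp (config := {decide := true}) only [edge, Fin.zero_eta, Fin.mk_one, Fin.reduceFinMk, if_true, if_false, Fin.isValue]
    field_simp
    ring

section Fix

variable (hb : ∀ i, b i ≠ 0) (h0 : b 0 + b 1 + b 2 + b 3 = 0)
  (hX : b 0 * X 0 + b 1 * X 1 + b 2 * X 2 + b 3 * X 3 = 0)
  (hY : b 0 * Y 0 + b 1 * Y 1 + b 2 * Y 2 + b 3 * Y 3 = 0)
  (hd : (X 1 - X 0) * (Y 2 - Y 0) - (X 2 - X 0) * (Y 1 - Y 0) ≠ 0)

include hb h0 hX hY hd

theorem cmpl_pr (a c : Fin 4) (h : a ≠ c) (v : ℝ) : Cmpl X Y (pr b a c v) := by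
  obtain ⟨τ, p, q, h1⟩ := aff_of_dep b X Y (hb 3) h0 hX hY hd _ (edge_dep b hb a c h v)
  obtain ⟨τ', p', q', h2⟩ := aff_of_dep b X Y (hb 3) h0 hX hY hd _ (edge_dep b hb c a h.symm v)
  exact (Cmpl.single X Y _ τ p q h1).add X Y (Cmpl.single X Y _ τ' p' q' h2)

theorem cmpl_GP (i : Fin 4) (l : ℝ) : Cmpl X Y (GP b i l) := by
  have h1 := cmpl_pr b X Y hb h0 hX hY hd i (s1 i) (s1_ne i) (b i * l)
  have h2 := cmpl_pr b X Y hb h0 hX hY hd i (s2 i) (s2_ne i) (b i * l)
  have h3 := cmpl_pr b X Y hb h0 hX hY hd i (s3 i) (s3_ne i) (b i * l)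
  exact (((h1.add X Y h2).add X Y h3).nsmul X Y 2)

theorem cmpl_MA (a : ℝ) : Cmpl X Y (MA b a) :=
  (cmpl_pr b X Y hb h0 hX hY hd 0 1 (by decide) a).add X Y
    (cmpl_pr b X Y hb h0 hX hY hd 2 3 (by decide) a)

theorem cmpl_MB (a : ℝ) : Cmpl X Y (MB b a) :=
  (cmpl_pr b X Y hb h0 hX hY hd 0 2 (by decide) a).add X Y
    (cmpl_pr b X Y hb h0 hX hY hd 1 3 (by decide) a)

theorem cmpl_MC (a : ℝ) : Cmpl X Y (MC b a) :=
  (cmpl_pr b X Y hb h0 hX hY hd 0 3 (by decide) a).add X Y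
    (cmpl_pr b X Y hb h0 hX hY hd 1 2 (by decide) a)

theorem block1 (z : ℝ) : ∃ A B : Multiset Row, (∀ m, col m A = col m B) ∧ Cmpl X Y B ∧
    ∀ x y, pat x y A - pat x y B = 2 * z * (pB b x y - pA b x y) := by
  rcases le_total 0 z with hz | hz
  · refine ⟨MB b (Real.sqrt z), MA b (Real.sqrt z), fun m => (col_MA b m _).symm,
      cmpl_MA b X Y hb h0 hX hY hd _, fun x y => ?_⟩
    rw [pat_MA, pat_MB, Real.sq_sqrt hz]
    ring
  · have hz' : 0 ≤ -z := by linarith
    refine ⟨MA b (Real.sqrt (-z)), MB b (Real.sqrt (-z)), fun m => col_MA b m _,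
      cmpl_MB b X Y hb h0 hX hY hd _, fun x y => ?_⟩
    rw [pat_MA, pat_MB, Real.sq_sqrt hz']
    ring

theorem block3 (z : ℝ) : ∃ A B : Multiset Row, (∀ m, col m A = col m B) ∧ Cmpl X Y B ∧
    ∀ x y, pat x y A - pat x y B = 2 * z * (pB b x y - pC b x y) := by
  rcases le_total 0 z with hz | hz
  · refine ⟨MB b (Real.sqrt z), MC b (Real.sqrt z), fun m => (col_MC b m _).symm,
      cmpl_MC b X Y hb h0 hX hY hd _, fun x y => ?_⟩
    rw [pat_MC, pat_MB, Real.sq_sqrt hz]
    ring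
  · have hz' : 0 ≤ -z := by linarith
    refine ⟨MC b (Real.sqrt (-z)), MB b (Real.sqrt (-z)), fun m => col_MC b m _,
      cmpl_MB b X Y hb h0 hX hY hd _, fun x y => ?_⟩
    rw [pat_MC, pat_MB, Real.sq_sqrt hz']
    ring

/-- The constant correction. -/
theorem fix_const : ∃ (UP UN : Multiset Row) (μ : ℝ), 0 ≤ μ ∧ (∀ m, col m UP = col m UN) ∧
    (∀ x y, pat x y UN + AA b x y = μ * D X Y x y) ∧
    (∀ x y, pat x y UP + BB b x y = μ * D X Y x y) := by
  obtain ⟨A1, B1, hc1, hB1, hp1⟩ := block1 b X Y hb h0 hX hY hd (z1 b)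
  obtain ⟨A3, B3, hc3, hB3, hp3⟩ := block3 b X Y hb h0 hX hY hd (z3 b)
  have hS : Cmpl X Y (∑ i, GP b i 1 + (B1 + B3)) :=
    (Cmpl.sum X Y _ _ fun i _ => cmpl_GP b X Y hb h0 hX hY hd i 1).add X Y (hB1.add X Y hB3)
  obtain ⟨T, γ, hγ, hT⟩ := hS
  refine ⟨A1 + A3 + T, B1 + B3 + T, γ, hγ, fun m => ?_, fun x y => ?_, fun x y => ?_⟩
  · simp only [map_add, hc1, hc3]
  · have := hT x y
    simp only [map_add, map_sum] at this ⊢
    rw [← this, AA]
    ring
  · have h1 := hT x y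
    have h2 := key_identity b hb h0 x y
    have h3 := hp1 x y
    have h4 := hp3 x y
    simp only [map_add, map_sum] at h1 ⊢
    rw [← h1]
    have h5 : AA b x y = ∑ i, pat x y (GP b i 1) := rfl
    rw [← h5]
    linarith

end Fix

end Completion

section Rot

variable (ρ : ℝ) (α : Fin 4 → ℝ)

/-- The angle attached to a lattice point. -/
noncomputable def th (k : ℤ × ℤ × ℤ) : ℝ :=
  k.1 * (α 0 - α 3) + k.2.1 * (α 1 - α 3) + k.2.2 * (α 2 - α 3)

/-- The four values attached to an angle. -/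
noncomputable def Fl (φ : ℝ) : Multiset ℝ :=
  {ρ * Real.cos φ} + {-(ρ * Real.cos φ)} + {ρ * Real.sin φ} + {-(ρ * Real.sin φ)}

/-- Four rotated columns. -/
noncomputable def rotRows (k : ℤ × ℤ × ℤ) : Multiset Row :=
  {fun m => ρ * Real.cos (th α k - α m)} + {fun m => -(ρ * Real.cos (th α k - α m))}
    + {fun m => ρ * Real.sin (th α k - α m)} + {fun m => -(ρ * Real.sin (th α k - α m))}

/-- Four constant columns. -/
noncomputable def constRows (φ : ℝ) : Multiset Row :=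
  {fun _ => ρ * Real.cos φ} + {fun _ => -(ρ * Real.cos φ)}
    + {fun _ => ρ * Real.sin φ} + {fun _ => -(ρ * Real.sin φ)}

theorem col_rotRows (m : Fin 4) (k : ℤ × ℤ × ℤ) : col m (rotRows ρ α k) = Fl ρ (th α k - α m) := by
  simp only [rotRows, Fl, map_add, col_singleton]

theorem col_constRows (m : Fin 4) (φ : ℝ) : col m (constRows ρ φ) = Fl ρ φ := by
  simp only [constRows, Fl, map_add, col_singleton]

theorem pat_constRows (x y : Fin 4) (φ : ℝ) : pat x y (constRows ρ φ) = 0 := by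
  simp only [constRows, map_add, pat_singleton]
  ring

theorem pat_rotRows (X Y : Fin 4 → ℝ) (hXα : ∀ m, X m = ρ * Real.cos (α m))
    (hYα : ∀ m, Y m = ρ * Real.sin (α m)) (x y : Fin 4) (k : ℤ × ℤ × ℤ) :
    pat x y (rotRows ρ α k) = 2 * D X Y x y := by
  simp only [rotRows, map_add, pat_singleton, D, hXα, hYα, Real.cos_sub, Real.sin_sub]
  have h := Real.sin_sq_add_cos_sq (th α k)
  generalize Real.cos (th α k) = C at *
  generalize Real.sin (th α k) = S at *
  have e : ∀ A : ℝ, A = A * (S ^ 2 + C ^ 2) := by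
    intro A
    rw [h, mul_one]
  rw [e (2 * _)]
  ring

/-- Shift of lattice points. -/
def sh : Fin 4 → ℤ × ℤ × ℤ → ℤ × ℤ × ℤ :=
  ![fun k => (k.1 - 1, k.2.1, k.2.2), fun k => (k.1, k.2.1 - 1, k.2.2),
    fun k => (k.1, k.2.1, k.2.2 - 1), fun k => k]

theorem th_sh (m : Fin 4) (k : ℤ × ℤ × ℤ) : th α k - α m = th α (sh m k) - α 3 := by
  fin_cases m
  all_goals
    simp [th, sh]
    try ring

theorem sh_inj (m : Fin 4) : Function.Injective (sh m) := by
  intro k k' h
  obtain ⟨a, b', c⟩ := k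
  obtain ⟨a', b'', c'⟩ := k'
  fin_cases m <;> simp [sh] at h ⊢ <;> omega

/-- The big box. -/
noncomputable def bigB (n : ℕ) : Finset (ℤ × ℤ × ℤ) :=
  Finset.Ico 0 ((n : ℤ) + 1) ×ˢ Finset.Ico 0 ((n : ℤ) + 1) ×ˢ Finset.Ico 0 ((n : ℤ) + 1)

/-- The core. -/
noncomputable def core (n : ℕ) : Finset (ℤ × ℤ × ℤ) :=
  Finset.Ico 0 (n : ℤ) ×ˢ Finset.Ico 0 (n : ℤ) ×ˢ Finset.Ico 0 (n : ℤ)

/-- The boundary seen from a column. -/
noncomputable def bdy (n : ℕ) (m : Fin 4) : Finset (ℤ × ℤ × ℤ) :=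
  by classical exact ((bigB n).image (sh m)) \ core n

theorem card_bigB (n : ℕ) : (bigB n).card = (n + 1) ^ 3 := by
  simp only [bigB, Finset.card_product, Int.card_Ico]
  have : ((n : ℤ) + 1 - 0).toNat = n + 1 := by
    simp
  rw [this]
  ring

theorem card_core (n : ℕ) : (core n).card = n ^ 3 := by
  simp only [core, Finset.card_product, Int.card_Ico]
  have : ((n : ℤ) - 0).toNat = n := by simp
  rw [this]
  ring

theorem core_sub (n : ℕ) (m : Fin 4) : core n ⊆ (bigB n).image (sh m) := by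
  classical
  intro k hk
  obtain ⟨a, b', c⟩ := k
  simp only [core, Finset.mem_product, Finset.mem_Ico] at hk
  simp only [Finset.mem_image, bigB, Finset.mem_product, Finset.mem_Ico]
  fin_cases m
  · refine ⟨(a + 1, b', c), ?_, by simp [sh]⟩
    simp only
    omega
  · refine ⟨(a, b' + 1, c), ?_, by simp [sh]⟩
    simp only
    omega
  · refine ⟨(a, b', c + 1), ?_, by simp [sh]⟩
    simp only
    omega
  · refine ⟨(a, b', c), ?_, by simp [sh]⟩
    simp only
    omega

theorem card_bdy (n : ℕ) (m : Fin 4) : (bdy n m).card = 3 * n ^ 2 + 3 * n + 1 := by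
  classical
  have h := Finset.card_sdiff_add_card_eq_card (core_sub n m)
  rw [Finset.card_image_of_injective _ (sh_inj m), card_bigB, card_core] at h
  have h' : (bdy n m).card + n ^ 3 = (n + 1) ^ 3 := by
    have : bdy n m = ((bigB n).image (sh m)) \ core n := by
      simp only [bdy]
    rw [this]
    exact h
  have h2 : (n + 1) ^ 3 = (3 * n ^ 2 + 3 * n + 1) + n ^ 3 := by ring
  omega

theorem sum_box (n : ℕ) (m : Fin 4) (F : ℤ × ℤ × ℤ → Multiset ℝ) :
    ∑ k ∈ bigB n, F (sh m k) = ∑ k ∈ core n, F k + ∑ k ∈ bdy n m, F k := by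
  classical
  have h1 : ∑ k ∈ bigB n, F (sh m k) = ∑ k ∈ (bigB n).image (sh m), F k := by
    rw [Finset.sum_image fun a _ b _ h => sh_inj m h]
  have h2 : bdy n m = ((bigB n).image (sh m)) \ core n := by
    simp only [bdy]
  rw [h1, h2, add_comm, Finset.sum_sdiff (core_sub n m)]

end Rot

section Scale

/-- Scaling of a family of columns. -/
noncomputable def scl (s : ℝ) (S : Multiset Row) : Multiset Row := S.map (fun r => s • r)

theorem col_scl (m : Fin 4) (s : ℝ) (S : Multiset Row) :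
    col m (scl s S) = (col m S).map (fun t => s * t) := by
  simp [col, scl, Multiset.map_map]

theorem pat_scl (x y : Fin 4) (s : ℝ) (S : Multiset Row) :
    pat x y (scl s S) = s ^ 2 * pat x y S := by
  induction S using Multiset.induction_on with
  | empty => simp [scl]
  | cons r S ih =>
    have e1 : scl s (r ::ₘ S) = {s • r} + scl s S := by
      simp [scl]
    have e2 : r ::ₘ S = {r} + S := rfl
    rw [e1, e2, map_add, map_add, ih, pat_singleton, pat_singleton, mul_add]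
    simp only [Pi.smul_apply, smul_eq_mul]
    ring

end Scale

section Main

variable (b X Y : Fin 4 → ℝ) (ρ : ℝ) (α : Fin 4 → ℝ)

/-- The values attached to a lattice point. -/
noncomputable def lc (k : ℤ × ℤ × ℤ) : ℝ := ρ * Real.cos (th α k - α 3)
noncomputable def ls (k : ℤ × ℤ × ℤ) : ℝ := ρ * Real.sin (th α k - α 3)

/-- The system with large pattern. -/
noncomputable def BP (n : ℕ) : Multiset Row :=
  6 • ∑ k ∈ bigB n, rotRows ρ α k +
    ∑ i, ∑ k ∈ bdy n i, (GN b i (lc ρ α k) + GN b i (ls ρ α k))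

/-- The system with small pattern. -/
noncomputable def BN (n : ℕ) : Multiset Row :=
  6 • ∑ k ∈ core n, constRows ρ (th α k - α 3) +
    ∑ i, ∑ k ∈ bdy n i, (GP b i (lc ρ α k) + GP b i (ls ρ α k))
    + (24 * (3 * n ^ 2 + 3 * n + 1)) • {(0 : Row)}

theorem col_BP_BN (hb : ∀ i, b i ≠ 0) (n : ℕ) (m : Fin 4) :
    col m (BP b ρ α n) = col m (BN b ρ α n) := by
  classical
  simp only [BP, BN, map_add, map_nsmul, map_sum, col_rotRows, col_constRows, col_singleton]
  -- the boundary terms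
  have hne : ∀ i, i ≠ m → ∑ k ∈ bdy n i, (col m (GP b i (lc ρ α k)) + col m (GP b i (ls ρ α k)))
      = ∑ k ∈ bdy n i, (col m (GN b i (lc ρ α k)) + col m (GN b i (ls ρ α k))) := by
    intro i hi
    refine Finset.sum_congr rfl fun k _ => ?_
    rw [col_GP_ne b i m _ hi.symm, col_GP_ne b i m _ hi.symm]
  have heq : ∑ k ∈ bdy n m, (col m (GP b m (lc ρ α k)) + col m (GP b m (ls ρ α k)))
        + (24 * (3 * n ^ 2 + 3 * n + 1)) • {(0 : Row) m}
      = ∑ k ∈ bdy n m, (col m (GN b m (lc ρ α k)) + col m (GN b m (ls ρ α k)))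
        + 6 • ∑ k ∈ bdy n m, Fl ρ (th α k - α 3) := by
    have h24 : (24 * (3 * n ^ 2 + 3 * n + 1)) • ({(0 : Row) m} : Multiset ℝ)
        = ∑ k ∈ bdy n m, (24 • ({(0 : ℝ)} : Multiset ℝ)) := by
      rw [Finset.sum_const, card_bdy, smul_smul]
      congr 1
      ring
    rw [h24, ← Finset.sum_add_distrib, Finset.smul_sum, ← Finset.sum_add_distrib]
    refine Finset.sum_congr rfl fun k _ => ?_
    have h1 := col_GP_eq b hb m (lc ρ α k)
    have h2 := col_GP_eq b hb m (ls ρ α k)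
    have h3 : Fl ρ (th α k - α 3) = ({lc ρ α k} + {-lc ρ α k}) + ({ls ρ α k} + {-ls ρ α k}) := by
      simp only [Fl, lc, ls]
      abel
    have h4 : (24 : ℕ) • ({(0 : ℝ)} : Multiset ℝ) = 12 • {(0 : ℝ)} + 12 • {(0 : ℝ)} := by
      rw [← add_smul]
    rw [h3, h4, smul_add]
    calc col m (GP b m (lc ρ α k)) + col m (GP b m (ls ρ α k)) + (12 • {(0 : ℝ)} + 12 • {(0 : ℝ)})
        = (col m (GP b m (lc ρ α k)) + 12 • {(0 : ℝ)})
          + (col m (GP b m (ls ρ α k)) + 12 • {(0 : ℝ)}) := by abel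
      _ = _ := by
        rw [h1, h2]
        abel
  have hbox : ∑ k ∈ bigB n, Fl ρ (th α k - α m)
      = ∑ k ∈ core n, Fl ρ (th α k - α 3) + ∑ k ∈ bdy n m, Fl ρ (th α k - α 3) := by
    have := sum_box n m (fun k => Fl ρ (th α k - α 3))
    rw [← this]
    refine Finset.sum_congr rfl fun k _ => ?_
    rw [th_sh]
  rw [hbox, smul_add]
  -- split the sum over columns
  rw [← Finset.add_sum_erase _ _ (Finset.mem_univ m),
    ← Finset.add_sum_erase (Finset.univ) (fun i => ∑ k ∈ bdy n i,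
      (col m (GP b i (lc ρ α k)) + col m (GP b i (ls ρ α k)))) (Finset.mem_univ m)]
  have hrest : ∑ i ∈ Finset.univ.erase m, ∑ k ∈ bdy n i,
        (col m (GP b i (lc ρ α k)) + col m (GP b i (ls ρ α k)))
      = ∑ i ∈ Finset.univ.erase m, ∑ k ∈ bdy n i,
        (col m (GN b i (lc ρ α k)) + col m (GN b i (ls ρ α k))) :=
    Finset.sum_congr rfl fun i hi => hne i (Finset.ne_of_mem_erase hi)
  rw [hrest]
  generalize ∑ k ∈ bdy n m, (col m (GP b m (lc ρ α k)) + col m (GP b m (ls ρ α k))) = HG at heq ⊢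
  generalize ∑ k ∈ bdy n m, (col m (GN b m (lc ρ α k)) + col m (GN b m (ls ρ α k))) = HN at heq ⊢
  generalize ∑ k ∈ bdy n m, Fl ρ (th α k - α 3) = Bd at heq ⊢
  generalize (24 * (3 * n ^ 2 + 3 * n + 1)) • ({(0 : Row) m} : Multiset ℝ) = Z at heq ⊢
  generalize ∑ i ∈ Finset.univ.erase m, ∑ k ∈ bdy n i,
    (col m (GN b i (lc ρ α k)) + col m (GN b i (ls ρ α k))) = Rest
  generalize ∑ k ∈ core n, Fl ρ (th α k - α 3) = Cr
  calc 6 • Cr + 6 • Bd + (HN + Rest) = 6 • Cr + Rest + (HN + 6 • Bd) := by abel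
    _ = 6 • Cr + Rest + (HG + Z) := by rw [heq]
    _ = 6 • Cr + (HG + Rest) + Z := by abel

theorem sq_add_lc (k : ℤ × ℤ × ℤ) : lc ρ α k ^ 2 + ls ρ α k ^ 2 = ρ ^ 2 := by
  simp only [lc, ls, mul_pow]
  rw [← mul_add, Real.cos_sq_add_sin_sq, mul_one]

theorem pat_BP (hXα : ∀ m, X m = ρ * Real.cos (α m)) (hYα : ∀ m, Y m = ρ * Real.sin (α m))
    (n : ℕ) (x y : Fin 4) :
    pat x y (BP b ρ α n) = 12 * ((n : ℝ) + 1) ^ 3 * D X Y x y
      + (3 * (n : ℝ) ^ 2 + 3 * n + 1) * ρ ^ 2 * BB b x y := by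
  simp only [BP, map_add, map_nsmul, map_sum, pat_rotRows ρ α X Y hXα hYα, pat_GN_scale b _ x y (lc ρ α _),
    pat_GN_scale b _ x y (ls ρ α _), ← add_mul, sq_add_lc, Finset.sum_const, card_bigB, card_bdy, BB,
    nsmul_eq_mul, Finset.mul_sum]
  push_cast
  ring

theorem pat_BN (n : ℕ) (x y : Fin 4) :
    pat x y (BN b ρ α n) = (3 * (n : ℝ) ^ 2 + 3 * n + 1) * ρ ^ 2 * AA b x y := by
  simp only [BN, map_add, map_nsmul, map_sum, pat_constRows, pat_singleton, pat_GP_scale b _ x y (lc ρ α _),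
    pat_GP_scale b _ x y (ls ρ α _), ← add_mul, sq_add_lc, Finset.sum_const, card_bdy, AA,
    nsmul_eq_mul, Finset.mul_sum]
  push_cast
  simp
  ring

/-- The extra columns. -/
noncomputable def Ex (t : ℝ) : Multiset Row :=
  {fun m => Real.sqrt t * X m} + {fun m => Real.sqrt t * Y m}

theorem pat_Ex (t : ℝ) (ht : 0 ≤ t) (x y : Fin 4) : pat x y (Ex X Y t) = t * D X Y x y := by
  simp only [Ex, map_add, pat_singleton, D]
  have h : Real.sqrt t ^ 2 = t := Real.sq_sqrt ht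
  calc (Real.sqrt t * X x - Real.sqrt t * X y) ^ 2 + (Real.sqrt t * Y x - Real.sqrt t * Y y) ^ 2
      = Real.sqrt t ^ 2 * ((X x - X y) ^ 2 + (Y x - Y y) ^ 2) := by ring
    _ = _ := by rw [h]

/-- **Two scales for every cyclic quadrilateral.** -/
theorem quad_PN (hb : ∀ i, b i ≠ 0) (h0 : b 0 + b 1 + b 2 + b 3 = 0)
    (hX : b 0 * X 0 + b 1 * X 1 + b 2 * X 2 + b 3 * X 3 = 0)
    (hY : b 0 * Y 0 + b 1 * Y 1 + b 2 * Y 2 + b 3 * Y 3 = 0)
    (hd : (X 1 - X 0) * (Y 2 - Y 0) - (X 2 - X 0) * (Y 1 - Y 0) ≠ 0)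
    (hXα : ∀ m, X m = ρ * Real.cos (α m)) (hYα : ∀ m, Y m = ρ * Real.sin (α m))
    (L : ℕ) (hL : 1 ≤ L) :
    ∃ (P N : Multiset (Fin 4 → ℝ)) (lam : ℝ), 0 < lam ∧
      (∀ i, P.map (fun f => f i) = N.map (fun f => f i)) ∧
      (∀ i j, (N.map (fun f => (f i - f j) ^ 2)).sum = lam / L * D X Y i j) ∧
      (∀ i j, (P.map (fun f => (f i - f j) ^ 2)).sum = (lam / L + lam) * D X Y i j) := by
  obtain ⟨UP, UN, μ, hμ, hc, hN, hP⟩ := fix_const b X Y hb h0 hX hY hd
  have hLpos : (0 : ℝ) < L := by exact_mod_cast hL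
  -- the size of the box
  let n : ℕ := ⌈(L : ℝ) * ρ ^ 2 * μ⌉₊
  have hn : (L : ℝ) * ρ ^ 2 * μ ≤ (n : ℝ) + 1 := by
    have := Nat.le_ceil ((L : ℝ) * ρ ^ 2 * μ)
    linarith
  let w : ℝ := (3 * (n : ℝ) ^ 2 + 3 * n + 1) * ρ ^ 2
  have hw : 0 ≤ w := by positivity
  let lam : ℝ := 12 * ((n : ℝ) + 1) ^ 3
  have hlam : 0 < lam := by positivity
  have hn0 : (0 : ℝ) ≤ n := Nat.cast_nonneg n
  have ht : 0 ≤ lam / L - w * μ := by
    have h1 : w * μ * L ≤ lam := by
      have h2 : (3 * (n : ℝ) ^ 2 + 3 * n + 1) ≤ 3 * ((n : ℝ) + 1) ^ 2 := by nlinarith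
      have h3 : 0 ≤ ρ ^ 2 * μ := by positivity
      have h4 : w * μ * L = (3 * (n : ℝ) ^ 2 + 3 * n + 1) * ((L : ℝ) * ρ ^ 2 * μ) := by
        simp only [w]
        ring
      have h5 : 0 ≤ (L : ℝ) * ρ ^ 2 * μ := by positivity
      rw [h4]
      calc (3 * (n : ℝ) ^ 2 + 3 * n + 1) * ((L : ℝ) * ρ ^ 2 * μ)
          ≤ (3 * ((n : ℝ) + 1) ^ 2) * ((n : ℝ) + 1) := by
            apply mul_le_mul h2 hn h5 (by positivity)
        _ ≤ lam := by
            simp only [lam]
            nlinarith [pow_pos (by positivity : (0 : ℝ) < (n : ℝ) + 1) 3]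
    rw [sub_nonneg, le_div_iff₀ hLpos]
    exact h1
  let t : ℝ := lam / L - w * μ
  refine ⟨BP b ρ α n + scl (Real.sqrt w) UP + Ex X Y t, BN b ρ α n + scl (Real.sqrt w) UN + Ex X Y t,
    lam, hlam, fun i => ?_, fun i j => ?_, fun i j => ?_⟩
  · show col i _ = col i _
    simp only [map_add, col_scl, hc, col_BP_BN b ρ α hb]
  · show pat i j _ = _
    have h1 := hN i j
    simp only [map_add, pat_scl, pat_BN, pat_Ex X Y t ht, Real.sq_sqrt hw]
    have e : pat i j UN = μ * D X Y i j - AA b i j := by linarith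
    rw [e]
    simp only [t]
    simp only [w]
    ring
  · show pat i j _ = _
    have h1 := hP i j
    simp only [map_add, pat_scl, pat_BP b X Y ρ α hXα hYα, pat_Ex X Y t ht, Real.sq_sqrt hw]
    have e : pat i j UP = μ * D X Y i j - BB b i j := by linarith
    rw [e]
    simp only [t, lam]
    simp only [w]
    ring

end Main

end Vale.Agent.Lib.P058K.AllQuads
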