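import Mathlib
import Vale.Agent.Lib.P058.RowMerge

/-!
# Lemma C: finitely many rearrangement classes are monochromatic at once
-/

set_option linter.unusedVariables false
set_option linter.unusedSectionVars false

namespace Vale.Agent.Lib.P058K

open Finset Vale.Agent.Lib.P058

variable {Q Λ : Type} [Fintype Q] [DecidableEq Q] [DecidableEq Λ]

/-- Letter counts of a host word. -/
theorem card_hostWord {n : ℕ} (w : Q → Λ) (τ : Fin n → Q ⊕ Λ) (M : ℕ)
    (hM : ∀ q, (univ.filter (fun t => τ t = Sum.inl q)).card = M) (l : Λ) :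
    (univ.filter (fun t => hostWord w τ t = l)).card =
      M * (univ.filter (fun p => w p = l)).card + (univ.filter (fun t => τ t = Sum.inr l)).card := by
  have h1 : ∀ t, (if hostWord w τ t = l then 1 else 0) =
      (∑ p, if τ t = Sum.inl p ∧ w p = l then 1 else 0) + (if τ t = Sum.inr l then 1 else 0) := by
    intro t
    rcases ht : τ t with p | b
    · simp only [hostWord, ht, Sum.elim_inl, Sum.inl.injEq, reduceCtorEq, if_false, add_zero]
      rw [Finset.sum_eq_single p]
      · simp
      · intro b _ hb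
        simp [Ne.symm hb]
      · simp
    · simp only [hostWord, ht, Sum.elim_inr, id, reduceCtorEq, Sum.inr.injEq, false_and, if_false,
        Finset.sum_const_zero, zero_add]
  rw [card_filter, Finset.sum_congr rfl (fun t _ => h1 t), Finset.sum_add_distrib, Finset.sum_comm,
    ← card_filter]
  congr 1
  rw [card_filter, Finset.mul_sum]
  refine Finset.sum_congr rfl fun p _ => ?_
  by_cases hp : w p = l
  · simp only [hp, and_true, if_true, mul_one]
    rw [← card_filter, hM]
  · simp [hp]

/-- The composite labelling. -/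
def compLabel {n n' : ℕ} (τ'' : Fin n → Fin n' ⊕ Λ) (τ' : Fin n' → Q ⊕ Λ) : Fin n → Q ⊕ Λ :=
  fun t => Sum.elim τ' Sum.inr (τ'' t)

theorem hostWord_comp {n n' : ℕ} (w : Q → Λ) (τ'' : Fin n → Fin n' ⊕ Λ) (τ' : Fin n' → Q ⊕ Λ) :
    hostWord w (compLabel τ'' τ') = hostWord (hostWord w τ') τ'' := by
  funext t
  simp only [hostWord, compLabel]
  rcases τ'' t with q | b <;> rfl

theorem card_compLabel_inl {n n' : ℕ} (τ'' : Fin n → Fin n' ⊕ Λ) (τ' : Fin n' → Q ⊕ Λ)
    (M'' M' : ℕ) (h'' : ∀ q, (univ.filter (fun t => τ'' t = Sum.inl q)).card = M'')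
    (h' : ∀ q, (univ.filter (fun t => τ' t = Sum.inl q)).card = M') (q : Q) :
    (univ.filter (fun t => compLabel τ'' τ' t = Sum.inl q)).card = M' * M'' := by
  have h1 : ∀ t, (if compLabel τ'' τ' t = Sum.inl q then 1 else 0) =
      ∑ q', if τ'' t = Sum.inl q' ∧ τ' q' = Sum.inl q then 1 else 0 := by
    intro t
    rcases ht : τ'' t with p | b
    · have e : compLabel τ'' τ' t = τ' p := by simp [compLabel, ht]
      rw [e, Finset.sum_eq_single p]
      · simp
      · intro b _ hb
        simp [Ne.symm hb]
      · simp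
    · have e : compLabel τ'' τ' t = Sum.inr b := by simp [compLabel, ht]
      rw [e]
      simp
  rw [card_filter, Finset.sum_congr rfl (fun t _ => h1 t), Finset.sum_comm]
  have h2 : ∀ q' : Fin n', (∑ t, if τ'' t = Sum.inl q' ∧ τ' q' = Sum.inl q then 1 else 0) =
      (if τ' q' = Sum.inl q then 1 else 0) * M'' := by
    intro q'
    by_cases hq : τ' q' = Sum.inl q
    · simp only [hq, and_true, if_true, one_mul]
      rw [← card_filter, h'']
    · simp [hq]
  rw [Finset.sum_congr rfl (fun q' _ => h2 q'), ← Finset.sum_mul, ← card_filter, h']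

theorem card_compLabel_inr {n n' : ℕ} (τ'' : Fin n → Fin n' ⊕ Λ) (τ' : Fin n' → Q ⊕ Λ)
    (M'' : ℕ) (h'' : ∀ q, (univ.filter (fun t => τ'' t = Sum.inl q)).card = M'') (l : Λ) :
    (univ.filter (fun t => compLabel τ'' τ' t = Sum.inr l)).card =
      (univ.filter (fun t => τ'' t = Sum.inr l)).card +
        M'' * (univ.filter (fun t => τ' t = Sum.inr l)).card := by
  have h1 : ∀ t, (if compLabel τ'' τ' t = Sum.inr l then 1 else 0) =
      (if τ'' t = Sum.inr l then 1 else 0) +
        ∑ q', if τ'' t = Sum.inl q' ∧ τ' q' = Sum.inr l then 1 else 0 := by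
    intro t
    rcases ht : τ'' t with p | b
    · have e : compLabel τ'' τ' t = τ' p := by simp [compLabel, ht]
      rw [e, Finset.sum_eq_single p]
      · simp
      · intro b _ hb
        simp [Ne.symm hb]
      · simp
    · have e : compLabel τ'' τ' t = Sum.inr b := by simp [compLabel, ht]
      rw [e]
      simp
  rw [card_filter, Finset.sum_congr rfl (fun t _ => h1 t), Finset.sum_add_distrib, ← card_filter]
  congr 1
  rw [Finset.sum_comm]
  have h2 : ∀ q' : Fin n', (∑ t, if τ'' t = Sum.inl q' ∧ τ' q' = Sum.inr l then 1 else 0) =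
      M'' * (if τ' q' = Sum.inr l then 1 else 0) := by
    intro q'
    by_cases hq : τ' q' = Sum.inr l
    · simp only [hq, and_true, if_true, mul_one]
      rw [← card_filter, h'']
    · simp [hq]
  rw [Finset.sum_congr rfl (fun q' _ => h2 q'), ← Finset.mul_sum, ← card_filter]

/-- Finitely many rearrangement classes can be made monochromatic at once by one labelling. -/
theorem listRamsey_aux {κ : Type} [DecidableEq κ] [Fintype Λ] (w0 : κ → Q → Λ) (r : ℕ) (hr : 0 < r)
    (s : Finset κ) :
    ∃ (M n : ℕ) (K : Λ → ℕ), 0 < M ∧ ∀ c : (Fin n → Λ) → Fin r,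
      ∃ τ : Fin n → Q ⊕ Λ, (∀ q, (univ.filter (fun t => τ t = Sum.inl q)).card = M) ∧
        (∀ l, (univ.filter (fun t => τ t = Sum.inr l)).card = K l) ∧
        ∀ k ∈ s, ∃ col, ∀ π : Equiv.Perm Q, c (hostWord (w0 k ∘ π) τ) = col := by
  classical
  induction s using Finset.induction_on with
  | empty =>
    refine ⟨1, Fintype.card Q, fun _ => 0, one_pos, fun c => ?_⟩
    let e := Fintype.equivFin Q
    refine ⟨fun t => Sum.inl (e.symm t), fun q => ?_, fun l => ?_, fun k hk => by simp at hk⟩
    · have : univ.filter (fun t => (Sum.inl (e.symm t) : Q ⊕ Λ) = Sum.inl q) = {e q} := by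
        ext t
        simp only [mem_filter, mem_univ, true_and, mem_singleton, Sum.inl.injEq]
        constructor
        · intro h
          rw [← h]
          simp
        · intro h
          rw [h]
          simp
      rw [this, card_singleton]
    · simp
  | insert k₀ s hk₀ ih =>
    obtain ⟨M', n', K', hM', hc'⟩ := ih
    -- the canonical word of the new class
    obtain ⟨τ₀, h₀1, h₀2, -⟩ := hc' (fun _ => ⟨0, hr⟩)
    let v : Fin n' → Λ := hostWord (w0 k₀) τ₀
    -- all host words of the new class are rearrangements of `v`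
    have hcontent : ∀ (τ' : Fin n' → Q ⊕ Λ)
        (h1 : ∀ q, (univ.filter (fun t => τ' t = Sum.inl q)).card = M')
        (h2 : ∀ l, (univ.filter (fun t => τ' t = Sum.inr l)).card = K' l) (π : Equiv.Perm Q),
        univ.val.map (hostWord (w0 k₀ ∘ π) τ') = univ.val.map v := by
      intro τ' h1 h2 π
      ext l
      rw [Multiset.count_map, Multiset.count_map]
      have e1 := card_hostWord (w0 k₀ ∘ π) τ' M' h1 l
      have e2 := card_hostWord (w0 k₀) τ₀ M' h₀1 l
      have e3 : (univ.filter (fun p => (w0 k₀ ∘ π) p = l)).card =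
          (univ.filter (fun p => w0 k₀ p = l)).card := by
        refine Finset.card_bij (fun p _ => π p) ?_ ?_ ?_
        · intro p hp
          simpa using hp
        · intro a _ b _ hab
          exact π.injective hab
        · intro b hb
          exact ⟨π.symm b, by simpa using hb, by simp⟩
      rw [h2, e3] at e1
      rw [h₀2] at e2
      have e4 : (univ.filter (fun t => hostWord (w0 k₀ ∘ π) τ' t = l)).card =
          (univ.filter (fun t => v t = l)).card := by
        rw [e1]
        exact e2.symm
      have conv : ∀ z : Fin n' → Λ,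
          (Multiset.filter (fun a => l = z a) univ.val).card =
            (univ.filter (fun t => z t = l)).card := by
        intro z
        rw [Finset.card_def, Finset.filter_val]
        congr 1
        refine Multiset.filter_congr fun a _ => ?_
        exact eq_comm
      rw [conv, conv]
      exact e4
    -- the single family theorem
    let ι := {z : Fin n' → Λ // univ.val.map z = univ.val.map v}
    have : Nonempty ι := ⟨⟨v, rfl⟩⟩
    obtain ⟨M'', hM'', hWR⟩ := wordRamsey_of_rearrangements (fun i : ι => i.1)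
      (fun i j => by rw [i.2, j.2])
    obtain ⟨n'', K'', hn⟩ := hWR r hr
    refine ⟨M' * M'', n'', fun l => K'' l - M'' * (univ.filter (fun t => v t = l)).card +
      M'' * K' l, Nat.mul_pos hM' hM'', fun c => ?_⟩
    obtain ⟨τ'', hlab, hcont, col, hcol⟩ := hn c
    obtain ⟨τ', h1, h2, h3⟩ := hc' (fun z => c (hostWord z τ''))
    refine ⟨compLabel τ'' τ', card_compLabel_inl τ'' τ' M'' M' hlab h1, fun l => ?_, fun k hk => ?_⟩
    · rw [card_compLabel_inr τ'' τ' M'' hlab, h2]
      have e1 := card_hostWord v τ'' M'' hlab l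
      rw [show hostWord v τ'' = hostWord ((⟨v, rfl⟩ : ι).1) τ'' from rfl, hcont ⟨v, rfl⟩] at e1
      have : (univ.filter (fun t => τ'' t = Sum.inr l)).card =
          K'' l - M'' * (univ.filter (fun t => v t = l)).card := by
        omega
      rw [this]
    · rcases Finset.mem_insert.mp hk with rfl | hk
      · refine ⟨col, fun π => ?_⟩
        rw [hostWord_comp]
        exact hcol ⟨hostWord (w0 k ∘ π) τ', hcontent τ' h1 h2 π⟩
      · obtain ⟨col', hcol'⟩ := h3 k hk
        refine ⟨col', fun π => ?_⟩
        rw [hostWord_comp]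
        exact hcol' π

/-- Lemma C. -/
theorem listRamsey {κ : Type} [Fintype κ] [Fintype Λ] (w0 : κ → Q → Λ) (r : ℕ) (hr : 0 < r) :
    ∃ (M n : ℕ) (K : Λ → ℕ), 0 < M ∧ ∀ c : (Fin n → Λ) → Fin r,
      ∃ τ : Fin n → Q ⊕ Λ, (∀ q, (univ.filter (fun t => τ t = Sum.inl q)).card = M) ∧
        (∀ l, (univ.filter (fun t => τ t = Sum.inr l)).card = K l) ∧
        ∀ k, ∃ col, ∀ π : Equiv.Perm Q, c (hostWord (w0 k ∘ π) τ) = col := by
  classical
  obtain ⟨M, n, K, hM, h⟩ := listRamsey_aux w0 r hr (univ : Finset κ)
  refine ⟨M, n, K, hM, fun c => ?_⟩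
  obtain ⟨τ, h1, h2, h3⟩ := h c
  exact ⟨τ, h1, h2, fun k => h3 k (mem_univ k)⟩

end Vale.Agent.Lib.P058K
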