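import Mathlib
import Vale.Agent.Lib.P058K.ListRamseyH30
import Vale.Agent.Lib.P058.Defs

/-!
# From two column arrays with equal laws to Ramsey (Hales-Jewett absorption)
-/

set_option linter.unusedVariables false
set_option linter.unusedSectionVars false

namespace Vale.Agent.Lib.P058K.RA

open Finset Vale.Agent.Lib.P058 Vale.Agent.Lib.P058K

/-- Word Ramsey, content form, for several contents at once: for a finite set `CC` of multisets of
real letters and every number of colours there are a host length `n` and a multiplicity `M > 0`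
such that for every colouring of the host words some labelling of the host positions by the `T`
positions and constants, with every position used exactly `M` times, makes the colour of the host
word of `w` depend only on the content of `w`, for contents in `CC`. -/
def MultiContentRamsey : Prop :=
  ∀ (T : ℕ) (CC : Finset (Multiset ℝ)) (r : ℕ), 0 < r →
    ∃ (n M : ℕ), 0 < M ∧ ∀ c : (Fin n → ℝ) → Fin r,
      ∃ τ : Fin n → Fin T ⊕ ℝ,
        (∀ p, (univ.filter fun q => τ q = Sum.inl p).card = M) ∧
        ∀ C ∈ CC, ∃ k, ∀ w : Fin T → ℝ,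
          (univ : Finset (Fin T)).val.map w = C → c (hostWord w τ) = k

section Arrays

variable {a : ℕ}

/-- The constant columns contributed by an inactive coordinate of a line. -/
noncomputable def inact (L : ℕ) (P : Multiset (Fin a → ℝ)) :
    Option (Fin a) → Multiset (Fin a → ℝ)
  | some v => L • P.map (fun x _ => x v)
  | none => 0

theorem row_law {ι : Type} [Fintype ι] [DecidableEq ι] (L : ℕ) (P N : Multiset (Fin a → ℝ))
    (hlaw : ∀ i, P.map (fun x => x i) = N.map (fun x => x i)) (o : ι → Option (Fin a)) (e m : ℕ)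
    (hem : e + m = (univ.filter fun j => o j = none).card * L) (i : Fin a) :
    ((∑ j, inact L P (o j)) + e • P + m • N).map (fun x => x i) =
      ∑ j, L • P.map (fun x => x ((o j).getD i)) := by
  classical
  let Φ := Multiset.mapAddMonoidHom (fun x : Fin a → ℝ => x i)
  have hΦ : ∀ A, A.map (fun x : Fin a → ℝ => x i) = Φ A := fun A => rfl
  have hterm : ∀ j, L • P.map (fun x => x ((o j).getD i)) =
      Φ (inact L P (o j)) + (if o j = none then L • Φ P else 0) := by
    intro j
    cases h : o j with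
    | none =>
      rw [if_pos rfl]
      simp only [inact, map_zero, zero_add]
      rfl
    | some v =>
      simp only [inact, Option.getD_some, map_nsmul, reduceCtorEq, if_false, add_zero]
      congr 1
      simp [Φ, Multiset.map_map]
  rw [hΦ, map_add, map_add, map_sum, map_nsmul, map_nsmul, ← hΦ N, ← hlaw i, hΦ P]
  rw [Finset.sum_congr rfl (fun j _ => hterm j), Finset.sum_add_distrib, add_assoc, ← add_nsmul, hem]
  congr 1
  rw [Finset.sum_ite, Finset.sum_const_zero, add_zero, Finset.sum_const, mul_smul]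

theorem row_dist {ι : Type} [Fintype ι] (L : ℕ) (P N : Multiset (Fin a → ℝ))
    (o : ι → Option (Fin a)) (e m : ℕ) (i i' : Fin a) :
    (((∑ j, inact L P (o j)) + e • P + m • N).map (fun x => (x i - x i') ^ 2)).sum =
      (e : ℝ) * (P.map (fun x => (x i - x i') ^ 2)).sum +
        (m : ℝ) * (N.map (fun x => (x i - x i') ^ 2)).sum := by
  classical
  let Ψ : Multiset (Fin a → ℝ) →+ ℝ := (Multiset.sumAddMonoidHom).comp
    (Multiset.mapAddMonoidHom (fun x : Fin a → ℝ => (x i - x i') ^ 2))
  have hΨ : ∀ A : Multiset (Fin a → ℝ),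
      (A.map (fun x : Fin a → ℝ => (x i - x i') ^ 2)).sum = Ψ A := fun A => rfl
  have h0 : ∀ o' : Option (Fin a), Ψ (inact L P o') = 0 := by
    intro o'
    cases o' with
    | none => simp [inact]
    | some v =>
      simp only [inact, map_nsmul]
      have : Ψ (P.map (fun x _ => x v)) = 0 := by
        rw [← hΨ]
        simp [Multiset.map_map]
      rw [this, smul_zero]
  rw [hΨ, hΨ, hΨ, map_add, map_add, map_sum, map_nsmul, map_nsmul]
  simp [h0]

theorem exists_enum {α : Type} (A : Multiset α) (T : ℕ) (h : Multiset.card A = T) :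
    ∃ col : Fin T → α, (univ : Finset (Fin T)).val.map col = A := by
  subst h
  induction A using Quotient.inductionOn with
  | h l =>
    refine ⟨l.get, ?_⟩
    show (univ : Finset (Fin l.length)).val.map l.get = (l : Multiset α)
    rw [Fin.univ_val_map, List.ofFn_get]

theorem host_sum {n T : ℕ} (w w' : Fin T → ℝ) (τ : Fin n → Fin T ⊕ ℝ) (M : ℕ)
    (hτ : ∀ p, (univ.filter fun q => τ q = Sum.inl p).card = M) :
    ∑ q, (hostWord w τ q - hostWord w' τ q) ^ 2 = M * ∑ p, (w p - w' p) ^ 2 := by
  classical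
  have h1 : ∀ q, (hostWord w τ q - hostWord w' τ q) ^ 2 =
      ∑ p, if τ q = Sum.inl p then (w p - w' p) ^ 2 else 0 := by
    intro q
    cases h : τ q with
    | inl p0 =>
      simp [hostWord, h]
    | inr c =>
      simp [hostWord, h]
  simp_rw [h1]
  rw [Finset.sum_comm, Finset.mul_sum]
  refine Finset.sum_congr rfl fun p _ => ?_
  rw [← Finset.sum_filter, Finset.sum_const, hτ p, nsmul_eq_mul]

/-- **Theorem R.**  If for every `L ≥ 1` there are two arrays of columns with equal laws at every
index, with squared column distance sums `(lam / L) d²` and `(lam / L + lam) d²`, then the point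
family is Ramsey: the unknown size of the active set of a Hales-Jewett line is absorbed by the
array `N`. -/
theorem isRamsey_of_PN (hC : MultiContentRamsey) {a d : ℕ} (X : Fin a → EuclideanSpace ℝ (Fin d))
    (i₀ j₀ : Fin a) (hne : X i₀ ≠ X j₀)
    (hPN : ∀ L : ℕ, 1 ≤ L → ∃ (P N : Multiset (Fin a → ℝ)) (lam : ℝ), 0 < lam ∧
      (∀ i, P.map (fun x => x i) = N.map (fun x => x i)) ∧
      (∀ i j, (N.map fun x => (x i - x j) ^ 2).sum = lam / L * dist (X i) (X j) ^ 2) ∧
      (∀ i j, (P.map fun x => (x i - x j) ^ 2).sum = (lam / L + lam) * dist (X i) (X j) ^ 2)) :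
    IsRamsey (Set.range X) := by
  classical
  intro r hr
  have hr0 : 0 < r := by omega
  obtain ⟨ι, _, hHJ⟩ := Combinatorics.Line.exists_mono_in_high_dimension (Fin a) (Fin r)
  have hιne : Nonempty ι := by
    obtain ⟨l, -⟩ := hHJ (fun _ => ⟨0, hr0⟩)
    exact ⟨l.proper.choose⟩
  obtain ⟨B, hBdef⟩ : ∃ B, B = Fintype.card ι := ⟨_, rfl⟩
  have hB : 1 ≤ B := by rw [hBdef]; exact Fintype.card_pos
  obtain ⟨L, hLdef⟩ : ∃ L, L = B + 1 := ⟨_, rfl⟩
  obtain ⟨P, N, lam, hlam, hlaw, hDN, hDP⟩ := hPN L (by omega)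
  obtain ⟨S, hS⟩ : ∃ S, S = Multiset.card P := ⟨_, rfl⟩
  have hSpos : 0 < S := by
    rw [hS, Multiset.card_pos]
    rintro rfl
    have h := hDP i₀ j₀
    simp only [Multiset.map_zero, Multiset.sum_zero] at h
    have hd : dist (X i₀) (X j₀) ≠ 0 := dist_ne_zero.mpr hne
    have hL0 : (0 : ℝ) < L := by
      rw [hLdef]; positivity
    have : 0 < (lam / L + lam) * dist (X i₀) (X j₀) ^ 2 := by positivity
    linarith
  obtain ⟨T, hT⟩ : ∃ T, T = B * (L * S) := ⟨_, rfl⟩
  have hTpos : 0 < T := by
    rw [hT, hLdef]; positivity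
  let cont : (ι → Fin a) → Multiset ℝ := fun w => ∑ j, L • P.map (fun x => x (w j))
  obtain ⟨n, M, hM, hCn⟩ := hC T (univ.image cont) r hr0
  have hn : 1 ≤ n := by
    obtain ⟨τ, hτ, -⟩ := hCn (fun _ => ⟨0, hr0⟩)
    have h := hτ ⟨0, hTpos⟩
    rw [← h] at hM
    obtain ⟨q, -⟩ := Finset.card_pos.mp hM
    exact Nat.one_le_iff_ne_zero.mpr (fun h0 => by subst h0; exact q.elim0)
  obtain ⟨s, hs⟩ : ∃ s : ℝ, s = Real.sqrt (M * B * lam) := ⟨_, rfl⟩
  have hMBl : 0 < (M : ℝ) * B * lam := by
    have h1 : (0 : ℝ) < M := by exact_mod_cast hM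
    have h2 : (0 : ℝ) < B := by exact_mod_cast hB
    positivity
  have hs2 : s ^ 2 = M * B * lam := by
    rw [hs, Real.sq_sqrt hMBl.le]
  have hspos : 0 < s := by
    rw [hs]; exact Real.sqrt_pos.mpr hMBl
  let pt : (Fin n → ℝ) → EuclideanSpace ℝ (Fin n) := fun v => WithLp.toLp 2 (fun q => v q / s)
  refine ⟨n, hn, fun c₀ => ?_⟩
  obtain ⟨τ, hτ, hmono⟩ := hCn (fun v => c₀ (pt v))
  have hk : ∀ w : ι → Fin a, ∃ k, ∀ w' : Fin T → ℝ,
      (univ : Finset (Fin T)).val.map w' = cont w → c₀ (pt (hostWord w' τ)) = k :=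
    fun w => hmono _ (mem_image_of_mem _ (mem_univ _))
  choose C hC' using hk
  obtain ⟨l, k, hl⟩ := hHJ C
  let o : ι → Option (Fin a) := l.idxFun
  obtain ⟨nn, hnn⟩ : ∃ nn, nn = (univ.filter fun j => o j = none).card := ⟨_, rfl⟩
  have hnn1 : 1 ≤ nn := by
    rw [hnn, Nat.one_le_iff_ne_zero, Finset.card_ne_zero]
    exact ⟨l.proper.choose, by simpa [o] using l.proper.choose_spec⟩
  have hnnB : nn ≤ B := by
    rw [hnn, hBdef]; exact Finset.card_le_univ _
  obtain ⟨e, he⟩ : ∃ e, e = B - nn := ⟨_, rfl⟩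
  have hle : e ≤ nn * L := by
    have : 1 * L ≤ nn * L := Nat.mul_le_mul_right _ hnn1
    omega
  obtain ⟨m, hm⟩ : ∃ m, m = nn * L - e := ⟨_, rfl⟩
  have hem : e + m = nn * L := by omega
  let A : Multiset (Fin a → ℝ) := (∑ j, inact L P (o j)) + e • P + m • N
  have hlawA : ∀ i, A.map (fun x => x i) = cont (fun j => (o j).getD i) := fun i =>
    row_law L P N hlaw o e m (by rw [← hnn]; exact hem) i
  have hcard : Multiset.card A = T := by
    have h := congrArg Multiset.card (hlawA i₀)
    rw [Multiset.card_map] at h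
    rw [h, hT, hBdef]
    simp only [cont, Multiset.card_sum, Multiset.card_nsmul, Multiset.card_map, ← hS]
    simp
  obtain ⟨col, hcol⟩ := exists_enum A T hcard
  let row : Fin a → Fin T → ℝ := fun i p => col p i
  have hrow : ∀ i, (univ : Finset (Fin T)).val.map (row i) = cont (l i) := by
    intro i
    have h1 : (univ : Finset (Fin T)).val.map (row i) =
        ((univ : Finset (Fin T)).val.map col).map (fun x => x i) := by
      rw [Multiset.map_map]; rfl
    rw [h1, hcol, hlawA i]
    rfl
  have hcolour : ∀ i, c₀ (pt (hostWord (row i) τ)) = k := by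
    intro i
    rw [hC' (l i) (row i) (hrow i)]
    exact hl i
  have hsumA : ∀ i j, ∑ p, (row i p - row j p) ^ 2 = B * lam * dist (X i) (X j) ^ 2 := by
    intro i j
    have h1 : ∑ p, (row i p - row j p) ^ 2 = (A.map fun x => (x i - x j) ^ 2).sum := by
      rw [← hcol, Multiset.map_map]
      rfl
    rw [h1, row_dist L P N o e m i j, hDP, hDN]
    have hLpos : (L : ℝ) ≠ 0 := by
      rw [hLdef]; positivity
    have hem' : (e : ℝ) + m = nn * L := by exact_mod_cast hem
    have hen : (e : ℝ) + nn = B := by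
      have : e + nn = B := by omega
      exact_mod_cast this
    have hm' : (m : ℝ) = nn * L - e := by linarith
    rw [hm']
    field_simp
    have hB' : (B : ℝ) = e + nn := hen.symm
    rw [hB']
    ring
  have hdist : ∀ i j, dist (pt (hostWord (row i) τ)) (pt (hostWord (row j) τ)) =
      dist (X i) (X j) := by
    intro i j
    have hsq : dist (pt (hostWord (row i) τ)) (pt (hostWord (row j) τ)) ^ 2 =
        dist (X i) (X j) ^ 2 := by
      rw [EuclideanSpace.dist_eq, Real.sq_sqrt (Finset.sum_nonneg fun _ _ => sq_nonneg _)]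
      simp only [Real.dist_eq, sq_abs, pt]
      have h2 : ∀ q, (hostWord (row i) τ q / s - hostWord (row j) τ q / s) ^ 2 =
          (hostWord (row i) τ q - hostWord (row j) τ q) ^ 2 / s ^ 2 := by
        intro q
        field_simp
      simp_rw [h2]
      rw [← Finset.sum_div, host_sum _ _ τ M hτ, hsumA, hs2]
      have hB0 : (0 : ℝ) < B := by exact_mod_cast hB
      have hM0 : (0 : ℝ) < M := by exact_mod_cast hM
      field_simp
    exact (pow_left_inj₀ dist_nonneg dist_nonneg two_ne_zero).mp hsq
  let f : EuclideanSpace ℝ (Fin d) → EuclideanSpace ℝ (Fin n) := fun y =>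
    if h : ∃ i, X i = y then pt (hostWord (row h.choose) τ) else 0
  have hf : ∀ i, ∃ i', X i' = X i ∧ f (X i) = pt (hostWord (row i') τ) := by
    intro i
    have h : ∃ i', X i' = X i := ⟨i, rfl⟩
    refine ⟨h.choose, h.choose_spec, ?_⟩
    simp only [f]
    rw [dif_pos h]
  refine ⟨f, ?_, k, ?_⟩
  · rintro _ ⟨i, rfl⟩ _ ⟨j, rfl⟩
    obtain ⟨i', hi', hfi⟩ := hf i
    obtain ⟨j', hj', hfj⟩ := hf j
    rw [hfi, hfj, hdist, hi', hj']
  · rintro _ ⟨i, rfl⟩
    obtain ⟨i', hi', hfi⟩ := hf i
    rw [hfi]
    exact hcolour i'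

end Arrays

/-- Equal contents give a rearrangement. -/
theorem perm_of_map_eq {α : Type} {T : ℕ} (y z : Fin T → α)
    (h : (univ : Finset (Fin T)).val.map y = (univ : Finset (Fin T)).val.map z) :
    ∃ π : Equiv.Perm (Fin T), z = y ∘ π := by
  classical
  have hc : ∀ l, Fintype.card {q // y q = l} = Fintype.card {q // z q = l} := by
    intro l
    have h1 := congrArg (Multiset.count l) h
    rw [Multiset.count_map, Multiset.count_map] at h1
    rw [Fintype.card_subtype, Fintype.card_subtype]
    have e1 : ∀ f : Fin T → α, (univ.filter fun q => f q = l).card =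
        Multiset.card ((univ : Finset (Fin T)).val.filter fun a => l = f a) := by
      intro f
      rw [Finset.card_def, Finset.filter_val]
      congr 1
      exact Multiset.filter_congr fun x _ => eq_comm
    rw [e1, e1, h1]
  let e : ∀ l, {q // z q = l} ≃ {q // y q = l} := fun l => Fintype.equivOfCardEq (hc l).symm
  let π : Equiv.Perm (Fin T) :=
    (Equiv.sigmaFiberEquiv z).symm.trans ((Equiv.sigmaCongrRight e).trans (Equiv.sigmaFiberEquiv y))
  refine ⟨π, ?_⟩
  funext q
  simp only [Function.comp_apply]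
  have : y (π q) = z q := by
    simp only [π, Equiv.trans_apply, Equiv.sigmaFiberEquiv, Equiv.sigmaCongrRight]
    exact ((e (z q)) ⟨q, rfl⟩).2
  exact this.symm

/-- Lemma C over real letters, content form. -/
theorem multiContentRamsey : MultiContentRamsey := by
  classical
  intro T CC r hr
  let S : Finset ℝ := CC.biUnion (fun C => C.toFinset)
  let κ := ↥(CC.filter (fun C => Multiset.card C = T))
  have hw0 : ∀ C : κ, ∃ w : Fin T → ↥S,
      (univ : Finset (Fin T)).val.map (fun p => (w p : ℝ)) = C.1 := by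
    intro C
    have hC := Finset.mem_filter.mp C.2
    obtain ⟨col, hcol⟩ := exists_enum C.1 T hC.2
    have hmem : ∀ p, col p ∈ S := by
      intro p
      refine Finset.mem_biUnion.mpr ⟨C.1, hC.1, ?_⟩
      rw [Multiset.mem_toFinset, ← hcol]
      exact Multiset.mem_map_of_mem _ (Finset.mem_univ p)
    exact ⟨fun p => ⟨col p, hmem p⟩, hcol⟩
  choose w0 hw0 using hw0
  obtain ⟨M, n, K, hM, h⟩ := listRamsey w0 r hr
  refine ⟨n, M, hM, fun c => ?_⟩
  let val : (Fin n → ↥S) → (Fin n → ℝ) := fun v q => (v q : ℝ)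
  obtain ⟨τ', h1, h2, h3⟩ := h (fun v => c (val v))
  let τ : Fin n → Fin T ⊕ ℝ := fun q => Sum.map id Subtype.val (τ' q)
  have hτ : ∀ q p, τ q = Sum.inl p ↔ τ' q = Sum.inl p := by
    intro q p
    simp only [τ]
    cases h : τ' q <;> simp
  refine ⟨τ, ?_, ?_⟩
  · intro p
    rw [← h1 p]
    congr 1
    ext q
    simp only [mem_filter, mem_univ, true_and, hτ]
  · intro C hC
    by_cases hc : Multiset.card C = T
    · let Cκ : κ := ⟨C, Finset.mem_filter.mpr ⟨hC, hc⟩⟩
      obtain ⟨col, hcol⟩ := h3 Cκ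
      refine ⟨col, fun w hw => ?_⟩
      obtain ⟨π, hπ⟩ := perm_of_map_eq (fun p => (w0 Cκ p : ℝ)) w ((hw0 Cκ).trans hw.symm)
      have hhost : hostWord w τ = val (hostWord (w0 Cκ ∘ π) τ') := by
        funext q
        simp only [hostWord, val, τ, hπ]
        cases τ' q <;> simp
      rw [hhost]
      exact hcol π
    · refine ⟨⟨0, hr⟩, fun w hw => ?_⟩
      exfalso
      apply hc
      rw [← hw]
      simp

/-- **Theorem R, unconditional.**  A finite point family is Ramsey as soon as for every `L ≥ 1`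
there are two arrays of columns with equal laws at every index, with squared column distance sums
`(lam / L) d²` and `(lam / L + lam) d²`. -/
theorem isRamsey_of_arrays {a d : ℕ} (X : Fin a → EuclideanSpace ℝ (Fin d))
    (i₀ j₀ : Fin a) (hne : X i₀ ≠ X j₀)
    (hPN : ∀ L : ℕ, 1 ≤ L → ∃ (P N : Multiset (Fin a → ℝ)) (lam : ℝ), 0 < lam ∧
      (∀ i, P.map (fun x => x i) = N.map (fun x => x i)) ∧
      (∀ i j, (N.map fun x => (x i - x j) ^ 2).sum = lam / L * dist (X i) (X j) ^ 2) ∧
      (∀ i j, (P.map fun x => (x i - x j) ^ 2).sum = (lam / L + lam) * dist (X i) (X j) ^ 2)) :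
    IsRamsey (Set.range X) :=
  isRamsey_of_PN multiContentRamsey X i₀ j₀ hne hPN

end Vale.Agent.Lib.P058K.RA
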