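import Mathlib
import Vale.Agent.Lib.P058K.AllQuads
import Vale.Agent.Lib.P058K.TheoremRA

/-!
# Every four distinct concyclic points of the plane form a Ramsey set
-/

namespace Vale.Agent.Lib.P058K.AllQuads

open Vale.Agent.Lib.P058

/-- Three distinct points of a circle are never collinear. -/
theorem no_three_collinear (a1 a2 b1 b2 c1 c2 s : ℝ) (ha : a1 ^ 2 + a2 ^ 2 = s)
    (hb : b1 ^ 2 + b2 ^ 2 = s) (hc : c1 ^ 2 + c2 ^ 2 = s)
    (hab : ¬ (a1 = b1 ∧ a2 = b2)) (hac : ¬ (a1 = c1 ∧ a2 = c2)) (hbc : ¬ (b1 = c1 ∧ b2 = c2)) :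
    (b1 - a1) * (c2 - a2) - (c1 - a1) * (b2 - a2) ≠ 0 := by
  intro hD
  have e1 : (c2 - a2) * ((b1 - a1) ^ 2 + (b2 - a2) ^ 2)
      - (b2 - a2) * ((c1 - a1) ^ 2 + (c2 - a2) ^ 2) = 0 := by
    linear_combination (c2 - a2) * (hb - ha) - (b2 - a2) * (hc - ha) - 2 * a1 * hD
  have e2 : (b1 - a1) * ((c1 - a1) ^ 2 + (c2 - a2) ^ 2)
      - (c1 - a1) * ((b1 - a1) ^ 2 + (b2 - a2) ^ 2) = 0 := by
    linear_combination (b1 - a1) * (hc - ha) - (c1 - a1) * (hb - ha) - 2 * a2 * hD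
  have key : ((b1 - a1) ^ 2 + (b2 - a2) ^ 2) * ((c1 - a1) ^ 2 + (c2 - a2) ^ 2)
      * ((b1 - c1) ^ 2 + (b2 - c2) ^ 2) = 0 := by
    have : ((b1 - a1) ^ 2 + (b2 - a2) ^ 2) * ((c1 - a1) ^ 2 + (c2 - a2) ^ 2)
        * ((b1 - c1) ^ 2 + (b2 - c2) ^ 2) =
        ((c2 - a2) * ((b1 - a1) ^ 2 + (b2 - a2) ^ 2)
          - (b2 - a2) * ((c1 - a1) ^ 2 + (c2 - a2) ^ 2)) ^ 2 +
        ((b1 - a1) * ((c1 - a1) ^ 2 + (c2 - a2) ^ 2)
          - (c1 - a1) * ((b1 - a1) ^ 2 + (b2 - a2) ^ 2)) ^ 2 := by ring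
    rw [this, e1, e2]; ring
  have pos : ∀ p q : ℝ, p ^ 2 + q ^ 2 = 0 → p = 0 ∧ q = 0 := by
    intro p q h
    have h' := (add_eq_zero_iff_of_nonneg (sq_nonneg p) (sq_nonneg q)).mp h
    exact ⟨pow_eq_zero_iff (two_ne_zero) |>.mp h'.1, pow_eq_zero_iff (two_ne_zero) |>.mp h'.2⟩
  rcases mul_eq_zero.mp key with h | h
  · rcases mul_eq_zero.mp h with h | h
    · obtain ⟨h1, h2⟩ := pos _ _ h
      exact hab ⟨by linarith, by linarith⟩
    · obtain ⟨h1, h2⟩ := pos _ _ h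
      exact hac ⟨by linarith, by linarith⟩
  · obtain ⟨h1, h2⟩ := pos _ _ h
    exact hbc ⟨by linarith, by linarith⟩

theorem dist_sq_fin2 (u v : EuclideanSpace ℝ (Fin 2)) :
    dist u v ^ 2 = (u 0 - v 0) ^ 2 + (u 1 - v 1) ^ 2 := by
  rw [EuclideanSpace.dist_eq, Real.sq_sqrt (by positivity), Fin.sum_univ_two, Real.dist_eq,
    Real.dist_eq, sq_abs, sq_abs]

theorem exists_angle (p q r : ℝ) (hr : 0 ≤ r) (h : p ^ 2 + q ^ 2 = r ^ 2) :
    ∃ a : ℝ, p = r * Real.cos a ∧ q = r * Real.sin a := by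
  have hz : ‖(⟨p, q⟩ : ℂ)‖ = r := by
    have h1 : ‖(⟨p, q⟩ : ℂ)‖ ^ 2 = r ^ 2 := by
      rw [Complex.sq_norm, Complex.normSq_mk]; linarith
    exact (pow_left_inj₀ (norm_nonneg _) hr (by norm_num)).mp h1
  refine ⟨Complex.arg ⟨p, q⟩, ?_, ?_⟩
  · have := Complex.norm_mul_cos_arg (⟨p, q⟩ : ℂ)
    rw [hz] at this
    exact this.symm
  · have := Complex.norm_mul_sin_arg (⟨p, q⟩ : ℂ)
    rw [hz] at this
    exact this.symm

/-- **Every four distinct points on a circle in the plane form a Ramsey set.** -/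
theorem isRamsey_cyclic_quad (x : Fin 4 → EuclideanSpace ℝ (Fin 2))
    (hinj : Function.Injective x) (c : EuclideanSpace ℝ (Fin 2)) (r : ℝ)
    (hc : ∀ i, dist (x i) c = r) : IsRamsey (Set.range x) := by
  have hr : 0 ≤ r := by rw [← hc 0]; exact dist_nonneg
  let X : Fin 4 → ℝ := fun i => x i 0 - c 0
  let Y : Fin 4 → ℝ := fun i => x i 1 - c 1
  have hcirc : ∀ i, X i ^ 2 + Y i ^ 2 = r ^ 2 := by
    intro i
    rw [← hc i, dist_sq_fin2]
  choose α hXα hYα using fun i => exists_angle (X i) (Y i) r hr (hcirc i)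
  have hdist : ∀ i j, ¬ i = j → ¬ (X i = X j ∧ Y i = Y j) := by
    intro i j hij h
    apply hij
    apply hinj
    ext m
    fin_cases m
    · have := h.1
      simp only [X] at this
      simpa using (by linarith : x i 0 = x j 0)
    · have := h.2
      simp only [Y] at this
      simpa using (by linarith : x i 1 = x j 1)
  have tri : ∀ i j k, i ≠ j → i ≠ k → j ≠ k →
      (X j - X i) * (Y k - Y i) - (X k - X i) * (Y j - Y i) ≠ 0 := by
    intro i j k hij hik hjk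
    exact no_three_collinear (X i) (Y i) (X j) (Y j) (X k) (Y k) (r ^ 2) (hcirc i) (hcirc j)
      (hcirc k) (hdist i j hij) (hdist i k hik) (hdist j k hjk)
  let d : Fin 4 → Fin 4 → Fin 4 → ℝ := fun i j k =>
    (X j - X i) * (Y k - Y i) - (X k - X i) * (Y j - Y i)
  let b : Fin 4 → ℝ := ![d 1 2 3, - d 0 2 3, d 0 1 3, - d 0 1 2]
  have hb : ∀ i, b i ≠ 0 := by
    intro i
    fin_cases i
    · exact tri 1 2 3 (by decide) (by decide) (by decide)
    · exact neg_ne_zero.mpr (tri 0 2 3 (by decide) (by decide) (by decide))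
    · exact tri 0 1 3 (by decide) (by decide) (by decide)
    · exact neg_ne_zero.mpr (tri 0 1 2 (by decide) (by decide) (by decide))
  have h0 : b 0 + b 1 + b 2 + b 3 = 0 := by
    simp only [b, d, Matrix.cons_val]
    ring
  have hX : b 0 * X 0 + b 1 * X 1 + b 2 * X 2 + b 3 * X 3 = 0 := by
    simp only [b, d, Matrix.cons_val]
    ring
  have hY : b 0 * Y 0 + b 1 * Y 1 + b 2 * Y 2 + b 3 * Y 3 = 0 := by
    simp only [b, d, Matrix.cons_val]
    ring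
  have hd : (X 1 - X 0) * (Y 2 - Y 0) - (X 2 - X 0) * (Y 1 - Y 0) ≠ 0 :=
    tri 0 1 2 (by decide) (by decide) (by decide)
  refine Vale.Agent.Lib.P058K.RA.isRamsey_of_arrays x 0 1 (fun h => absurd (hinj h) (by decide)) ?_
  intro L hL
  obtain ⟨P, N, lam, hlam, hlaw, hN, hP⟩ := quad_PN b X Y r α hb h0 hX hY hd hXα hYα L hL
  have hDD : ∀ i j, D X Y i j = dist (x i) (x j) ^ 2 := by
    intro i j
    rw [dist_sq_fin2]
    simp only [D, X, Y]
    ring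
  refine ⟨P, N, lam, hlam, hlaw, ?_, ?_⟩
  · intro i j
    rw [hN i j, hDD]
  · intro i j
    rw [hP i j, hDD]

end Vale.Agent.Lib.P058K.AllQuads
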