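import Vale.Agent.Lib.P058.Cells

/-!
# On a block subcube the colour of a word depends only on its content
-/

set_option linter.unusedVariables false
set_option linter.unusedSectionVars false

namespace Vale.Agent.Lib.P058K

open Finset Vale.Agent.Lib.P058

variable {L : Type} [Fintype L] [DecidableEq L]

/-- Number of occurrences of a letter in a word. -/
def cnt {n : ℕ} (x : Fin n → L) (l : L) : ℕ := (univ.filter (fun p => x p = l)).card

/-- A labelling with every label used `M` times and constants of content `K`. -/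
def Lab {n N : ℕ} (τ : Fin n → Fin N ⊕ L) (M : ℕ) (K : L → ℕ) : Prop :=
  (∀ p, (univ.filter (fun q => τ q = Sum.inl p)).card = M) ∧
    (∀ l, (univ.filter (fun q => τ q = Sum.inr l)).card = K l)

/-- The content of a host word. -/
lemma cnt_hostWord {n N : ℕ} {τ : Fin n → Fin N ⊕ L} {M : ℕ} {K : L → ℕ} (h : Lab τ M K)
    (x : Fin N → L) (l : L) : cnt (hostWord x τ) l = M * cnt x l + K l := by
  classical
  have h1 : (univ.filter (fun q => hostWord x τ q = l)) =
      (univ.filter (fun q => ∃ p, τ q = Sum.inl p ∧ x p = l)) ∪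
        (univ.filter (fun q => τ q = Sum.inr l)) := by
    ext q
    simp only [mem_filter, mem_univ, true_and, mem_union]
    cases hq : τ q with
    | inl p => simp [hostWord, hq]
    | inr a => simp [hostWord, hq]
  have h2 : Disjoint (univ.filter (fun q => ∃ p, τ q = Sum.inl p ∧ x p = l))
      (univ.filter (fun q => τ q = Sum.inr l)) := by
    rw [Finset.disjoint_filter]
    rintro q _ ⟨p, hp, _⟩ h'
    rw [hp] at h'
    exact Sum.inl_ne_inr h'
  have h3 : (univ.filter (fun q => ∃ p, τ q = Sum.inl p ∧ x p = l)) =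
      (univ.filter (fun p => x p = l)).biUnion (fun p => univ.filter (fun q => τ q = Sum.inl p)) := by
    ext q
    simp only [mem_filter, mem_univ, true_and, mem_biUnion]
    constructor
    · rintro ⟨p, hp, hx⟩
      exact ⟨p, hx, hp⟩
    · rintro ⟨p, hx, hp⟩
      exact ⟨p, hp, hx⟩
  have h4 : ((univ.filter (fun p => x p = l)).biUnion
      (fun p => univ.filter (fun q => τ q = Sum.inl p))).card = M * cnt x l := by
    rw [Finset.card_biUnion]
    · rw [Finset.sum_congr rfl (fun p _ => h.1 p), Finset.sum_const, smul_eq_mul, mul_comm]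
      rfl
    · intro a _ b _ hab
      show Disjoint _ _
      rw [Finset.disjoint_filter]
      intro q _ h5 h6
      rw [h5] at h6
      exact hab (Sum.inl_injective h6)
  unfold cnt
  rw [h1, Finset.card_union_of_disjoint h2, h3, h4, h.2 l]
  rfl

/-- Words of the same content are rearrangements of each other. -/
lemma exists_perm_of_cnt {n : ℕ} (y z : Fin n → L) (h : ∀ l, cnt y l = cnt z l) :
    ∃ π : Equiv.Perm (Fin n), z = y ∘ ⇑π⁻¹ := by
  classical
  have hc : ∀ l, Fintype.card {q // y q = l} = Fintype.card {q // z q = l} := by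
    intro l
    have := h l
    simpa [cnt, Fintype.card_subtype] using this
  let e : ∀ l, {q // z q = l} ≃ {q // y q = l} := fun l => Fintype.equivOfCardEq (hc l).symm
  let π : Equiv.Perm (Fin n) :=
    (Equiv.sigmaFiberEquiv z).symm.trans ((Equiv.sigmaCongrRight e).trans (Equiv.sigmaFiberEquiv y))
  refine ⟨π⁻¹, ?_⟩
  funext q
  simp only [Function.comp_apply, inv_inv]
  have : y (π q) = z q := by
    simp only [π, Equiv.trans_apply, Equiv.sigmaFiberEquiv, Equiv.sigmaCongrRight]
    exact ((e (z q)) ⟨q, rfl⟩).2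
  exact this.symm

/-- Composition of labellings. -/
def compLab {n n' N : ℕ} (τ₂ : Fin n → Fin n' ⊕ L) (τ₁ : Fin n' → Fin N ⊕ L) : Fin n → Fin N ⊕ L :=
  fun q => Sum.elim τ₁ Sum.inr (τ₂ q)

lemma hostWord_compLab {n n' N : ℕ} (τ₂ : Fin n → Fin n' ⊕ L) (τ₁ : Fin n' → Fin N ⊕ L)
    (x : Fin N → L) : hostWord x (compLab τ₂ τ₁) = hostWord (hostWord x τ₁) τ₂ := by
  funext q
  simp only [hostWord, compLab]
  cases τ₂ q with
  | inl a => rfl
  | inr l => rfl

lemma lab_compLab {n n' N : ℕ} {τ₂ : Fin n → Fin n' ⊕ L} {τ₁ : Fin n' → Fin N ⊕ L} {M₂ M₁ : ℕ}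
    {K₂ K₁ : L → ℕ} (h₂ : Lab τ₂ M₂ K₂) (h₁ : Lab τ₁ M₁ K₁) :
    Lab (compLab τ₂ τ₁) (M₂ * M₁) (fun l => K₂ l + M₂ * K₁ l) := by
  classical
  have key : ∀ (t : Fin N ⊕ L) (A : Finset (Fin n')),
      A = univ.filter (fun a => τ₁ a = t) →
      (univ.filter (fun q => ∃ a, τ₂ q = Sum.inl a ∧ τ₁ a = t)).card = M₂ * A.card := by
    intro t A hA
    have h3 : (univ.filter (fun q => ∃ a, τ₂ q = Sum.inl a ∧ τ₁ a = t)) =
        A.biUnion (fun a => univ.filter (fun q => τ₂ q = Sum.inl a)) := by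
      ext q
      simp only [mem_filter, mem_univ, true_and, mem_biUnion, hA]
      constructor
      · rintro ⟨a, ha, hb⟩
        exact ⟨a, hb, ha⟩
      · rintro ⟨a, hb, ha⟩
        exact ⟨a, ha, hb⟩
    rw [h3, Finset.card_biUnion]
    · rw [Finset.sum_congr rfl (fun a _ => h₂.1 a), Finset.sum_const, smul_eq_mul, mul_comm]
    · intro a _ b _ hab
      show Disjoint _ _
      rw [Finset.disjoint_filter]
      intro q _ h5 h6
      rw [h5] at h6
      exact hab (Sum.inl_injective h6)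
  constructor
  · intro p
    have h1 : (univ.filter (fun q => compLab τ₂ τ₁ q = Sum.inl p)) =
        (univ.filter (fun q => ∃ a, τ₂ q = Sum.inl a ∧ τ₁ a = Sum.inl p)) := by
      ext q
      simp only [mem_filter, mem_univ, true_and]
      cases hq : τ₂ q with
      | inl a => simp [compLab, hq]
      | inr l => simp [compLab, hq]
    rw [h1, key (Sum.inl p) _ rfl, h₁.1 p]
  · intro l
    have h1 : (univ.filter (fun q => compLab τ₂ τ₁ q = Sum.inr l)) =
        (univ.filter (fun q => τ₂ q = Sum.inr l)) ∪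
          (univ.filter (fun q => ∃ a, τ₂ q = Sum.inl a ∧ τ₁ a = Sum.inr l)) := by
      ext q
      simp only [mem_filter, mem_univ, true_and, mem_union]
      cases hq : τ₂ q with
      | inl a => simp [compLab, hq]
      | inr b => simp [compLab, hq]
    have h2 : Disjoint (univ.filter (fun q => τ₂ q = Sum.inr l))
        (univ.filter (fun q => ∃ a, τ₂ q = Sum.inl a ∧ τ₁ a = Sum.inr l)) := by
      rw [Finset.disjoint_filter]
      rintro q _ h' ⟨a, ha, _⟩
      rw [h'] at ha
      exact Sum.inr_ne_inl ha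
    rw [h1, Finset.card_union_of_disjoint h2, h₂.2 l, key (Sum.inr l) _ rfl, h₁.2 l]

/-- The step of the induction on the list of words. -/
theorem lemmaC_list (hS : ∀ (n : ℕ) (w₀ : Fin n → L),
      ∃ M, 0 < M ∧ WordRamsey (fun π : Equiv.Perm (Fin n) => w₀ ∘ ⇑π⁻¹) M)
    (N r : ℕ) (hr : 0 < r) (xs : List (Fin N → L)) :
    ∃ (M n : ℕ) (K : L → ℕ), 0 < M ∧ ∀ c : (Fin n → L) → Fin r, ∃ τ : Fin n → Fin N ⊕ L,
      Lab τ M K ∧ ∀ x ∈ xs, ∀ y : Fin N → L, (∀ l, cnt x l = cnt y l) →
        c (hostWord x τ) = c (hostWord y τ) := by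
  classical
  induction xs with
  | nil =>
    refine ⟨1, N, fun _ => 0, one_pos, fun c => ⟨Sum.inl, ⟨fun p => ?_, fun l => ?_⟩, ?_⟩⟩
    · have : (univ.filter (fun q : Fin N => (Sum.inl q : Fin N ⊕ L) = Sum.inl p)) = {p} := by
        ext q
        simp
      rw [this, card_singleton]
    · have : (univ.filter (fun q : Fin N => (Sum.inl q : Fin N ⊕ L) = Sum.inr l)) = ∅ := by
        ext q
        simp
      rw [this, card_empty]
    · intro x hx
      simp at hx
  | cons x₀ xs ih =>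
    obtain ⟨M₁, n₁, K₁, hM₁, h₁⟩ := ih
    -- a word of the right content
    have hcol : Nonempty (Fin r) := ⟨⟨0, hr⟩⟩
    obtain ⟨τ₀, hτ₀, -⟩ := h₁ (fun _ => hcol.some)
    let y₀ : Fin n₁ → L := hostWord x₀ τ₀
    obtain ⟨M₂, hM₂, hW⟩ := hS n₁ y₀
    obtain ⟨n₂, K', h₂⟩ := hW r hr
    have hKdef : ∀ l, M₂ * cnt y₀ l ≤ K' l ∨ True := fun l => Or.inr trivial
    refine ⟨M₂ * M₁, n₂, fun l => (K' l - M₂ * cnt y₀ l) + M₂ * K₁ l, Nat.mul_pos hM₂ hM₁,
      fun c => ?_⟩
    obtain ⟨τ₂, hlab, hcont, k, hk⟩ := h₂ c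
    -- constants of the second labelling
    have hconst : ∀ l, (univ.filter (fun q => τ₂ q = Sum.inr l)).card = K' l - M₂ * cnt y₀ l := by
      intro l
      have hlab2 : Lab τ₂ M₂ (fun l => (univ.filter (fun q => τ₂ q = Sum.inr l)).card) :=
        ⟨hlab, fun _ => rfl⟩
      have h3 := cnt_hostWord hlab2 y₀ l
      have h4 := hcont 1 l
      have h5 : hostWord (y₀ ∘ ⇑(1 : Equiv.Perm (Fin n₁))⁻¹) τ₂ = hostWord y₀ τ₂ := by
        simp
      rw [h5] at h4
      have h6 : cnt (hostWord y₀ τ₂) l = K' l := h4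
      omega
    have hLab₂ : Lab τ₂ M₂ (fun l => K' l - M₂ * cnt y₀ l) := ⟨hlab, hconst⟩
    obtain ⟨τ₁, hτ₁, hmono⟩ := h₁ (fun y => c (hostWord y τ₂))
    refine ⟨compLab τ₂ τ₁, lab_compLab hLab₂ hτ₁, ?_⟩
    intro x hx y hxy
    rw [hostWord_compLab, hostWord_compLab]
    rcases List.mem_cons.mp hx with rfl | hx'
    · -- the new word: both host words are rearrangements of `y₀`
      have hrearr : ∀ z : Fin N → L, (∀ l, cnt x l = cnt z l) →
          c (hostWord (hostWord z τ₁) τ₂) = k := by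
        intro z hz
        have hcnt : ∀ l, cnt y₀ l = cnt (hostWord z τ₁) l := by
          intro l
          rw [cnt_hostWord hτ₀, cnt_hostWord hτ₁, hz l]
        obtain ⟨π, hπ⟩ := exists_perm_of_cnt y₀ (hostWord z τ₁) hcnt
        rw [hπ]
        exact hk π
      rw [hrearr x (fun _ => rfl), hrearr y hxy]
    · exact hmono x hx' y hxy

/-- **Lemma C.** On a block subcube the colour of a word depends only on its content. -/
theorem lemmaC (hS : ∀ (n : ℕ) (w₀ : Fin n → L),
      ∃ M, 0 < M ∧ WordRamsey (fun π : Equiv.Perm (Fin n) => w₀ ∘ ⇑π⁻¹) M)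
    (N r : ℕ) (hr : 0 < r) :
    ∃ (M n : ℕ) (K : L → ℕ), 0 < M ∧ ∀ c : (Fin n → L) → Fin r, ∃ τ : Fin n → Fin N ⊕ L,
      (∀ p, (univ.filter (fun q => τ q = Sum.inl p)).card = M) ∧
      (∀ l, (univ.filter (fun q => τ q = Sum.inr l)).card = K l) ∧
      ∀ x y : Fin N → L, (∀ l, (univ.filter (fun p => x p = l)).card =
          (univ.filter (fun p => y p = l)).card) →
        c (hostWord x τ) = c (hostWord y τ) := by
  classical
  obtain ⟨M, n, K, hM, h⟩ := lemmaC_list hS N r hr (univ : Finset (Fin N → L)).toList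
  refine ⟨M, n, K, hM, fun c => ?_⟩
  obtain ⟨τ, hτ, hc⟩ := h c
  exact ⟨τ, hτ.1, hτ.2, fun x y hxy => hc x (by simp) y hxy⟩

end Vale.Agent.Lib.P058K
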