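import Mathlib
import Vale.Agent.Lib.P058.RowMerge
import Vale.Agent.Lib.P058K.LemmaC
import Vale.Agent.Lib.P058C.Defs

/-!
# Theorem R: a Ramsey criterion for finite families through two-part column arrays
-/

set_option linter.unusedVariables false
set_option linter.unusedSectionVars false

namespace Vale.Agent.Lib.P058K.Crit

open Vale.Agent.Lib.P058 Finset

/-- A word `w` on positions `P` has content `κ`: each letter `l` occurs exactly `κ l` times. -/
def HasContent {P Λ : Type} [Fintype P] [DecidableEq Λ] (w : P → Λ) (κ : Λ → ℕ) : Prop :=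
  ∀ l, (univ.filter (fun p => w p = l)).card = κ l

/-- Lemma C: finitely many contents are monochromatic at once. -/
theorem lemmaC_contents (N : ℕ) (Λ : Type) [Fintype Λ] [DecidableEq Λ]
    (cs : List (Λ → ℕ)) (r : ℕ) (hr : 0 < r) :
    ∃ (M n : ℕ) (K : Λ → ℕ), 0 < M ∧ ∀ c : (Fin n → Λ) → Fin r,
      ∃ τ : Fin n → Fin N ⊕ Λ,
        (∀ p, (univ.filter (fun q => τ q = Sum.inl p)).card = M) ∧
        (∀ l, (univ.filter (fun q => τ q = Sum.inr l)).card = K l) ∧
        ∀ κ ∈ cs, ∃ k, ∀ w : Fin N → Λ, HasContent w κ → c (hostWord w τ) = k := by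
  classical
  have hS : ∀ (n : ℕ) (w₀ : Fin n → Λ),
      ∃ M, 0 < M ∧ WordRamsey (fun π : Equiv.Perm (Fin n) => w₀ ∘ ⇑π⁻¹) M := by
    intro n w₀
    refine wordRamsey_of_rearrangements (fun π : Equiv.Perm (Fin n) => w₀ ∘ ⇑π⁻¹) ?_
    intro π π'
    have h : ∀ σ : Equiv.Perm (Fin n), (univ : Finset (Fin n)).val.map (w₀ ∘ ⇑σ) =
        (univ : Finset (Fin n)).val.map w₀ := by
      intro σ
      rw [← Multiset.map_map, Multiset.map_univ_val_equiv]
    rw [h, h]
  obtain ⟨M, n, K, hM, h⟩ := lemmaC hS N r hr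
  refine ⟨M, n, K, hM, fun c => ?_⟩
  obtain ⟨τ, h1, h2, h3⟩ := h c
  refine ⟨τ, h1, h2, fun κ _ => ?_⟩
  by_cases hex : ∃ w : Fin N → Λ, HasContent w κ
  · obtain ⟨w1, hw1⟩ := hex
    exact ⟨c (hostWord w1 τ), fun w hw => h3 w w1 (fun l => by rw [hw l, hw1 l])⟩
  · exact ⟨⟨0, hr⟩, fun w hw => (hex ⟨w, hw⟩).elim⟩

/-- The array hypothesis of Theorem R for squared distances `dsq` on index set `I`. -/
def PNStmt {I : Type} (dsq : I → I → ℝ) : Prop :=
  ∀ L : ℕ, 1 ≤ L → ∃ (P N : Multiset (I → ℝ)) (lam : ℝ), 0 < lam ∧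
    (∀ i, P.map (fun f => f i) = N.map (fun f => f i)) ∧
    (∀ i j, (N.map fun f => (f i - f j) ^ 2).sum = lam / L * dsq i j) ∧
    (∀ i j, (P.map fun f => (f i - f j) ^ 2).sum = (lam / L + lam) * dsq i j)

/-- Enumeration of a multiset of known size by `Fin N`. -/
theorem exists_enum {α : Type} (A : Multiset α) (N : ℕ) (h : A.card = N) :
    ∃ e : Fin N → α, Multiset.map e (univ : Finset (Fin N)).val = A := by
  subst h
  have hlen : A.toList.length = A.card := Multiset.length_toList A
  refine ⟨fun q => A.toList.get (Fin.cast hlen.symm q), ?_⟩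
  have h1 : Multiset.map (fun q : Fin A.card => A.toList.get (Fin.cast hlen.symm q))
      (univ : Finset (Fin A.card)).val =
      ((List.ofFn (fun q : Fin A.card => A.toList.get (Fin.cast hlen.symm q)) : List α) :
        Multiset α) := by
    rw [Fin.univ_val_map]
  rw [h1]
  have h2 : List.ofFn (fun q : Fin A.card => A.toList.get (Fin.cast hlen.symm q)) = A.toList := by
    apply List.ext_getElem
    · simp
    · intro i h1 h2
      simp
  rw [h2, Multiset.coe_toList]

/-- Counting through an enumeration. -/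
theorem count_map_univ {α β : Type} [Fintype α] [DecidableEq β] (f : α → β) (b : β) :
    Multiset.count b ((univ : Finset α).val.map f) = (univ.filter (fun q => f q = b)).card := by
  classical
  rw [Multiset.count_map]
  rw [Finset.card_def, Finset.filter_val]
  congr 1
  apply Multiset.filter_congr
  intro x _
  exact eq_comm

/-- Sum over host positions in terms of the labels. -/
theorem sum_host {n : ℕ} {P Λ : Type} [Fintype P] [DecidableEq P] [Fintype Λ] [DecidableEq Λ]
    (τ : Fin n → P ⊕ Λ) (M : ℕ) (hM : ∀ p, (univ.filter (fun q => τ q = Sum.inl p)).card = M)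
    (g : P → ℝ) :
    ∑ q, Sum.elim g (fun _ => (0 : ℝ)) (τ q) = M * ∑ p, g p := by
  classical
  have h := Finset.sum_fiberwise (s := (univ : Finset (Fin n))) (g := τ)
    (f := fun q => Sum.elim g (fun _ => (0 : ℝ)) (τ q))
  rw [← h, Fintype.sum_sum_type]
  have h1 : ∀ p : P, ∑ q ∈ univ.filter (fun q => τ q = Sum.inl p),
      Sum.elim g (fun _ => (0 : ℝ)) (τ q) = M * g p := by
    intro p
    rw [Finset.sum_congr rfl (g := fun _ => g p)]
    · rw [Finset.sum_const, hM p, nsmul_eq_mul]
    · intro q hq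
      rw [(Finset.mem_filter.mp hq).2]
      rfl
  have h2 : ∀ l : Λ, ∑ q ∈ univ.filter (fun q => τ q = Sum.inr l),
      Sum.elim g (fun _ => (0 : ℝ)) (τ q) = 0 := by
    intro l
    apply Finset.sum_eq_zero
    intro q hq
    rw [(Finset.mem_filter.mp hq).2]
    rfl
  simp only [h1, h2, Finset.sum_const_zero, add_zero, Finset.mul_sum]

/-- The point of `ℝ^(n+1)` attached to a host word: the letters' values, scaled, and a last
coordinate `0`. -/
noncomputable def embed {n : ℕ} {Λ : Type} (val : Λ → ℝ) (s : ℝ) (y : Fin n → Λ) :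
    EuclideanSpace ℝ (Fin (n + 1)) :=
  WithLp.toLp 2 (Fin.snoc (α := fun _ => ℝ) (fun q => s * val (y q)) 0)

theorem embed_dist_sq {n : ℕ} {Λ : Type} (val : Λ → ℝ) (s : ℝ) (y y' : Fin n → Λ) :
    dist (embed val s y) (embed val s y') ^ 2 = s ^ 2 * ∑ q, (val (y q) - val (y' q)) ^ 2 := by
  rw [EuclideanSpace.dist_eq, Real.sq_sqrt (Finset.sum_nonneg fun _ _ => sq_nonneg _),
    Fin.sum_univ_castSucc, Finset.mul_sum]
  have hlast : dist ((embed val s y) (Fin.last n)) ((embed val s y') (Fin.last n)) ^ 2 = 0 := by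
    simp [embed, Fin.snoc_last]
  rw [hlast, add_zero]
  apply Finset.sum_congr rfl
  intro q _
  simp only [embed, Fin.snoc_castSucc, Real.dist_eq, sq_abs]
  ring

theorem card_sum_finset {α β : Type} (s : Finset β) (f : β → Multiset α) :
    Multiset.card (∑ j ∈ s, f j) = ∑ j ∈ s, Multiset.card (f j) := by
  classical
  induction s using Finset.induction_on with
  | empty => simp
  | insert a s ha ih => rw [Finset.sum_insert ha, Finset.sum_insert ha, Multiset.card_add, ih]

/-- **Theorem R.** -/
theorem theoremR {I : Type} [Fintype I] [DecidableEq I] [Nonempty I]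
    {dsq : I → I → ℝ} (hPN : PNStmt dsq) {d : ℕ} (x : I → EuclideanSpace ℝ (Fin d))
    (hx : ∀ i j, dist (x i) (x j) ^ 2 = dsq i j) : IsRamseyFamily x := by
  classical
  intro r hr
  have hrpos : 0 < r := by omega
  have : Nonempty (Fin r) := ⟨⟨0, hrpos⟩⟩
  obtain ⟨ι, instι, hHJ⟩ := Combinatorics.Line.exists_mono_in_high_dimension I (Fin r)
  letI := instι
  have hι : Nonempty ι := by
    obtain ⟨l, _⟩ := hHJ (fun _ => ⟨0, hrpos⟩)
    obtain ⟨j, _⟩ := l.proper
    exact ⟨j⟩
  obtain ⟨B, hBdef⟩ : ∃ B, B = Fintype.card ι := ⟨_, rfl⟩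
  have hB : 1 ≤ B := by
    rw [hBdef]
    exact Fintype.card_pos
  obtain ⟨P, N, lam, hlam, hlaw, hN, hP⟩ := hPN B hB
  let i0 : I := Classical.arbitrary I
  obtain ⟨S, hS⟩ : ∃ S, S = Multiset.card P := ⟨_, rfl⟩
  -- the letters
  let V : Finset ℝ := (P + N).toFinset.biUnion (fun u => univ.image u)
  have hV : ∀ u ∈ P + N, ∀ i, u i ∈ V := by
    intro u hu i
    exact Finset.mem_biUnion.mpr ⟨u, Multiset.mem_toFinset.mpr hu,
      Finset.mem_image_of_mem _ (mem_univ i)⟩
  let Mw : (ι → I) → Multiset ℝ := fun w => ∑ j, B • P.map (fun u => u (w j))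
  let κ : (ι → I) → {z // z ∈ V} → ℕ := fun w l => Multiset.count l.1 (Mw w)
  let cs : List ({z // z ∈ V} → ℕ) := (univ : Finset (ι → I)).toList.map κ
  obtain ⟨M, n, K, hMpos, hhost⟩ := lemmaC_contents (B * B * S) {z // z ∈ V} cs r hrpos
  have hBR : (0 : ℝ) < B := by exact_mod_cast hB
  have hMR : (0 : ℝ) < M := by exact_mod_cast hMpos
  have hprod : 0 < (M : ℝ) * B * lam := by positivity
  let s : ℝ := Real.sqrt (1 / (M * B * lam))
  have hs2 : s ^ 2 = 1 / (M * B * lam) := Real.sq_sqrt (by positivity)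
  refine ⟨n + 1, by omega, fun c' => ?_⟩
  let val : {z // z ∈ V} → ℝ := fun l => l.1
  obtain ⟨τ, hlab, hconst, hmono⟩ := hhost (fun y => c' (embed val s y))
  have hmono' : ∀ w : ι → I, ∃ k, ∀ y : Fin (B * B * S) → {z // z ∈ V}, HasContent y (κ w) →
      c' (embed val s (hostWord y τ)) = k := by
    intro w
    exact hmono (κ w) (List.mem_map.mpr ⟨w, Finset.mem_toList.mpr (mem_univ w), rfl⟩)
  choose C hC using hmono'
  obtain ⟨l, k0, hk0⟩ := hHJ C
  -- the active coordinates
  let Act : Finset ι := univ.filter (fun j => l.idxFun j = none)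
  let Ina : Finset ι := univ.filter (fun j => ¬ l.idxFun j = none)
  let a : ι → I := fun j => (l.idxFun j).getD i0
  obtain ⟨m, hmdef⟩ : ∃ m, m = Act.card := ⟨_, rfl⟩
  obtain ⟨t, htdef⟩ : ∃ t, t = Ina.card := ⟨_, rfl⟩
  have hmt : m + t = B := by
    rw [hmdef, htdef, hBdef]
    exact Finset.card_filter_add_card_filter_not (s := (univ : Finset ι)) _
  have hm : 1 ≤ m := by
    rw [hmdef]
    obtain ⟨j, hj⟩ := l.proper
    exact Finset.card_pos.mpr ⟨j, Finset.mem_filter.mpr ⟨mem_univ j, hj⟩⟩
  have hle : t ≤ m * B := by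
    have : B ≤ m * B := Nat.le_mul_of_pos_left B (by omega)
    omega
  obtain ⟨u, hu⟩ : ∃ u, u + t = m * B := ⟨m * B - t, by omega⟩
  -- the array
  let cst : ι → Multiset (I → ℝ) := fun j => B • P.map (fun f => fun _ : I => f (a j))
  let A : Multiset (I → ℝ) := (∑ j ∈ Ina, cst j) + t • P + u • N
  -- row laws
  have hrow : ∀ i, A.map (fun f => f i) = Mw (l i) := by
    intro i
    let R : Multiset (I → ℝ) →+ Multiset ℝ := Multiset.mapAddMonoidHom (fun f => f i)
    have hR : ∀ X, X.map (fun f : I → ℝ => f i) = R X := fun X => rfl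
    rw [hR]
    have h1 : R A = (∑ j ∈ Ina, B • P.map (fun f => f (a j))) + t • P.map (fun f => f i) +
        u • N.map (fun f => f i) := by
      simp only [A, map_add, map_sum, map_nsmul]
      congr 2
      apply Finset.sum_congr rfl
      intro j _
      simp only [cst, map_nsmul]
      congr 1
      simp only [R, Multiset.coe_mapAddMonoidHom, Multiset.map_map, Function.comp_def]
    rw [h1, ← hlaw i, add_assoc, ← add_nsmul, show t + u = m * B by omega]
    have h2 : Mw (l i) = (∑ j ∈ Act, B • P.map (fun f => f (l i j))) +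
        ∑ j ∈ Ina, B • P.map (fun f => f (l i j)) :=
      (Finset.sum_filter_add_sum_filter_not univ _ _).symm
    have h3 : ∑ j ∈ Act, B • P.map (fun f => f (l i j)) = (m * B) • P.map (fun f => f i) := by
      rw [Finset.sum_congr rfl (g := fun _ => B • P.map (fun f => f i)), Finset.sum_const, ← hmdef,
        smul_smul]
      intro j hj
      have hj' : l.idxFun j = none := (Finset.mem_filter.mp hj).2
      have : ∀ f : I → ℝ, f (l i j) = f i := by
        intro f
        simp [hj']
      simp only [this]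
    have h4 : ∑ j ∈ Ina, B • P.map (fun f => f (l i j)) =
        ∑ j ∈ Ina, B • P.map (fun f => f (a j)) := by
      apply Finset.sum_congr rfl
      intro j hj
      have hj' : ¬ l.idxFun j = none := (Finset.mem_filter.mp hj).2
      obtain ⟨v, hv⟩ := Option.ne_none_iff_exists'.mp hj'
      have : ∀ f : I → ℝ, f (l i j) = f (a j) := by
        intro f
        simp [a, hv]
      simp only [this]
    rw [h2, h3, h4, add_comm]
  -- size
  have hcardMw : ∀ w, Multiset.card (Mw w) = B * B * S := by
    intro w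
    simp only [Mw]
    rw [card_sum_finset]
    have : ∀ j ∈ (univ : Finset ι), Multiset.card (B • P.map (fun u => u (w j))) = B * S := by
      intro j _
      rw [Multiset.card_nsmul, Multiset.card_map, hS]
    rw [Finset.sum_congr rfl this, Finset.sum_const, Finset.card_univ, ← hBdef, smul_eq_mul]
    ring
  have hcardA : Multiset.card A = B * B * S := by
    have h := congrArg Multiset.card (hrow i0)
    rw [Multiset.card_map, hcardMw] at h
    exact h
  obtain ⟨e, he⟩ := exists_enum A (B * B * S) hcardA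
  have hemem : ∀ q, e q ∈ A := by
    intro q
    rw [← he]
    exact Multiset.mem_map_of_mem e (mem_univ q)
  have hAV : ∀ f ∈ A, ∀ i, f i ∈ V := by
    intro f hf i
    rcases Multiset.mem_add.mp hf with hf | hf
    · rcases Multiset.mem_add.mp hf with hf | hf
      · obtain ⟨j, _, hj⟩ := Multiset.mem_sum.mp hf
        have hj2 := Multiset.mem_of_mem_nsmul hj
        obtain ⟨g, hg, rfl⟩ := Multiset.mem_map.mp hj2
        exact hV g (Multiset.mem_add.mpr (Or.inl hg)) _
      · exact hV f (Multiset.mem_add.mpr (Or.inl (Multiset.mem_of_mem_nsmul hf))) i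
    · exact hV f (Multiset.mem_add.mpr (Or.inr (Multiset.mem_of_mem_nsmul hf))) i
  let y : I → Fin (B * B * S) → {z // z ∈ V} := fun i q => ⟨e q i, hAV _ (hemem q) i⟩
  have hcontent : ∀ i, HasContent (y i) (κ (l i)) := by
    intro i z
    show _ = Multiset.count z.1 (Mw (l i))
    rw [← hrow i, ← he, Multiset.map_map]
    have := count_map_univ (fun q => ((fun f : I → ℝ => f i) ∘ e) q) z.1
    rw [this]
    congr 1
    ext q
    simp only [mem_filter, mem_univ, true_and, Function.comp, y, Subtype.ext_iff]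
  -- the distances
  have hsum : ∀ i i', ∑ q, (e q i - e q i') ^ 2 = B * lam * dsq i i' := by
    intro i i'
    let Φ : Multiset (I → ℝ) →+ ℝ := Multiset.sumAddMonoidHom.comp
      (Multiset.mapAddMonoidHom (fun f => (f i - f i') ^ 2))
    have hΦ : ∀ X, (X.map (fun f : I → ℝ => (f i - f i') ^ 2)).sum = Φ X := fun X => rfl
    have h0 : ∑ q, (e q i - e q i') ^ 2 = Φ A := by
      rw [← hΦ, ← he, Multiset.map_map]
      rfl
    have hc : ∀ j, Φ (cst j) = 0 := by
      intro j
      simp only [cst, map_nsmul]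
      have : Φ (P.map (fun f => fun _ : I => f (a j))) = 0 := by
        rw [← hΦ, Multiset.map_map]
        simp [Function.comp_def]
      rw [this, smul_zero]
    have h1 : Φ A = t • Φ P + u • Φ N := by
      simp only [A, map_add, map_sum, map_nsmul, hc, Finset.sum_const_zero, zero_add]
    rw [h0, h1, ← hΦ, ← hΦ, hP, hN, nsmul_eq_mul, nsmul_eq_mul]
    have hu' : (u : ℝ) + t = m * B := by exact_mod_cast hu
    have hmt' : (m : ℝ) + t = B := by exact_mod_cast hmt
    have : (t : ℝ) * (lam / B + lam) + u * (lam / B) = B * lam := by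
      have hdiv : (m : ℝ) * B * (lam / B) = m * lam := by field_simp
      calc (t : ℝ) * (lam / B + lam) + u * (lam / B) = ((u : ℝ) + t) * (lam / B) + t * lam := by ring
        _ = (m : ℝ) * B * (lam / B) + t * lam := by rw [hu']
        _ = m * lam + t * lam := by rw [hdiv]
        _ = ((m : ℝ) + t) * lam := by ring
        _ = B * lam := by rw [hmt']
    calc (t : ℝ) * ((lam / B + lam) * dsq i i') + u * (lam / B * dsq i i')
        = ((t : ℝ) * (lam / B + lam) + u * (lam / B)) * dsq i i' := by ring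
      _ = B * lam * dsq i i' := by rw [this]
  have hdist : ∀ i i', dist (embed val s (hostWord (y i) τ)) (embed val s (hostWord (y i') τ)) ^ 2
      = dist (x i) (x i') ^ 2 := by
    intro i i'
    rw [embed_dist_sq, hx]
    have h1 : ∀ q, (val (hostWord (y i) τ q) - val (hostWord (y i') τ q)) ^ 2 =
        Sum.elim (fun p => (e p i - e p i') ^ 2) (fun _ => (0 : ℝ)) (τ q) := by
      intro q
      simp only [hostWord]
      cases τ q with
      | inl p => simp [val, y]
      | inr z => simp
    rw [Finset.sum_congr rfl (fun q _ => h1 q), sum_host τ M hlab, hsum, hs2]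
    field_simp
  refine ⟨fun i => embed val s (hostWord (y i) τ), fun i i' => ?_, k0, fun i => ?_⟩
  · exact (pow_left_inj₀ dist_nonneg dist_nonneg two_ne_zero).mp (hdist i i')
  · rw [hC (l i) (y i) (hcontent i)]
    exact hk0 i

/-- **The array criterion (sufficiency).** A finite family whose squared distances satisfy the array
condition for every gain `W ≥ 2` is Ramsey. -/
theorem isRamseyFamily_of_arrayCond {k d : ℕ} (x : Fin k → EuclideanSpace ℝ (Fin d))
    (h : ∀ W : ℕ, 2 ≤ W → Vale.Agent.Lib.P058C.ArrayCond (fun i j => dist (x i) (x j) ^ 2) W) :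
    IsRamseyFamily x := by
  rcases isEmpty_or_nonempty (Fin k) with hk | hk
  · intro r hr
    exact ⟨1, le_rfl, fun c => ⟨fun i => isEmptyElim i, fun i => isEmptyElim i, ⟨0, by omega⟩,
      fun i => isEmptyElim i⟩⟩
  · refine theoremR (dsq := fun i j => dist (x i) (x j) ^ 2) ?_ x (fun _ _ => rfl)
    intro L hL
    obtain ⟨P, N, g, hg, hlaw, hN, hP⟩ := h (L + 1) (by omega)
    have hLR : (0 : ℝ) < L := by exact_mod_cast hL
    refine ⟨P, N, L * g, by positivity, hlaw, fun i j => ?_, fun i j => ?_⟩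
    · rw [hN]
      congr 1
      field_simp
    · rw [hP]
      push_cast
      congr 1
      field_simp
      ring

end Vale.Agent.Lib.P058K.Crit
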