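import Mathlib

/-!
# The separability idempotent of a finite extension of the rationals
-/

namespace Vale.Agent.Lib.P058K.RS

open scoped TensorProduct

/-- A Casimir element of a number field. -/
theorem exists_casimir (K : Type) [Field K] [Algebra ℚ K] [FiniteDimensional ℚ K] :
    ∃ e : K ⊗[ℚ] K, Algebra.TensorProduct.lmul' ℚ e = (1 : K) ∧
      ∀ y : K, (y ⊗ₜ[ℚ] (1 : K)) * e = ((1 : K) ⊗ₜ[ℚ] y) * e := by
  classical
  have hU : Algebra.FormallyUnramified ℚ K := Algebra.FormallyUnramified.of_isSeparable ℚ K
  have hsub : Subsingleton (Ω[K⁄ℚ]) := inferInstance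
  set I := KaehlerDifferential.ideal ℚ K with hI
  have hidem : IsIdempotentElem I := by
    have : Subsingleton I.Cotangent := hsub
    exact (Ideal.cotangent_subsingleton_iff _).mp this
  have hfg : I.FG := KaehlerDifferential.ideal_fg ℚ K
  obtain ⟨e', he', hIe⟩ := (Ideal.isIdempotentElem_iff_of_fg I hfg).mp hidem
  refine ⟨1 - e', ?_, fun y => ?_⟩
  · have hmem : e' ∈ I := by
      rw [hIe]
      exact Ideal.mem_span_singleton_self e'
    have h0 : Algebra.TensorProduct.lmul' ℚ e' = (0 : K) := hmem
    rw [map_sub, h0, map_one, sub_zero]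
  · have hmem : (y ⊗ₜ[ℚ] (1 : K)) - ((1 : K) ⊗ₜ[ℚ] y) ∈ I := by
      rw [hI, KaehlerDifferential.ideal, RingHom.mem_ker]
      simp [Algebra.TensorProduct.lmul'_apply_tmul]
    rw [hIe, Ideal.mem_span_singleton] at hmem
    obtain ⟨t, ht⟩ := hmem
    have h1 : ((y ⊗ₜ[ℚ] (1 : K)) - ((1 : K) ⊗ₜ[ℚ] y)) * (1 - e') = 0 := by
      rw [ht]
      have : e' * e' = e' := he'
      linear_combination (-t) * this
    linear_combination h1

/-- The Casimir element as a finite family of pairs: for every biadditive real valued function on a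
number field, multiplication can be moved across the family, and the products sum to `1`. -/
theorem exists_casimir_family (K : Type) [Field K] [Algebra ℚ K] [FiniteDimensional ℚ K] :
    ∃ S : Finset (K × K), (∑ i ∈ S, i.1 * i.2 = 1) ∧
      ∀ A : K → K → ℝ, (∀ u v w, A (u + v) w = A u w + A v w) →
        (∀ u v w, A u (v + w) = A u v + A u w) →
        ∀ α : K, ∑ i ∈ S, A (α * i.1) i.2 = ∑ i ∈ S, A i.1 (α * i.2) := by
  classical
  obtain ⟨e, he1, he2⟩ := exists_casimir K
  obtain ⟨S, hS⟩ := TensorProduct.exists_finset e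
  refine ⟨S, ?_, fun A h1 h2 α => ?_⟩
  · rw [hS, map_sum] at he1
    simpa [Algebra.TensorProduct.lmul'_apply_tmul] using he1
  · -- the linear map on the tensor product attached to `A`
    let A2 : K →+ (K →+ ℝ) :=
      { toFun := fun u => AddMonoidHom.mk' (A u) (fun v w => h2 u v w)
        map_zero' := by
          ext w
          have := h1 0 0 w
          simp only [add_zero] at this
          simp only [AddMonoidHom.mk'_apply, AddMonoidHom.zero_apply]
          linarith
        map_add' := fun u v => by
          ext w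
          simp [h1] }
    let Alin : K →ₗ[ℚ] K →ₗ[ℚ] ℝ :=
      { toFun := fun u => (A2 u).toRatLinearMap
        map_add' := fun u v => by
          ext w
          simp
        map_smul' := fun q u => by
          ext w
          simp only [AddMonoidHom.coe_toRatLinearMap, RingHom.id_apply, LinearMap.smul_apply]
          rw [map_rat_smul A2 q u]
          rfl }
    have hA : ∀ u w, Alin u w = A u w := fun u w => rfl
    let T : K ⊗[ℚ] K →ₗ[ℚ] ℝ := TensorProduct.lift Alin
    have hT : ∀ u w, T (u ⊗ₜ[ℚ] w) = A u w := fun u w => by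
      simp only [T, TensorProduct.lift.tmul, hA]
    have h3 := congrArg T (he2 α)
    rw [hS, Finset.mul_sum, Finset.mul_sum, map_sum, map_sum] at h3
    simpa [hT] using h3

end Vale.Agent.Lib.P058K.RS
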