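import Mathlib

/-!
# Explicit circulant pair `(P, N)` for the kite (P058)

`exists_PN`: for every `L ≥ 1` there are multisets of columns `P N` (functions on the four
points of the kite that are restrictions of affine functions) with the same law at every index and
with `D(N) = (lam / L) d²`, `D(P) = (lam / L + lam) d²`.
-/

open scoped BigOperators
open Finset

noncomputable section

namespace Vale.Agent.Lib.P058K.Circulant

/-- `e = √2 - 1`. -/
def e : ℝ := Real.sqrt 2 - 1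
/-- `h = √(2√2 - 2)`. -/
def h : ℝ := Real.sqrt (2 * Real.sqrt 2 - 2)

/-- abscissae of the kite divided by `h`. -/
def xi : Fin 4 → ℝ := ![-1, 1, 0, 0]
/-- ordinates of the kite. -/
def Zc : Fin 4 → ℝ := ![e, e, -1, 1]
/-- abscissae of the kite. -/
def Xc : Fin 4 → ℝ := ![-h, h, 0, 0]

/-- squared distances of the kite. -/
def kd2 (i j : Fin 4) : ℝ := (Xc i - Xc j) ^ 2 + (Zc i - Zc j) ^ 2

/-- the column of the affine function `a + p x¹/h + q x²`. -/
def col (a p q : ℝ) : Fin 4 → ℝ := fun i => a + p * xi i + q * Zc i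

lemma sqrt2_sq : Real.sqrt 2 ^ 2 = 2 := Real.sq_sqrt (by norm_num)

lemma sqrt2_lo : (1.41 : ℝ) < Real.sqrt 2 := by
  apply Real.lt_sqrt_of_sq_lt; norm_num

lemma sqrt2_hi : Real.sqrt 2 < 1.42 := by
  rw [Real.sqrt_lt' (by norm_num)]; norm_num

lemma e_lo : (0.41 : ℝ) < e := by unfold e; linarith [sqrt2_lo]
lemma e_hi : e < 0.42 := by unfold e; linarith [sqrt2_hi]
lemma e_pos : 0 < e := by linarith [e_lo]

lemma e_sq : e ^ 2 + 2 * e = 1 := by
  unfold e; nlinarith [sqrt2_sq]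

lemma h_sq : h ^ 2 = 2 * e := by
  unfold h e
  rw [Real.sq_sqrt (by nlinarith [sqrt2_lo])]; ring

lemma Xc_eq (i : Fin 4) : Xc i = h * xi i := by
  fin_cases i <;> simp [Xc, xi]

lemma kd2_eq (i j : Fin 4) : kd2 i j = 2 * e * (xi i - xi j) ^ 2 + (Zc i - Zc j) ^ 2 := by
  unfold kd2
  rw [Xc_eq, Xc_eq]
  have : (h * xi i - h * xi j) ^ 2 = h ^ 2 * (xi i - xi j) ^ 2 := by ring
  rw [this, h_sq]

lemma col_sub (a p q a' p' q' : ℝ) (i j : Fin 4) (hi : a = a') (hp : p = p') (hq : q = q') :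
    col a p q i - col a' p' q' j = p * (xi i - xi j) + q * (Zc i - Zc j) := by
  subst hi hp hq; unfold col; ring

/-! ### The standard character of `ZMod m` -/

section Char

variable {m : ℕ} [NeZero m]

/-- real part of the standard character. -/
def cs (l : ZMod m) : ℝ := (ZMod.stdAddChar l).re
/-- imaginary part of the standard character. -/
def sn (l : ZMod m) : ℝ := (ZMod.stdAddChar l).im

lemma cs_add (l a : ZMod m) : cs (l + a) = cs l * cs a - sn l * sn a := by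
  unfold cs sn
  rw [AddChar.map_add_eq_mul, Complex.mul_re]

lemma sn_add (l a : ZMod m) : sn (l + a) = sn l * cs a + cs l * sn a := by
  unfold cs sn
  rw [AddChar.map_add_eq_mul, Complex.mul_im]; ring

lemma cs_sq_add_sn_sq (l : ZMod m) : cs l ^ 2 + sn l ^ 2 = 1 := by
  unfold cs sn
  have h1 : ‖(ZMod.stdAddChar l : ℂ)‖ = 1 := by
    rw [ZMod.stdAddChar_apply]; exact Circle.norm_coe _
  have h2 := Complex.sq_norm (ZMod.stdAddChar l : ℂ)
  rw [h1, Complex.normSq_apply] at h2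
  nlinarith [h2]

lemma cs_intCast (j : ℤ) :
    cs (j : ZMod m) = Real.cos (2 * Real.pi * j / m) := by
  unfold cs
  rw [ZMod.stdAddChar_coe]
  have : (2 * (Real.pi : ℂ) * Complex.I * (j : ℂ) / (m : ℂ))
      = ((2 * Real.pi * j / m : ℝ) : ℂ) * Complex.I := by
    push_cast; ring
  rw [this, Complex.exp_ofReal_mul_I_re]

lemma sn_intCast (j : ℤ) :
    sn (j : ZMod m) = Real.sin (2 * Real.pi * j / m) := by
  unfold sn
  rw [ZMod.stdAddChar_coe]
  have : (2 * (Real.pi : ℂ) * Complex.I * (j : ℂ) / (m : ℂ))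
      = ((2 * Real.pi * j / m : ℝ) : ℂ) * Complex.I := by
    push_cast; ring
  rw [this, Complex.exp_ofReal_mul_I_im]

lemma cs_zero : cs (0 : ZMod m) = 1 := by
  unfold cs; simp

lemma sn_zero : sn (0 : ZMod m) = 0 := by
  unfold sn; simp

lemma cs_neg (a : ZMod m) : cs (-a) = cs a := by
  have h1 := cs_add a (-a)
  have h2 := sn_add a (-a)
  rw [add_neg_cancel, cs_zero] at h1
  rw [add_neg_cancel, sn_zero] at h2
  have h3 := cs_sq_add_sn_sq a
  nlinarith [h1, h2, h3, mul_self_nonneg (cs (-a) - cs a), mul_self_nonneg (sn (-a) + sn a),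
    cs_sq_add_sn_sq (-a)]

lemma sn_neg (a : ZMod m) : sn (-a) = -sn a := by
  have h1 := cs_add a (-a)
  have h2 := sn_add a (-a)
  rw [add_neg_cancel, cs_zero] at h1
  rw [add_neg_cancel, sn_zero] at h2
  have h3 := cs_sq_add_sn_sq a
  nlinarith [h1, h2, h3, mul_self_nonneg (cs (-a) - cs a), mul_self_nonneg (sn (-a) + sn a),
    cs_sq_add_sn_sq (-a)]

lemma sum_char_sq (hm : 3 ≤ m) :
    ∑ l : ZMod m, (ZMod.stdAddChar l : ℂ) ^ 2 = 0 := by
  have h2 : (2 : ZMod m) ≠ 0 := by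
    intro h0
    have : ((2 : ℕ) : ZMod m) = 0 := by exact_mod_cast h0
    rw [ZMod.natCast_eq_zero_iff] at this
    have := Nat.le_of_dvd (by norm_num) this
    omega
  have key := AddChar.sum_mulShift (R := ZMod m) (R' := ℂ) (ψ := ZMod.stdAddChar) (2 : ZMod m)
    (ZMod.isPrimitive_stdAddChar m)
  rw [if_neg h2, Nat.cast_zero] at key
  rw [← key]
  apply Finset.sum_congr rfl
  intro l _
  rw [sq, ← AddChar.map_add_eq_mul]
  congr 1; ring

lemma sum_cs_sq (hm : 3 ≤ m) : ∑ l : ZMod m, cs l ^ 2 = (m : ℝ) / 2 := by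
  have h0 := congrArg Complex.re (sum_char_sq (m := m) hm)
  simp only [Complex.re_sum, Complex.zero_re] at h0
  have h1 : ∀ l : ZMod m, ((ZMod.stdAddChar l : ℂ) ^ 2).re = 2 * cs l ^ 2 - 1 := by
    intro l
    have := cs_sq_add_sn_sq l
    rw [sq, Complex.mul_re]
    unfold cs sn at *
    nlinarith [this]
  simp only [h1, Finset.sum_sub_distrib, ← Finset.mul_sum] at h0
  have hcard : ∑ _l : ZMod m, (1 : ℝ) = m := by
    simp [ZMod.card]
  rw [hcard] at h0
  linarith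

lemma sum_sn_sq (hm : 3 ≤ m) : ∑ l : ZMod m, sn l ^ 2 = (m : ℝ) / 2 := by
  have h1 : ∀ l : ZMod m, sn l ^ 2 = 1 - cs l ^ 2 := by
    intro l; linarith [cs_sq_add_sn_sq l]
  simp only [h1, Finset.sum_sub_distrib, sum_cs_sq hm]
  have hcard : ∑ _l : ZMod m, (1 : ℝ) = m := by
    simp [ZMod.card]
  rw [hcard]; ring

lemma sum_cs_sn (hm : 3 ≤ m) : ∑ l : ZMod m, cs l * sn l = 0 := by
  have h0 := congrArg Complex.im (sum_char_sq (m := m) hm)
  simp only [Complex.im_sum, Complex.zero_im] at h0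
  have h1 : ∀ l : ZMod m, ((ZMod.stdAddChar l : ℂ) ^ 2).im = 2 * (cs l * sn l) := by
    intro l
    rw [sq, Complex.mul_im]
    unfold cs sn; ring
  simp only [h1, ← Finset.mul_sum] at h0
  linarith

end Char

/-! ### Multiset helpers -/

lemma law_eq {ι : Type} [Fintype ι] (f g : ι → ℝ) (π : ι ≃ ι) (hfg : ∀ l, f l = g (π l)) :
    (univ.val.map f) = (univ.val.map g) := by
  have h1 : univ.val.map f = (univ.val.map π).map g := by
    rw [Multiset.map_map]
    exact Multiset.map_congr rfl (fun l _ => hfg l)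
  rw [h1, Multiset.map_univ_val_equiv]

/-! ### The main construction -/

/-- `κ₊`. -/
def kp (σ : ℝ) : ℝ := (1 - e * σ) / (2 * e)
/-- `κ₋`. -/
def km (σ : ℝ) : ℝ := (σ - e) / (2 * e)

lemma kp_add (σ : ℝ) : kp σ + e * km σ = 1 := by
  unfold kp km
  have := e_pos
  have h2 := e_sq
  field_simp
  nlinarith [h2]

lemma km_add (σ : ℝ) : km σ + e * kp σ = σ := by
  unfold kp km
  have := e_pos
  have h2 := e_sq
  field_simp
  linear_combination (-σ) * h2

lemma kp_sq_sub (σ γ : ℝ) (hg : σ ^ 2 + γ ^ 2 = 1) :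
    kp σ ^ 2 - km σ ^ 2 = γ ^ 2 / (2 * e) := by
  unfold kp km
  have he := e_pos
  have h2 := e_sq
  have hγ : γ ^ 2 = 1 - σ ^ 2 := by linarith
  rw [hγ]
  field_simp
  have h3 : (1 - e * σ) ^ 2 - (σ - e) ^ 2 = (1 - e ^ 2) * (1 - σ ^ 2) := by ring
  have h4 : 1 - e ^ 2 = 2 * e := by linarith
  rw [h4] at h3
  nlinarith [h3]

section Pair

variable {m : ℕ} [NeZero m]

/-- `N`-columns. -/
def fN (σ : ℝ) (l : ZMod m) : Fin 4 → ℝ := col (kp σ * cs l) 0 (km σ * cs l)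
/-- `P`-columns. -/
def fP (σ γ : ℝ) (l : ZMod m) : Fin 4 → ℝ := col (km σ * sn l) (γ * cs l) (kp σ * sn l)

lemma fN_zero (σ : ℝ) (l : ZMod m) : fN σ l 0 = cs l := by
  simp only [fN, col, xi, Zc, Matrix.cons_val_zero]
  have := kp_add σ
  have : (kp σ + e * km σ) * cs l = cs l := by rw [this]; ring
  linarith
lemma fN_one (σ : ℝ) (l : ZMod m) : fN σ l 1 = cs l := by
  simp only [fN, col, xi, Zc, Matrix.cons_val_one, Matrix.cons_val_zero]
  have := kp_add σ
  have : (kp σ + e * km σ) * cs l = cs l := by rw [this]; ring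
  linarith
lemma fN_two (σ : ℝ) (l : ZMod m) : fN σ l 2 = (kp σ - km σ) * cs l := by
  simp [fN, col, xi, Zc]; ring
lemma fN_three (σ : ℝ) (l : ZMod m) : fN σ l 3 = (kp σ + km σ) * cs l := by
  simp [fN, col, xi, Zc]; ring

lemma fP_zero (σ γ : ℝ) (l : ZMod m) : fP σ γ l 0 = σ * sn l - γ * cs l := by
  simp only [fP, col, xi, Zc, Matrix.cons_val_zero]
  have := km_add σ
  have : (km σ + e * kp σ) * sn l = σ * sn l := by rw [this]
  linarith
lemma fP_one (σ γ : ℝ) (l : ZMod m) : fP σ γ l 1 = σ * sn l + γ * cs l := by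
  simp only [fP, col, xi, Zc, Matrix.cons_val_one, Matrix.cons_val_zero]
  have := km_add σ
  have : (km σ + e * kp σ) * sn l = σ * sn l := by rw [this]
  linarith
lemma fP_two (σ γ : ℝ) (l : ZMod m) : fP σ γ l 2 = -(kp σ - km σ) * sn l := by
  simp [fP, col, xi, Zc]; ring
lemma fP_three (σ γ : ℝ) (l : ZMod m) : fP σ γ l 3 = (kp σ + km σ) * sn l := by
  simp [fP, col, xi, Zc]; ring

/-- equal laws. -/
lemma laws (a q : ZMod m) (σ γ : ℝ) (ha1 : cs a = γ) (ha2 : sn a = σ)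
    (hq1 : cs q = 0) (hq2 : sn q = 1) (i : Fin 4) :
    univ.val.map (fun l : ZMod m => fP σ γ l i) = univ.val.map (fun l : ZMod m => fN σ l i) := by
  fin_cases i
  · -- index 0 : shift by a + q + q
    refine law_eq _ _ (Equiv.addRight (a + q + q)) (fun l => ?_)
    show fP σ γ l 0 = fN σ (l + (a + q + q)) 0
    have hb1 : cs (a + q + q) = -γ := by
      rw [cs_add, cs_add, sn_add, ha1, ha2, hq1, hq2]; ring
    have hb2 : sn (a + q + q) = -σ := by
      rw [sn_add, sn_add, cs_add, ha1, ha2, hq1, hq2]; ring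
    rw [fP_zero, fN_zero, cs_add, hb1, hb2]; ring
  · refine law_eq _ _ (Equiv.addRight (-a)) (fun l => ?_)
    show fP σ γ l 1 = fN σ (l + (-a)) 1
    rw [fP_one, fN_one, cs_add, cs_neg, sn_neg, ha1, ha2]; ring
  · refine law_eq _ _ (Equiv.addRight q) (fun l => ?_)
    show fP σ γ l 2 = fN σ (l + q) 2
    rw [fP_two, fN_two, cs_add, hq1, hq2]; ring
  · refine law_eq _ _ (Equiv.addRight (-q)) (fun l => ?_)
    show fP σ γ l 3 = fN σ (l + (-q)) 3
    rw [fP_three, fN_three, cs_add, cs_neg, sn_neg, hq1, hq2]; ring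

lemma sum_N (hm : 3 ≤ m) (σ : ℝ) (i j : Fin 4) :
    ∑ l : ZMod m, (fN σ l i - fN σ l j) ^ 2 = (m : ℝ) / 2 * km σ ^ 2 * (Zc i - Zc j) ^ 2 := by
  have h1 : ∀ l : ZMod m, (fN σ l i - fN σ l j) ^ 2
      = km σ ^ 2 * (Zc i - Zc j) ^ 2 * cs l ^ 2 := by
    intro l
    unfold fN
    rw [col_sub _ _ _ _ _ _ i j rfl rfl rfl]
    ring
  simp only [h1, ← Finset.mul_sum, sum_cs_sq hm]
  ring

lemma sum_P (hm : 3 ≤ m) (σ γ : ℝ) (i j : Fin 4) :
    ∑ l : ZMod m, (fP σ γ l i - fP σ γ l j) ^ 2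
      = (m : ℝ) / 2 * (γ ^ 2 * (xi i - xi j) ^ 2 + kp σ ^ 2 * (Zc i - Zc j) ^ 2) := by
  have h1 : ∀ l : ZMod m, (fP σ γ l i - fP σ γ l j) ^ 2
      = γ ^ 2 * (xi i - xi j) ^ 2 * cs l ^ 2 + kp σ ^ 2 * (Zc i - Zc j) ^ 2 * sn l ^ 2
        + 2 * γ * kp σ * (xi i - xi j) * (Zc i - Zc j) * (cs l * sn l) := by
    intro l
    unfold fP
    rw [col_sub _ _ _ _ _ _ i j rfl rfl rfl]
    ring
  simp only [h1, Finset.sum_add_distrib, ← Finset.mul_sum, sum_cs_sq hm, sum_sn_sq hm, sum_cs_sn hm]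
  ring

end Pair

/-- existence of a good rational angle. -/
lemma exists_angle (η : ℝ) (hη : 0 < η) :
    ∃ (n : ℕ) (s : ℤ), 0 < n ∧ |Real.sin (2 * Real.pi * (s : ℝ) / ((4 * n : ℕ) : ℝ)) - e| < η := by
  set φ : ℝ := Real.arcsin e with hφ
  have hsin : Real.sin φ = e := Real.sin_arcsin (by linarith [e_lo]) (by linarith [e_hi])
  have h2pi : 0 < 2 * Real.pi := by positivity
  obtain ⟨r, hr1, hr2⟩ := exists_rat_btwn
    (show φ / (2 * Real.pi) < φ / (2 * Real.pi) + η / (2 * Real.pi) by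
      have : 0 < η / (2 * Real.pi) := by positivity
      linarith)
  refine ⟨r.den, 4 * r.num, r.den_pos, ?_⟩
  have hden : (r.den : ℝ) ≠ 0 := by exact_mod_cast r.den_nz
  have hr : (r : ℝ) = (r.num : ℝ) / (r.den : ℝ) := by
    exact_mod_cast (Rat.num_div_den r).symm
  have hval : 2 * Real.pi * ((4 * r.num : ℤ) : ℝ) / ((4 * r.den : ℕ) : ℝ) = 2 * Real.pi * r := by
    rw [hr]; push_cast; field_simp
  rw [hval, ← hsin]
  have hlip := Real.lipschitzWith_sin.dist_le_mul (2 * Real.pi * r) φ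
  simp only [Real.dist_eq, NNReal.coe_one, one_mul] at hlip
  refine lt_of_le_of_lt hlip ?_
  have h1 : φ < 2 * Real.pi * r := by
    have := (div_lt_iff₀ h2pi).1 hr1
    linarith
  have h2 : 2 * Real.pi * r < φ + η := by
    have : (r : ℝ) < (φ + η) / (2 * Real.pi) := by
      rw [add_div]; exact hr2
    have := (lt_div_iff₀ h2pi).1 this
    linarith
  rw [abs_lt]; constructor <;> linarith

/-- **Main theorem**: the arrays for Theorem R. -/
theorem exists_PN (L : ℕ) (hL : 1 ≤ L) :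
    ∃ (P N : Multiset (Fin 4 → ℝ)) (lam : ℝ), 0 < lam ∧
      (∀ i, P.map (fun f => f i) = N.map (fun f => f i)) ∧
      (∀ i j, (N.map (fun f => (f i - f j) ^ 2)).sum = lam / L * kd2 i j) ∧
      (∀ i j, (P.map (fun f => (f i - f j) ^ 2)).sum = (lam / L + lam) * kd2 i j) := by
  have hL0 : (0 : ℝ) < L := by exact_mod_cast hL
  have hL1 : (1 : ℝ) ≤ L := by exact_mod_cast hL
  -- choose the angle
  obtain ⟨n, s, hn, hs⟩ := exists_angle (1 / (L + 3 : ℝ)) (by positivity)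
  set m : ℕ := 4 * n with hm_def
  have hm4 : 4 ≤ m := by omega
  have hm3 : 3 ≤ m := by omega
  have : NeZero m := ⟨by omega⟩
  set a : ZMod m := (s : ZMod m) with ha_def
  set q : ZMod m := ((n : ℤ) : ZMod m) with hq_def
  set σ : ℝ := sn a with hσ
  set γ : ℝ := cs a with hγ
  have hσ_eq : σ = Real.sin (2 * Real.pi * (s : ℝ) / ((4 * n : ℕ) : ℝ)) := by
    rw [hσ, ha_def, sn_intCast]
  have hmR : (m : ℝ) = 4 * n := by rw [hm_def]; push_cast; ring
  have hnR : (0 : ℝ) < n := by exact_mod_cast hn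
  have hq_angle : 2 * Real.pi * ((n : ℤ) : ℝ) / (m : ℝ) = Real.pi / 2 := by
    rw [hmR]; push_cast; field_simp; ring
  have hq1 : cs q = 0 := by
    rw [hq_def, cs_intCast, hq_angle, Real.cos_pi_div_two]
  have hq2 : sn q = 1 := by
    rw [hq_def, sn_intCast, hq_angle, Real.sin_pi_div_two]
  have hσγ : σ ^ 2 + γ ^ 2 = 1 := by
    have := cs_sq_add_sn_sq a
    rw [hσ, hγ]; linarith
  -- bounds on σ
  have hsabs : |σ - e| < 1 / (L + 3 : ℝ) := by rw [hσ_eq]; exact hs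
  have hinv : 1 / (L + 3 : ℝ) ≤ 1 / 4 := by
    apply one_div_le_one_div_of_le (by norm_num); linarith
  have hs1 : σ - e < 1 / 4 := lt_of_le_of_lt (le_abs_self _) (lt_of_lt_of_le hsabs hinv)
  have hs2 : -(σ - e) < 1 / 4 := lt_of_le_of_lt (neg_le_abs _) (lt_of_lt_of_le hsabs hinv)
  have he1 := e_lo
  have he2 := e_hi
  have hσsq : σ ^ 2 ≤ 1 / 2 := by nlinarith
  have hγsq : 1 / 2 ≤ γ ^ 2 := by linarith
  -- the key smallness
  have hsmall : (L : ℝ) * (σ - e) ^ 2 ≤ 2 * e * γ ^ 2 := by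
    have h1 : (σ - e) ^ 2 ≤ (1 / (L + 3 : ℝ)) ^ 2 := by
      rw [← sq_abs (σ - e)]
      exact pow_le_pow_left₀ (abs_nonneg _) hsabs.le 2
    have h2 : (L : ℝ) * (1 / (L + 3 : ℝ)) ^ 2 ≤ 1 / 4 := by
      have hpos : (0 : ℝ) < (L + 3) ^ 2 := by positivity
      rw [one_div, inv_pow, ← div_eq_mul_inv, div_le_iff₀ hpos]
      nlinarith
    have h3 : (L : ℝ) * (σ - e) ^ 2 ≤ (L : ℝ) * (1 / (L + 3 : ℝ)) ^ 2 :=
      mul_le_mul_of_nonneg_left h1 hL0.le
    nlinarith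
  -- data
  have hmpos : (0 : ℝ) < m := by rw [hmR]; positivity
  have he0 : 0 < e := e_pos
  set t : ℝ := (m : ℝ) / 2 * γ ^ 2 / (2 * e) with ht_def
  have htpos : 0 < t := by
    rw [ht_def]
    have : 0 < γ ^ 2 := by linarith
    positivity
  set τ : ℝ := t / L with hτ_def
  set BN : ℝ := (m : ℝ) / 2 * km σ ^ 2 with hBN_def
  have hτBN : BN ≤ τ := by
    rw [hτ_def, hBN_def, ht_def, le_div_iff₀ hL0]
    have hk : km σ ^ 2 = (σ - e) ^ 2 / (4 * e ^ 2) := by
      unfold km; field_simp; ring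
    rw [hk]
    have h4 : (m : ℝ) / 2 * ((σ - e) ^ 2 / (4 * e ^ 2)) * L
        = (m : ℝ) / 2 / (4 * e ^ 2) * ((L : ℝ) * (σ - e) ^ 2) := by
      field_simp
    rw [h4]
    have h5 : (m : ℝ) / 2 * γ ^ 2 / (2 * e) = (m : ℝ) / 2 / (4 * e ^ 2) * (2 * e * γ ^ 2) := by
      field_simp; ring
    rw [h5]
    apply mul_le_mul_of_nonneg_left hsmall
    positivity
  have hτ0 : 0 ≤ τ := by rw [hτ_def]; positivity
  set z1 : Fin 4 → ℝ := col 0 (Real.sqrt (2 * e * τ)) 0 with hz1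
  set z2 : Fin 4 → ℝ := col 0 0 (Real.sqrt (τ - BN)) with hz2
  have hz1sq : Real.sqrt (2 * e * τ) ^ 2 = 2 * e * τ := Real.sq_sqrt (by positivity)
  have hz2sq : Real.sqrt (τ - BN) ^ 2 = τ - BN := Real.sq_sqrt (by linarith)
  set Z : Multiset (Fin 4 → ℝ) := {z1, z2} with hZ
  have hsum : ∀ (f : ZMod m → Fin 4 → ℝ) (i j : Fin 4),
      ((univ.val.map f).map (fun F : Fin 4 → ℝ => (F i - F j) ^ 2)).sum
        = ∑ l : ZMod m, (f l i - f l j) ^ 2 := by
    intro f i j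
    rw [Multiset.map_map]; rfl
  have hZsum : ∀ i j : Fin 4, (Z.map (fun F : Fin 4 → ℝ => (F i - F j) ^ 2)).sum
      = 2 * e * τ * (xi i - xi j) ^ 2 + (τ - BN) * (Zc i - Zc j) ^ 2 := by
    intro i j
    rw [hZ, Multiset.insert_eq_cons, Multiset.map_cons, Multiset.map_singleton,
      Multiset.sum_cons, Multiset.sum_singleton, hz1, hz2,
      col_sub _ _ _ _ _ _ i j rfl rfl rfl, col_sub _ _ _ _ _ _ i j rfl rfl rfl]
    have e1 : (Real.sqrt (2 * e * τ) * (xi i - xi j) + 0 * (Zc i - Zc j)) ^ 2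
        = Real.sqrt (2 * e * τ) ^ 2 * (xi i - xi j) ^ 2 := by ring
    have e2 : (0 * (xi i - xi j) + Real.sqrt (τ - BN) * (Zc i - Zc j)) ^ 2
        = Real.sqrt (τ - BN) ^ 2 * (Zc i - Zc j) ^ 2 := by ring
    rw [e1, e2, hz1sq, hz2sq]
  have ht1 : 2 * e * t = (m : ℝ) / 2 * γ ^ 2 := by
    rw [ht_def]; field_simp
  have ht2 : (m : ℝ) / 2 * (kp σ ^ 2 - km σ ^ 2) = t := by
    rw [kp_sq_sub σ γ hσγ, ht_def]; ring
  refine ⟨univ.val.map (fun l : ZMod m => fP σ γ l) + Z,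
    univ.val.map (fun l : ZMod m => fN σ l) + Z, t, htpos, ?_, ?_, ?_⟩
  · intro i
    rw [Multiset.map_add, Multiset.map_add, Multiset.map_map, Multiset.map_map]
    congr 1
    exact laws a q σ γ rfl rfl hq1 hq2 i
  · intro i j
    rw [Multiset.map_add, Multiset.sum_add, hsum, sum_N hm3, hZsum, kd2_eq, ← hτ_def, hBN_def]
    ring
  · intro i j
    rw [Multiset.map_add, Multiset.sum_add, hsum, sum_P hm3, hZsum, kd2_eq, ← hτ_def, hBN_def]
    linear_combination (-(xi i - xi j) ^ 2) * ht1 + (Zc i - Zc j) ^ 2 * ht2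

/-- the kite points are on the unit circle (sanity check). -/
lemma kite_on_circle (i : Fin 4) : Xc i ^ 2 + Zc i ^ 2 = 1 := by
  have h1 := h_sq
  have h2 := e_sq
  fin_cases i <;> simp [Xc, Zc] <;> nlinarith

end Vale.Agent.Lib.P058K.Circulant

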