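import Mathlib

/-!
# Five concyclic points satisfy the Hadamard hypothesis

For five distinct points of the unit circle we write down a `5 × 5` real matrix `W` whose rows
have the same Euclidean norm, whose rows have squared distances `27` times those of the points,
and whose entrywise square is invertible.
-/

namespace Vale.Agent.Lib.P058K.CyclicFive

open Finset Matrix

/-- Constant parts of the five columns. -/
def tauC : Fin 5 → ℝ := ![1, 0, 1, -4, 1]

/-- `x`-coefficients of the five columns. -/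
def uC : Fin 5 → ℝ := ![3, 4, 0, 1, 1]

/-- `y`-coefficients of the five columns. -/
def vC : Fin 5 → ℝ := ![0, 0, 5, 1, -1]

/-- The matrix: rows are indexed by the points, columns by five affine functions. -/
def W5 (x y : Fin 5 → ℝ) : Matrix (Fin 5) (Fin 5) ℝ :=
  Matrix.of fun a i => tauC i + uC i * x a + vC i * y a

theorem W5_row_norm (x y : Fin 5 → ℝ) (hxy : ∀ a, x a ^ 2 + y a ^ 2 = 1) (a : Fin 5) :
    ∑ i, W5 x y a i ^ 2 = 46 := by
  have h := hxy a
  simp only [W5, Matrix.of_apply, Fin.sum_univ_five, tauC, uC, vC]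
  simp
  linear_combination 27 * h

theorem W5_dist (x y : Fin 5 → ℝ) (a b : Fin 5) :
    ∑ i, (W5 x y a i - W5 x y b i) ^ 2 = 27 * ((x a - x b) ^ 2 + (y a - y b) ^ 2) := by
  simp only [W5, Matrix.of_apply, Fin.sum_univ_five, tauC, uC, vC]
  simp
  ring

/-- Three distinct points of the unit circle are not collinear. -/
theorem noncollinear {x1 y1 x2 y2 x3 y3 : ℝ} (h1 : x1 ^ 2 + y1 ^ 2 = 1) (h2 : x2 ^ 2 + y2 ^ 2 = 1)
    (h3 : x3 ^ 2 + y3 ^ 2 = 1) (h12 : ¬ (x1 = x2 ∧ y1 = y2)) (h13 : ¬ (x1 = x3 ∧ y1 = y3))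
    (h23 : ¬ (x2 = x3 ∧ y2 = y3)) :
    (x2 - x1) * (y3 - y1) - (y2 - y1) * (x3 - x1) ≠ 0 := by
  intro hM
  have hsq : ∀ a b : ℝ, a ^ 2 + b ^ 2 = 0 → a = 0 ∧ b = 0 := by
    intro a b h
    constructor <;> nlinarith [sq_nonneg a, sq_nonneg b]
  obtain ⟨dx, hdx⟩ : ∃ dx, dx = x2 - x1 := ⟨_, rfl⟩
  obtain ⟨dy, hdy⟩ : ∃ dy, dy = y2 - y1 := ⟨_, rfl⟩
  obtain ⟨ex, hex⟩ : ∃ ex, ex = x3 - x1 := ⟨_, rfl⟩
  obtain ⟨ey, hey⟩ : ∃ ey, ey = y3 - y1 := ⟨_, rfl⟩
  rw [← hdx, ← hdy, ← hex, ← hey] at hM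
  have hd : 2 * (x1 * dx + y1 * dy) + (dx ^ 2 + dy ^ 2) = 0 := by
    subst hdx hdy; linear_combination h2 - h1
  have he : 2 * (x1 * ex + y1 * ey) + (ex ^ 2 + ey ^ 2) = 0 := by
    subst hex hey; linear_combination h3 - h1
  have hdne : dx ^ 2 + dy ^ 2 ≠ 0 := by
    intro h
    obtain ⟨h5, h6⟩ := hsq _ _ h
    exact h12 ⟨by subst hdx; linarith, by subst hdy; linarith⟩
  have hene : ex ^ 2 + ey ^ 2 ≠ 0 := by
    intro h
    obtain ⟨h5, h6⟩ := hsq _ _ h
    exact h13 ⟨by subst hex; linarith, by subst hey; linarith⟩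
  have k1 : (dx ^ 2 + dy ^ 2) * (x1 * ex + y1 * ey)
      = (dx * ex + dy * ey) * (x1 * dx + y1 * dy) := by
    linear_combination (-x1 * dy + y1 * dx) * hM
  have k2 : (dx ^ 2 + dy ^ 2) * ((ex ^ 2 + ey ^ 2) - (dx * ex + dy * ey)) = 0 := by
    have e1 : x1 * ex + y1 * ey = -(ex ^ 2 + ey ^ 2) / 2 := by linarith
    have e2 : x1 * dx + y1 * dy = -(dx ^ 2 + dy ^ 2) / 2 := by linarith
    rw [e1, e2] at k1
    linear_combination (-2) * k1
  have k3 : (ex ^ 2 + ey ^ 2) = dx * ex + dy * ey := by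
    have := (mul_eq_zero.mp k2).resolve_left hdne
    linarith
  have k4 : (dx ^ 2 + dy ^ 2) * (ex ^ 2 + ey ^ 2) = (dx * ex + dy * ey) ^ 2 := by
    linear_combination (dx * ey - dy * ex) * hM
  have k5 : (ex ^ 2 + ey ^ 2) * ((dx ^ 2 + dy ^ 2) - (ex ^ 2 + ey ^ 2)) = 0 := by
    rw [← k3] at k4
    linear_combination k4
  have k6 : dx ^ 2 + dy ^ 2 = ex ^ 2 + ey ^ 2 := by
    have := (mul_eq_zero.mp k5).resolve_left hene
    linarith
  have k7 : (dx - ex) ^ 2 + (dy - ey) ^ 2 = 0 := by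
    linear_combination k6 + 2 * k3
  obtain ⟨h5, h6⟩ := hsq _ _ k7
  exact h23 ⟨by subst hdx hex; linarith, by subst hdy hey; linarith⟩

/-- Expansion of a product of two affine functions against a weight. -/
theorem expand (μ x y : Fin 5 → ℝ) (A B C A' B' C' : ℝ) :
    ∑ t, μ t * ((A * x t + B * y t + C) * (A' * x t + B' * y t + C'))
      = A * A' * ∑ t, μ t * x t ^ 2 + (A * B' + A' * B) * ∑ t, μ t * (x t * y t)
        + B * B' * ∑ t, μ t * y t ^ 2 + (A * C' + A' * C) * ∑ t, μ t * x t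
        + (B * C' + B' * C) * ∑ t, μ t * y t + C * C' * ∑ t, μ t := by
  simp only [Finset.mul_sum, ← Finset.sum_add_distrib]
  apply Finset.sum_congr rfl
  intro t _
  ring

/-- The entrywise square of `W5` is invertible for five distinct points of the unit circle. -/
theorem W5_det_ne (x y : Fin 5 → ℝ) (hxy : ∀ a, x a ^ 2 + y a ^ 2 = 1)
    (hinj : ∀ a b, x a = x b → y a = y b → a = b) :
    ((W5 x y).map (· ^ 2)).det ≠ 0 := by
  intro hdet
  obtain ⟨μ, hμ, hker⟩ := Matrix.exists_vecMul_eq_zero_iff.mpr hdet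
  have hi : ∀ i, ∑ a, μ a * ((uC i * x a + vC i * y a + tauC i) *
      (uC i * x a + vC i * y a + tauC i)) = 0 := by
    intro i
    have h := congrFun hker i
    simp only [Matrix.vecMul, dotProduct, Matrix.map_apply, W5, Matrix.of_apply,
      Pi.zero_apply] at h
    rw [← h]
    apply Finset.sum_congr rfl
    intro a _
    ring
  have hexp : ∀ i, uC i * uC i * ∑ t, μ t * x t ^ 2
      + (uC i * vC i + uC i * vC i) * ∑ t, μ t * (x t * y t)
      + vC i * vC i * ∑ t, μ t * y t ^ 2 + (uC i * tauC i + uC i * tauC i) * ∑ t, μ t * x t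
      + (vC i * tauC i + vC i * tauC i) * ∑ t, μ t * y t + tauC i * tauC i * ∑ t, μ t = 0 := by
    intro i
    rw [← expand]
    exact hi i
  obtain ⟨Sxx, hSxx⟩ : ∃ S, S = ∑ t, μ t * x t ^ 2 := ⟨_, rfl⟩
  obtain ⟨Sxy, hSxy⟩ : ∃ S, S = ∑ t, μ t * (x t * y t) := ⟨_, rfl⟩
  obtain ⟨Syy, hSyy⟩ : ∃ S, S = ∑ t, μ t * y t ^ 2 := ⟨_, rfl⟩
  obtain ⟨Sx, hSx⟩ : ∃ S, S = ∑ t, μ t * x t := ⟨_, rfl⟩
  obtain ⟨Sy, hSy⟩ : ∃ S, S = ∑ t, μ t * y t := ⟨_, rfl⟩
  obtain ⟨S1, hS1⟩ : ∃ S, S = ∑ t, μ t := ⟨_, rfl⟩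
  rw [← hSxx, ← hSxy, ← hSyy, ← hSx, ← hSy, ← hS1] at hexp
  have hcirc : Sxx + Syy = S1 := by
    rw [hSxx, hSyy, hS1, ← Finset.sum_add_distrib]
    apply Finset.sum_congr rfl
    intro t _
    have := hxy t
    linear_combination μ t * this
  have h0 := hexp 0
  have h1 := hexp 1
  have h2 := hexp 2
  have h3 := hexp 3
  have h4 := hexp 4
  simp [uC, vC, tauC] at h0 h1 h2 h3 h4
  have hall : Sxx = 0 ∧ Sxy = 0 ∧ Syy = 0 ∧ Sx = 0 ∧ Sy = 0 ∧ S1 = 0 := by
    refine ⟨?_, ?_, ?_, ?_, ?_, ?_⟩ <;> linarith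
  obtain ⟨e1, e2, e3, e4, e5, e6⟩ := hall
  have hzero : ∀ a b c d e : Fin 5, b ≠ a → c ≠ a → b ≠ c → d ≠ a → e ≠ a → d ≠ e →
      (∀ t, t = a ∨ t = b ∨ t = c ∨ t = d ∨ t = e) → μ a = 0 := by
    intro a b c d e hba hca hbc hda hea hde huniv
    have hne : ∀ p q : Fin 5, p ≠ q → ¬ (x p = x q ∧ y p = y q) := fun p q hpq h =>
      hpq (hinj p q h.1 h.2)
    have hl : (x c - x b) * (y a - y b) - (y c - y b) * (x a - x b) ≠ 0 :=
      noncollinear (hxy b) (hxy c) (hxy a) (hne _ _ hbc) (hne _ _ hba) (hne _ _ hca)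
    have hl' : (x e - x d) * (y a - y d) - (y e - y d) * (x a - x d) ≠ 0 :=
      noncollinear (hxy d) (hxy e) (hxy a) (hne _ _ hde) (hne _ _ hda) (hne _ _ hea)
    have hsum := expand μ x y (-(y c - y b)) (x c - x b) (-(x c - x b) * y b + (y c - y b) * x b)
      (-(y e - y d)) (x e - x d) (-(x e - x d) * y d + (y e - y d) * x d)
    rw [← hSxx, ← hSxy, ← hSyy, ← hSx, ← hSy, ← hS1, e1, e2, e3, e4, e5, e6] at hsum
    have hsingle : ∑ t, μ t * ((-(y c - y b) * x t + (x c - x b) * y t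
          + (-(x c - x b) * y b + (y c - y b) * x b)) *
        (-(y e - y d) * x t + (x e - x d) * y t + (-(x e - x d) * y d + (y e - y d) * x d)))
        = μ a * ((-(y c - y b) * x a + (x c - x b) * y a
          + (-(x c - x b) * y b + (y c - y b) * x b)) *
        (-(y e - y d) * x a + (x e - x d) * y a + (-(x e - x d) * y d + (y e - y d) * x d))) := by
      apply Finset.sum_eq_single a
      · intro t _ hta
        rcases huniv t with h | h | h | h | h
        · exact absurd h hta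
        · subst h; ring
        · subst h; ring
        · subst h; ring
        · subst h; ring
      · intro h; exact absurd (Finset.mem_univ a) h
    rw [hsingle] at hsum
    have hprod : μ a * (((x c - x b) * (y a - y b) - (y c - y b) * (x a - x b)) *
        ((x e - x d) * (y a - y d) - (y e - y d) * (x a - x d))) = 0 := by
      linear_combination hsum
    have := mul_eq_zero.mp hprod
    rcases this with h | h
    · exact h
    · exact absurd h (mul_ne_zero hl hl')
  apply hμ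
  funext a
  simp only [Pi.zero_apply]
  fin_cases a
  · exact hzero 0 1 2 3 4 (by decide) (by decide) (by decide) (by decide) (by decide) (by decide)
      (by decide)
  · exact hzero 1 0 2 3 4 (by decide) (by decide) (by decide) (by decide) (by decide) (by decide)
      (by decide)
  · exact hzero 2 0 1 3 4 (by decide) (by decide) (by decide) (by decide) (by decide) (by decide)
      (by decide)
  · exact hzero 3 0 1 2 4 (by decide) (by decide) (by decide) (by decide) (by decide) (by decide)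
      (by decide)
  · exact hzero 4 0 1 2 3 (by decide) (by decide) (by decide) (by decide) (by decide) (by decide)
      (by decide)

end Vale.Agent.Lib.P058K.CyclicFive
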