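import Mathlib

/-!
# Column multisets from the Hadamard square of a matrix

Let `W` be a real square matrix whose rows have equal norm and whose entrywise square is invertible.
Cramer's rule over the group ring of the multiplicative monoid of the reals, with the ring map
`[r] ↦ r ^ 2`, gives column multisets `P`, `N` with equal laws in every row, and second moments
proportional to the squared distances of the rows, with arbitrarily small relative size of `N`.
-/

set_option linter.unusedVariables false
set_option linter.unusedSectionVars false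

namespace Vale.Agent.Lib.P058K.Had

open Finset

/-- The integral monoid ring of the multiplicative monoid of the reals. -/
abbrev ZR := MonoidAlgebra ℤ ℝ

/-- The generator of a real number. -/
noncomputable def gen (r : ℝ) : ZR := MonoidAlgebra.single r 1

/-- The element of the monoid ring attached to a multiset of reals. -/
noncomputable def sg (M : Multiset ℝ) : ZR := (M.map gen).sum

/-- The ring map sending the generator of `r` to `r ^ 2`. -/
noncomputable def eps : ZR →+* ℝ :=
  (MonoidAlgebra.lift ℤ ℝ ℝ (powMonoidHom 2)).toRingHom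

theorem eps_gen (r : ℝ) : eps (gen r) = r ^ 2 := by
  simp [eps, gen, MonoidAlgebra.lift_single]

theorem gen_mul (r s : ℝ) : gen r * gen s = gen (r * s) := by
  simp [gen, MonoidAlgebra.single_mul_single]

theorem gen_one : gen 1 = 1 := rfl

@[simp] theorem sg_zero : sg 0 = 0 := by simp [sg]

@[simp] theorem sg_add (M N : Multiset ℝ) : sg (M + N) = sg M + sg N := by simp [sg]

@[simp] theorem sg_singleton (r : ℝ) : sg {r} = gen r := by simp [sg]

theorem sg_cons (r : ℝ) (M : Multiset ℝ) : sg (r ::ₘ M) = gen r + sg M := by simp [sg]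

theorem eps_sg (M : Multiset ℝ) : eps (sg M) = (M.map (fun r => r ^ 2)).sum := by
  induction M using Multiset.induction_on with
  | empty => simp
  | cons r M ih => simp [sg_cons, eps_gen, ih]

theorem eps_sg_nonneg (M : Multiset ℝ) : 0 ≤ eps (sg M) := by
  rw [eps_sg]
  refine Multiset.sum_nonneg ?_
  intro x hx
  obtain ⟨r, -, rfl⟩ := Multiset.mem_map.mp hx
  positivity

theorem gen_mul_sg (r : ℝ) (M : Multiset ℝ) : gen r * sg M = sg (M.map (fun ρ => ρ * r)) := by
  induction M using Multiset.induction_on with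
  | empty => simp
  | cons s M ih =>
    simp only [sg_cons, mul_add, ih, Multiset.map_cons, gen_mul]
    rw [mul_comm r s]

/-- The coefficients of `sg M` count. -/
theorem sg_coeff (M : Multiset ℝ) (t : ℝ) : (sg M).coeff t = (M.count t : ℤ) := by
  classical
  induction M using Multiset.induction_on with
  | empty => simp
  | cons r M ih =>
    rw [sg_cons, MonoidAlgebra.coeff_add, Finsupp.add_apply, ih, Multiset.count_cons]
    simp only [gen, MonoidAlgebra.coeff_single, Finsupp.single_apply]
    by_cases h : r = t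
    · subst h; simp; ring
    · have h' : ¬ t = r := fun e => h e.symm
      simp [h, h']

theorem sg_injective {M N : Multiset ℝ} (h : sg M = sg N) : M = N := by
  classical
  refine Multiset.ext.mpr fun t => ?_
  have h1 := congrArg (fun f : ZR => f.coeff t) h
  simp only [sg_coeff] at h1
  exact_mod_cast h1

/-- Every element of the ring is a difference of two elements `sg`. -/
theorem exists_split (f : ZR) : ∃ A B : Multiset ℝ, f = sg A - sg B := by
  induction f using MonoidAlgebra.induction_linear with
  | zero => exact ⟨0, 0, by simp⟩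
  | add f g hf hg =>
    obtain ⟨A, B, rfl⟩ := hf
    obtain ⟨A', B', rfl⟩ := hg
    exact ⟨A + A', B + B', by simp only [sg_add]; ring⟩
  | single r c =>
    induction c using Int.induction_on with
    | zero => exact ⟨0, 0, by simp⟩
    | succ i ih =>
      obtain ⟨A, B, h⟩ := ih
      refine ⟨r ::ₘ A, B, ?_⟩
      rw [MonoidAlgebra.single_add, h, sg_cons]
      simp only [gen]
      ring
    | pred i ih =>
      obtain ⟨A, B, h⟩ := ih
      refine ⟨A, r ::ₘ B, ?_⟩
      have : (-(i : ℤ) - 1) = -(i : ℤ) + (-1) := by ring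
      rw [this, MonoidAlgebra.single_add, h, sg_cons]
      have h2 : MonoidAlgebra.single r (-1 : ℤ) = -gen r := by
        simp [gen]
      rw [h2]
      ring

/-- Elements represented by a multiset. -/
def IsSg (f : ZR) : Prop := ∃ M, sg M = f

theorem isSg_sg (M : Multiset ℝ) : IsSg (sg M) := ⟨M, rfl⟩

theorem IsSg.one : IsSg 1 := ⟨{1}, by simp [gen_one]⟩

theorem IsSg.add {f g : ZR} (hf : IsSg f) (hg : IsSg g) : IsSg (f + g) := by
  obtain ⟨M, rfl⟩ := hf
  obtain ⟨N, rfl⟩ := hg
  exact ⟨M + N, sg_add _ _⟩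

theorem IsSg.zero : IsSg 0 := ⟨0, sg_zero⟩

theorem IsSg.mul {f g : ZR} (hf : IsSg f) (hg : IsSg g) : IsSg (f * g) := by
  obtain ⟨M, rfl⟩ := hf
  obtain ⟨N, rfl⟩ := hg
  induction M using Multiset.induction_on with
  | empty => exact ⟨0, by simp⟩
  | cons r M ih =>
    obtain ⟨K, hK⟩ := ih
    refine ⟨N.map (fun ρ => ρ * r) + K, ?_⟩
    rw [sg_add, ← gen_mul_sg, hK, sg_cons, add_mul]

theorem IsSg.pow {f : ZR} (hf : IsSg f) (n : ℕ) : IsSg (f ^ n) := by
  induction n with
  | zero => simpa using IsSg.one
  | succ n ih => rw [pow_succ]; exact ih.mul hf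

theorem IsSg.sum {ι : Type*} (s : Finset ι) (f : ι → ZR) (h : ∀ i ∈ s, IsSg (f i)) :
    IsSg (∑ i ∈ s, f i) :=
  Finset.sum_induction _ IsSg (fun _ _ => IsSg.add) IsSg.zero h

theorem IsSg.prod {ι : Type*} (s : Finset ι) (f : ι → ZR) (h : ∀ i ∈ s, IsSg (f i)) :
    IsSg (∏ i ∈ s, f i) :=
  Finset.prod_induction _ IsSg (fun _ _ => IsSg.mul) IsSg.one h

theorem IsSg.eps_nonneg {f : ZR} (hf : IsSg f) : 0 ≤ eps f := by
  obtain ⟨M, rfl⟩ := hf
  exact eps_sg_nonneg M

section Columns

variable {A I : Type}

/-- The second moment of a multiset of columns at two rows. -/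
noncomputable def mom (M : Multiset (A → ℝ)) (r r' : A) : ℝ :=
  (M.map fun f => (f r - f r') ^ 2).sum

theorem mom_add (M N : Multiset (A → ℝ)) (r r' : A) : mom (M + N) r r' = mom M r r' + mom N r r' := by
  simp [mom]

theorem mom_zero (r r' : A) : mom (0 : Multiset (A → ℝ)) r r' = 0 := by simp [mom]

theorem mom_sum (s : Finset I) (F : I → Multiset (A → ℝ)) (r r' : A) :
    mom (∑ i ∈ s, F i) r r' = ∑ i ∈ s, mom (F i) r r' := by
  classical
  induction s using Finset.induction_on with
  | empty => simp [mom_zero]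
  | insert i s hi ih => rw [sum_insert hi, sum_insert hi, mom_add, ih]

theorem law_sum (s : Finset I) (F : I → Multiset (A → ℝ)) (r : A) :
    (∑ i ∈ s, F i).map (fun f => f r) = ∑ i ∈ s, (F i).map (fun f => f r) := by
  classical
  induction s using Finset.induction_on with
  | empty => simp
  | insert i s hi ih => rw [sum_insert hi, sum_insert hi, Multiset.map_add, ih]

theorem sg_sum (s : Finset I) (F : I → Multiset ℝ) : sg (∑ i ∈ s, F i) = ∑ i ∈ s, sg (F i) := by
  classical
  induction s using Finset.induction_on with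
  | empty => simp
  | insert i s hi ih => rw [sum_insert hi, sum_insert hi, sg_add, ih]

/-- Scaled copies of the column `v`, one for each element of `M`. -/
noncomputable def col (v : A → ℝ) (M : Multiset ℝ) : Multiset (A → ℝ) :=
  M.map (fun ρ r => ρ * v r)

theorem mom_col (v : A → ℝ) (M : Multiset ℝ) (r r' : A) :
    mom (col v M) r r' = eps (sg M) * (v r - v r') ^ 2 := by
  induction M using Multiset.induction_on with
  | empty => simp [mom, col]
  | cons s M ih =>
    have h1 : col v (s ::ₘ M) = (fun r => s * v r) ::ₘ col v M := by simp [col]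
    have h2 : mom ((fun r => s * v r) ::ₘ col v M) r r' =
        (s * v r - s * v r') ^ 2 + mom (col v M) r r' := by simp [mom]
    rw [h1, h2, ih, sg_cons, map_add, eps_gen]
    ring

theorem law_col (v : A → ℝ) (M : Multiset ℝ) (r : A) :
    sg ((col v M).map (fun f => f r)) = gen (v r) * sg M := by
  rw [gen_mul_sg]
  simp [col, Multiset.map_map]

/-- Constant columns. -/
noncomputable def cst (M : Multiset ℝ) : Multiset (A → ℝ) := M.map (fun ρ _ => ρ)

theorem mom_cst (M : Multiset ℝ) (r r' : A) : mom (cst M : Multiset (A → ℝ)) r r' = 0 := by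
  induction M using Multiset.induction_on with
  | empty => simp [mom, cst]
  | cons s M ih =>
    have h1 : (cst (s ::ₘ M) : Multiset (A → ℝ)) = (fun _ => s) ::ₘ cst M := by simp [cst]
    rw [h1]
    simp only [mom, Multiset.map_cons, Multiset.sum_cons, sub_self] at ih ⊢
    rw [ih]
    simp

theorem law_cst (M : Multiset ℝ) (r : A) : (cst M : Multiset (A → ℝ)).map (fun f => f r) = M := by
  simp [cst, Multiset.map_map]

/-- The core construction: if `∑ i, [W r i] * m i` does not depend on the row and `eps (m i)` is a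
positive constant, there are column multisets with equal laws and exact second moments. -/
theorem core [Fintype I] [DecidableEq I] (W : A → I → ℝ) (m : I → ZR) (T : ZR)
    (hm : ∀ r, ∑ i, gen (W r i) * m i = T) (κ : ℝ) (hκ : 0 < κ) (hε : ∀ i, eps (m i) = κ)
    (L : ℕ) (hL : 1 ≤ L) :
    ∃ (P N : Multiset (A → ℝ)) (lam : ℝ), 0 < lam ∧
      (∀ r, P.map (fun f => f r) = N.map (fun f => f r)) ∧
      (∀ r r', (N.map fun f => (f r - f r') ^ 2).sum = lam / L * ∑ i, (W r i - W r' i) ^ 2) ∧
      (∀ r r', (P.map fun f => (f r - f r') ^ 2).sum =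
        (lam / L + lam) * ∑ i, (W r i - W r' i) ^ 2) := by
  classical
  choose Ma Mb hmab using fun i => exists_split (m i)
  let a : I → ZR := fun i => sg (Ma i)
  let b : I → ZR := fun i => sg (Mb i)
  have hab : ∀ i, m i = a i - b i := hmab
  have haS : ∀ i, IsSg (a i) := fun i => isSg_sg _
  have hbS : ∀ i, IsSg (b i) := fun i => isSg_sg _
  let ea : I → ℝ := fun i => eps (a i)
  let eb : I → ℝ := fun i => eps (b i)
  have heb : ∀ i, 0 ≤ eb i := fun i => (hbS i).eps_nonneg
  have hea : ∀ i, ea i = κ + eb i := by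
    intro i
    have h := hε i
    rw [hab, map_sub] at h
    simp only [ea, eb]
    linarith
  have hLpos : (0 : ℝ) < L := by exact_mod_cast hL
  -- a large power
  obtain ⟨n, hn1, hn⟩ : ∃ n : ℕ, 1 ≤ n ∧ ∀ i, ((L : ℝ) + 1) * eb i ^ n ≤ ea i ^ n := by
    have h1 : ∀ i, ∀ᶠ n : ℕ in Filter.atTop, ((L : ℝ) + 1) * eb i ^ n ≤ ea i ^ n := by
      intro i
      have hpos : 0 < ea i := by rw [hea]; linarith [heb i]
      have h0 : 0 ≤ eb i / ea i := div_nonneg (heb i) hpos.le
      have hlt : eb i / ea i < 1 := by
        rw [div_lt_one hpos, hea]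
        linarith
      have ht := tendsto_pow_atTop_nhds_zero_of_lt_one h0 hlt
      have hc : (0 : ℝ) < 1 / ((L : ℝ) + 1) := by positivity
      filter_upwards [ht.eventually (Iio_mem_nhds hc)] with k hk
      have hk' : (eb i / ea i) ^ k < 1 / ((L : ℝ) + 1) := hk
      rw [div_pow, div_lt_div_iff₀ (by positivity) (by positivity)] at hk'
      linarith
    have h2 := (Filter.eventually_all.mpr h1).and (Filter.eventually_ge_atTop 1)
    obtain ⟨k, hk1, hk2⟩ := h2.exists
    exact ⟨k, hk2, hk1⟩
  -- the geometric sums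
  let Pg : I → ZR := fun i => ∑ j ∈ range n, a i ^ j * b i ^ (n - 1 - j)
  have hPg : ∀ i, Pg i * (a i - b i) = a i ^ n - b i ^ n := fun i => geom_sum₂_mul (a i) (b i) n
  have hPgS : ∀ i, IsSg (Pg i) := fun i =>
    IsSg.sum _ _ fun j _ => ((haS i).pow j).mul ((hbS i).pow _)
  let Qo : I → ZR := fun i => ∏ l ∈ univ.erase i, Pg l
  let Q : ZR := ∏ l, Pg l
  have hQ : ∀ i, Pg i * Qo i = Q := fun i => Finset.mul_prod_erase univ Pg (mem_univ i)
  have hQoS : ∀ i, IsSg (Qo i) := fun i => IsSg.prod _ _ fun l _ => hPgS l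
  let np : I → ZR := fun i => a i ^ n * Qo i
  let nn : I → ZR := fun i => b i ^ n * Qo i
  have hdiff : ∀ i, np i - nn i = Q * m i := by
    intro i
    rw [hab i, ← hQ i]
    simp only [np, nn]
    rw [← sub_mul, ← hPg i]
    ring
  have hnpS : ∀ i, IsSg (np i) := fun i => ((haS i).pow n).mul (hQoS i)
  have hnnS : ∀ i, IsSg (nn i) := fun i => ((hbS i).pow n).mul (hQoS i)
  choose Np hNp using hnpS
  choose Nn hNn using hnnS
  obtain ⟨X, Y, hXY⟩ := exists_split (Q * T)
  have hrow : ∀ r, ∑ i, gen (W r i) * np i + sg Y = ∑ i, gen (W r i) * nn i + sg X := by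
    intro r
    have h1 : ∑ i, gen (W r i) * (np i - nn i) = Q * T := by
      rw [← hm r, Finset.mul_sum]
      refine Finset.sum_congr rfl fun i _ => ?_
      rw [hdiff i]
      ring
    have h2 : ∑ i, gen (W r i) * (np i - nn i) =
        ∑ i, gen (W r i) * np i - ∑ i, gen (W r i) * nn i := by
      rw [← Finset.sum_sub_distrib]
      refine Finset.sum_congr rfl fun i _ => ?_
      ring
    rw [h2, hXY] at h1
    linear_combination h1
  -- the values
  have hQeps : ∀ i, eps (np i) - eps (nn i) = eps Q * κ := by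
    intro i
    rw [← map_sub, hdiff i, map_mul, hε i]
  have hPgpos : ∀ l, 0 < eps (Pg l) := by
    intro l
    have h1 : eps (Pg l) * κ = ea l ^ n - eb l ^ n := by
      have h := congrArg eps (hPg l)
      rw [map_mul, ← hab, hε, map_sub, map_pow, map_pow] at h
      exact h
    have h2 : eb l ^ n < ea l ^ n := by
      refine pow_lt_pow_left₀ ?_ (heb l) (by omega)
      rw [hea]
      linarith
    have h3 : 0 < eps (Pg l) * κ := by rw [h1]; linarith
    exact (mul_pos_iff_of_pos_right hκ).mp h3
  have hQpos : 0 < eps Q := by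
    simp only [Q]
    rw [map_prod]
    exact Finset.prod_pos fun l _ => hPgpos l
  let Δ : ℝ := eps Q * κ
  have hΔ : 0 < Δ := mul_pos hQpos hκ
  let g : ℝ := Δ / L
  let gi : I → ℝ := fun i => g - eps (nn i)
  have hgi : ∀ i, 0 ≤ gi i := by
    intro i
    simp only [gi, g, sub_nonneg]
    rw [le_div_iff₀ hLpos]
    have h1 : eps (nn i) = eb i ^ n * eps (Qo i) := by
      simp only [nn, eb]
      rw [map_mul, map_pow]
    have h2 : eps (np i) = ea i ^ n * eps (Qo i) := by
      simp only [np, ea]
      rw [map_mul, map_pow]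
    have h3 : Δ = eps (np i) - eps (nn i) := (hQeps i).symm
    have h4 : 0 ≤ eps (Qo i) := (hQoS i).eps_nonneg
    rw [h3, h1, h2]
    have h5 := hn i
    nlinarith [mul_le_mul_of_nonneg_right h5 h4]
  -- the arrays
  let Z : Multiset (A → ℝ) := ∑ i, {fun r => Real.sqrt (gi i) * W r i}
  let P : Multiset (A → ℝ) := (∑ i, col (W · i) (Np i)) + cst Y + Z
  let N : Multiset (A → ℝ) := (∑ i, col (W · i) (Nn i)) + cst X + Z
  have hmomZ : ∀ r r', mom Z r r' = ∑ i, gi i * (W r i - W r' i) ^ 2 := by
    intro r r'
    simp only [Z]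
    rw [mom_sum]
    refine Finset.sum_congr rfl fun i _ => ?_
    simp only [mom, Multiset.map_singleton, Multiset.sum_singleton]
    have h := Real.sq_sqrt (hgi i)
    calc (Real.sqrt (gi i) * W r i - Real.sqrt (gi i) * W r' i) ^ 2
        = Real.sqrt (gi i) ^ 2 * (W r i - W r' i) ^ 2 := by ring
      _ = gi i * (W r i - W r' i) ^ 2 := by rw [h]
  refine ⟨P, N, Δ, hΔ, fun r => ?_, fun r r' => ?_, fun r r' => ?_⟩
  · apply sg_injective
    simp only [P, N, Multiset.map_add, sg_add, law_sum, sg_sum, law_col, law_cst]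
    simp only [hNp, hNn]
    rw [hrow r]
  · change mom N r r' = _
    simp only [N]
    rw [mom_add, mom_add, mom_sum, mom_cst, hmomZ]
    simp only [mom_col, hNn, add_zero]
    rw [← Finset.sum_add_distrib, Finset.mul_sum]
    refine Finset.sum_congr rfl fun i _ => ?_
    simp only [gi]
    ring
  · change mom P r r' = _
    simp only [P]
    rw [mom_add, mom_add, mom_sum, mom_cst, hmomZ]
    simp only [mom_col, hNp, add_zero]
    rw [← Finset.sum_add_distrib, Finset.mul_sum]
    refine Finset.sum_congr rfl fun i _ => ?_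
    have h := hQeps i
    have hΔ' : eps (np i) = Δ + eps (nn i) := by
      simp only [Δ]
      linarith
    simp only [gi, g]
    rw [hΔ']
    ring

end Columns

/-- **The Hadamard criterion, array form.**  If the rows of `W` have equal norm and the entrywise
square of `W` is invertible, the arrays exist. -/
theorem pn_of_hadamard {k : ℕ} (W : Fin k → Fin k → ℝ) (τ : ℝ) (hτ : ∀ a, ∑ i, W a i ^ 2 = τ)
    (hdet : (Matrix.of fun a i => W a i ^ 2).det ≠ 0) (i0 : Fin k) (L : ℕ) (hL : 1 ≤ L) :
    ∃ (P N : Multiset (Fin k → ℝ)) (lam : ℝ), 0 < lam ∧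
      (∀ r, P.map (fun f => f r) = N.map (fun f => f r)) ∧
      (∀ r r', (N.map fun f => (f r - f r') ^ 2).sum = lam / L * ∑ i, (W r i - W r' i) ^ 2) ∧
      (∀ r r', (P.map fun f => (f r - f r') ^ 2).sum =
        (lam / L + lam) * ∑ i, (W r i - W r' i) ^ 2) := by
  classical
  let C : Matrix (Fin k) (Fin k) ZR := Matrix.of fun a i => gen (W a i)
  let C2 : Matrix (Fin k) (Fin k) ℝ := Matrix.of fun a i => W a i ^ 2
  let m : Fin k → ZR := Matrix.cramer C 1
  have hm : ∀ r, ∑ i, gen (W r i) * m i = C.det := by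
    intro r
    have h := congrFun (Matrix.mulVec_cramer C 1) r
    simpa [Matrix.mulVec, dotProduct, C] using h
  have hmap : ∀ i, eps (m i) = Matrix.cramer C2 1 i := by
    intro i
    simp only [m, Matrix.cramer_apply]
    rw [RingHom.map_det]
    congr 1
    ext a j
    simp only [RingHom.mapMatrix_apply, Matrix.map_apply, Matrix.updateCol_apply]
    split_ifs
    · simp
    · simp [C, C2, eps_gen]
  have hcr : ∀ i, τ * Matrix.cramer C2 1 i = C2.det := by
    intro i
    have h1 : C2.mulVec 1 = τ • (1 : Fin k → ℝ) := by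
      ext a
      simp [Matrix.mulVec, dotProduct, C2, hτ]
    have h2 : Matrix.cramer C2 (C2.mulVec 1) = C2.det • (1 : Fin k → ℝ) := by
      rw [Matrix.cramer_eq_adjugate_mulVec, Matrix.mulVec_mulVec, Matrix.adjugate_mul,
        Matrix.smul_mulVec, Matrix.one_mulVec]
    rw [h1, map_smul] at h2
    have h3 := congrFun h2 i
    simpa using h3
  have hτ0 : τ ≠ 0 := by
    intro h0
    have := hcr i0
    rw [h0, zero_mul] at this
    exact hdet this.symm
  let κ : ℝ := Matrix.cramer C2 1 i0
  have hκ0 : κ ≠ 0 := by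
    intro h0
    have := hcr i0
    simp only [κ] at h0
    rw [h0, mul_zero] at this
    exact hdet this.symm
  have hall : ∀ i, eps (m i) = κ := by
    intro i
    rw [hmap]
    exact mul_left_cancel₀ hτ0 ((hcr i).trans (hcr i0).symm)
  rcases lt_or_gt_of_ne hκ0 with hneg | hpos
  · refine core W (fun i => -m i) (-C.det) (fun r => ?_) (-κ) (by linarith) (fun i => ?_) L hL
    · simp only [mul_neg, Finset.sum_neg_distrib, hm]
    · rw [map_neg, hall]
  · exact core W m C.det hm κ hpos hall L hL

end Vale.Agent.Lib.P058K.Had
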