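import Vale.Agent.Lib.P058.RowMerge

/-!
# Signed arrays with a tiny negative part give Ramsey families

Words over real letters, lists of contents made simultaneously monochromatic, and the density
Hales-Jewett argument in which the unknown number of active coordinates is absorbed by the negative
part of a signed array of columns.
-/

set_option linter.unusedVariables false
set_option linter.unusedSectionVars false

namespace Vale.Agent.Lib.P058K

open Finset Vale.Agent.Lib.P058

/-- The content of a word. -/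
noncomputable def cont {N : ℕ} (u : Fin N → ℝ) : Multiset ℝ := (univ : Finset (Fin N)).val.map u

theorem count_cont {N : ℕ} (u : Fin N → ℝ) (a : ℝ) :
    (cont u).count a = (univ.filter (fun p => u p = a)).card := by
  classical
  simp only [cont, Multiset.count_map]
  rw [Finset.card, Finset.filter_val]
  congr 1
  apply Multiset.filter_congr
  intro x _
  exact eq_comm

/-- Rearrangement families over real letters are word Ramsey. -/
theorem wr_real {ι : Type} {N : ℕ} [Nonempty ι] (W : ι → Fin N → ℝ)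
    (h : ∀ i j, cont (W i) = cont (W j)) : WR W := by
  classical
  obtain ⟨i0⟩ := ‹Nonempty ι›
  let S : Finset ℝ := univ.image (W i0)
  have hmem : ∀ i p, W i p ∈ S := by
    intro i p
    have h1 : W i p ∈ (univ : Finset (Fin N)).val.map (W i) :=
      Multiset.mem_map_of_mem _ (Finset.mem_univ_val p)
    have h2 := h i i0
    simp only [cont] at h2
    rw [h2] at h1
    obtain ⟨q, _, hq⟩ := Multiset.mem_map.mp h1
    exact mem_image.mpr ⟨q, mem_univ _, hq⟩
  let W' : ι → Fin N → S := fun i p => ⟨W i p, hmem i p⟩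
  have h' : ∀ i j, (univ : Finset (Fin N)).val.map (W' i) = univ.val.map (W' j) := by
    intro i j
    apply Multiset.map_injective Subtype.val_injective
    rw [Multiset.map_map, Multiset.map_map]
    exact h i j
  obtain ⟨M, hM, hWR⟩ := wordRamsey_of_rearrangements W' h'
  exact ⟨M, hM, WordRamsey.letterMap W' Subtype.val hWR⟩

open Classical in
/-- Counting positions through a labelling. -/
theorem card_elim {X Z : Type} [Fintype X] [DecidableEq X] [DecidableEq Z] {n : ℕ}
    (τ : Fin n → X ⊕ ℝ) (M : ℕ) (hM : ∀ x, (univ.filter (fun q => τ q = Sum.inl x)).card = M)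
    (g : X → Z) (h : ℝ → Z) (t : Z) :
    (univ.filter (fun q => Sum.elim g h (τ q) = t)).card =
      M * (univ.filter (fun x => g x = t)).card +
        (univ.filter (fun q => ∃ a, τ q = Sum.inr a ∧ h a = t)).card := by
  classical
  have h1 : univ.filter (fun q => Sum.elim g h (τ q) = t) =
      ((univ.filter (fun x => g x = t)).biUnion (fun x => univ.filter (fun q => τ q = Sum.inl x))) ∪
        univ.filter (fun q => ∃ a, τ q = Sum.inr a ∧ h a = t) := by
    ext q
    simp only [mem_filter, mem_univ, true_and, mem_union, mem_biUnion]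
    rcases hq : τ q with p | b
    · simp
    · simp
  rw [h1, card_union_of_disjoint, card_biUnion]
  · simp only [hM, sum_const, smul_eq_mul]
    ring
  · intro p _ p' _ hpp'
    simp only [Function.onFun]
    rw [Finset.disjoint_left]
    intro q hq hq'
    simp only [mem_filter, mem_univ, true_and] at hq hq'
    rw [hq] at hq'
    exact hpp' (Sum.inl.inj hq')
  · rw [Finset.disjoint_left]
    intro q hq hq'
    simp only [mem_biUnion, mem_filter, mem_univ, true_and] at hq hq'
    obtain ⟨x, _, hx⟩ := hq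
    obtain ⟨a, ha, _⟩ := hq'
    rw [hx] at ha
    cases ha

/-- A labelling with all multiplicities prescribed. -/
def Lab {N n : ℕ} (M : ℕ) (K : ℝ → ℕ) (τ : Fin n → Fin N ⊕ ℝ) : Prop :=
  (∀ p, (univ.filter (fun q => τ q = Sum.inl p)).card = M) ∧
    ∀ a, (univ.filter (fun q => τ q = Sum.inr a)).card = K a

theorem card_host {N n : ℕ} (u : Fin N → ℝ) (τ : Fin n → Fin N ⊕ ℝ) (M : ℕ)
    (hM : ∀ p, (univ.filter (fun q => τ q = Sum.inl p)).card = M) (a : ℝ) :
    (univ.filter (fun q => hostWord u τ q = a)).card =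
      M * (univ.filter (fun p => u p = a)).card +
        (univ.filter (fun q => τ q = Sum.inr a)).card := by
  classical
  have h3 := card_elim τ M hM u id a
  have h4 : univ.filter (fun q => hostWord u τ q = a) =
      univ.filter (fun q => Sum.elim u id (τ q) = a) :=
    Finset.filter_congr fun q _ => Iff.rfl
  rw [h4, h3]
  congr 2
  ext q
  simp

/-- Composition of labellings. -/
def compLab {N n' n : ℕ} (τ' : Fin n' → Fin N ⊕ ℝ) (τ'' : Fin n → Fin n' ⊕ ℝ) :
    Fin n → Fin N ⊕ ℝ :=
  fun q => Sum.elim τ' Sum.inr (τ'' q)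

theorem hostWord_comp {N n' n : ℕ} (u : Fin N → ℝ) (τ' : Fin n' → Fin N ⊕ ℝ)
    (τ'' : Fin n → Fin n' ⊕ ℝ) :
    hostWord u (compLab τ' τ'') = hostWord (hostWord u τ') τ'' := by
  funext q
  simp only [hostWord, compLab]
  rcases τ'' q with p | b <;> simp [hostWord]

theorem lab_comp {N n' n : ℕ} {M' M2 : ℕ} {K' K2 : ℝ → ℕ} {τ' : Fin n' → Fin N ⊕ ℝ}
    {τ'' : Fin n → Fin n' ⊕ ℝ} (h' : Lab M' K' τ')
    (h1 : ∀ p, (univ.filter (fun q => τ'' q = Sum.inl p)).card = M2)
    (h2 : ∀ a, (univ.filter (fun q => τ'' q = Sum.inr a)).card = K2 a) :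
    Lab (M' * M2) (fun a => M2 * K' a + K2 a) (compLab τ' τ'') := by
  classical
  constructor
  · intro p
    have h3 := card_elim τ'' M2 h1 τ' Sum.inr (Sum.inl p)
    have h4 : univ.filter (fun q => compLab τ' τ'' q = Sum.inl p) =
        univ.filter (fun q => Sum.elim τ' Sum.inr (τ'' q) = Sum.inl p) :=
      Finset.filter_congr fun q _ => Iff.rfl
    rw [h4, h3, h'.1 p]
    have h0 : (univ.filter (fun q => ∃ a : ℝ, τ'' q = Sum.inr a ∧
        (Sum.inr a : Fin N ⊕ ℝ) = Sum.inl p)).card = 0 := by
      rw [Finset.card_eq_zero]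
      ext q
      simp
    rw [h0, add_zero, mul_comm]
  · intro a
    have h3 := card_elim τ'' M2 h1 τ' Sum.inr (Sum.inr a)
    have h4 : univ.filter (fun q => compLab τ' τ'' q = Sum.inr a) =
        univ.filter (fun q => Sum.elim τ' Sum.inr (τ'' q) = Sum.inr a) :=
      Finset.filter_congr fun q _ => Iff.rfl
    rw [h4, h3, h'.2 a]
    have h0 : (univ.filter (fun q => ∃ b : ℝ, τ'' q = Sum.inr b ∧
        (Sum.inr b : Fin N ⊕ ℝ) = Sum.inr a)).card =
        (univ.filter (fun q => τ'' q = Sum.inr a)).card := by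
      congr 1
      ext q
      simp
    rw [h0, h2 a]

/-- Finitely many contents made simultaneously monochromatic. -/
theorem lemmaC {N : ℕ} (r : ℕ) (hr : 0 < r) (cs : List (Multiset ℝ)) :
    ∃ (n M : ℕ) (K : ℝ → ℕ), 0 < M ∧ ∀ c : (Fin n → ℝ) → Fin r,
      ∃ τ : Fin n → Fin N ⊕ ℝ, Lab M K τ ∧
        ∀ C ∈ cs, ∀ u v : Fin N → ℝ, cont u = C → cont v = C →
          c (hostWord u τ) = c (hostWord v τ) := by
  classical
  induction cs with
  | nil =>
    refine ⟨N, 1, fun _ => 0, one_pos, fun c => ⟨fun q => Sum.inl q, ⟨?_, ?_⟩, by simp⟩⟩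
    · intro p
      have : univ.filter (fun q : Fin N => (Sum.inl q : Fin N ⊕ ℝ) = Sum.inl p) = {p} := by
        ext q
        simp
      rw [this, card_singleton]
    · intro a
      simp
  | cons C cs ih =>
    obtain ⟨n', M', K', hM', hc'⟩ := ih
    by_cases hne : Nonempty {x : (Fin n' → Fin N ⊕ ℝ) × (Fin N → ℝ) //
        Lab M' K' x.1 ∧ cont x.2 = C}
    · let W : {x : (Fin n' → Fin N ⊕ ℝ) × (Fin N → ℝ) // Lab M' K' x.1 ∧ cont x.2 = C} →
          Fin n' → ℝ := fun x => hostWord x.1.2 x.1.1
      have hW : ∀ i j, cont (W i) = cont (W j) := by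
        intro i j
        ext a
        rw [count_cont, count_cont]
        simp only [W]
        rw [card_host _ _ M' i.2.1.1, card_host _ _ M' j.2.1.1, i.2.1.2 a, j.2.1.2 a,
          ← count_cont, ← count_cont, i.2.2, j.2.2]
      obtain ⟨M2, hM2, hWR⟩ := wr_real W hW
      obtain ⟨n, K2, hn⟩ := hWR r hr
      obtain ⟨i0⟩ := hne
      refine ⟨n, M' * M2, fun a => M2 * K' a +
        (K2 a - M2 * (univ.filter (fun p => W i0 p = a)).card), Nat.mul_pos hM' hM2, fun c => ?_⟩
      obtain ⟨τ2, hlab, hcont, k, hk⟩ := hn c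
      obtain ⟨τ1, hLab1, hmono⟩ := hc' (fun z => c (hostWord z τ2))
      refine ⟨compLab τ1 τ2, lab_comp hLab1 hlab (fun a => ?_), ?_⟩
      · have h1 := card_host (W i0) τ2 M2 hlab a
        rw [hcont i0 a] at h1
        omega
      · intro D hD u v hu hv
        rw [hostWord_comp, hostWord_comp]
        rcases List.mem_cons.mp hD with rfl | hD
        · have e1 := hk ⟨(τ1, u), hLab1, hu⟩
          have e2 := hk ⟨(τ1, v), hLab1, hv⟩
          exact e1.trans e2.symm
        · exact hmono D hD u v hu hv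
    · refine ⟨n', M', K', hM', fun c => ?_⟩
      obtain ⟨τ1, hLab1, hmono⟩ := hc' c
      refine ⟨τ1, hLab1, ?_⟩
      intro D hD u v hu hv
      rcases List.mem_cons.mp hD with rfl | hD
      · exact (hne ⟨⟨(τ1, u), hLab1, hu⟩⟩).elim
      · exact hmono D hD u v hu hv

/-- Every multiset of size `n` is the multiset of values of a function on `Fin n`. -/
theorem exists_enum {α : Type} (A : Multiset α) {n : ℕ} (h : Multiset.card A = n) :
    ∃ col : Fin n → α, (univ : Finset (Fin n)).val.map col = A := by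
  induction A using Quotient.inductionOn with
  | _ l =>
    have h' : l.length = n := by simpa using h
    subst h'
    refine ⟨l.get, ?_⟩
    rw [Fin.univ_val_map, List.ofFn_get]
    rfl

/-- Squared distances of host words. -/
theorem sum_host {N n : ℕ} (u v : Fin N → ℝ) (τ : Fin n → Fin N ⊕ ℝ) (M : ℕ)
    (hM : ∀ p, (univ.filter (fun q => τ q = Sum.inl p)).card = M) :
    ∑ q, (hostWord u τ q - hostWord v τ q) ^ 2 = M * ∑ p, (u p - v p) ^ 2 := by
  classical
  have h2 : ∀ q, (hostWord u τ q - hostWord v τ q) ^ 2 =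
      ∑ p, if τ q = Sum.inl p then (u p - v p) ^ 2 else 0 := by
    intro q
    rcases hq : τ q with p | b
    · simp [hostWord, hq]
    · simp [hostWord, hq]
  simp only [h2]
  rw [sum_comm, mul_sum]
  refine sum_congr rfl fun p _ => ?_
  rw [← sum_filter, sum_const, hM p, nsmul_eq_mul]

/-- Additivity of the squared distance functional of an array. -/
theorem D_add {ι : Type} (g : (ι → ℝ) → ℝ) (X Y : Multiset (ι → ℝ)) :
    ((X + Y).map g).sum = (X.map g).sum + (Y.map g).sum := by
  rw [Multiset.map_add, Multiset.sum_add]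

theorem D_nsmul {ι : Type} (g : (ι → ℝ) → ℝ) (k : ℕ) (X : Multiset (ι → ℝ)) :
    ((k • X).map g).sum = k * (X.map g).sum := by
  rw [Multiset.map_nsmul, Multiset.sum_nsmul, nsmul_eq_mul]

theorem D_sum {ι κ : Type} (g : (ι → ℝ) → ℝ) (s : Finset κ) (X : κ → Multiset (ι → ℝ)) :
    ((∑ j ∈ s, X j).map g).sum = ∑ j ∈ s, ((X j).map g).sum := by
  classical
  induction s using Finset.induction_on with
  | empty => simp
  | insert a s ha ih => rw [sum_insert ha, sum_insert ha, D_add, ih]

theorem row_sum {ι κ : Type} (i : ι) (s : Finset κ) (X : κ → Multiset (ι → ℝ)) :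
    (∑ j ∈ s, X j).map (fun f => f i) = ∑ j ∈ s, (X j).map (fun f => f i) := by
  classical
  induction s using Finset.induction_on with
  | empty => simp
  | insert a s ha ih => rw [sum_insert ha, sum_insert ha, Multiset.map_add, ih]

/-- Signed arrays with a tiny negative part give Ramsey families. -/
theorem thmR {ι : Type} [Fintype ι] [Nonempty ι] {d : ℕ} (x : ι → EuclideanSpace ℝ (Fin d))
    (h : ∀ L : ℕ, 1 ≤ L → ∃ (P N : Multiset (ι → ℝ)) (lam : ℝ), 0 < lam ∧
      (∀ a, P.map (fun f => f a) = N.map (fun f => f a)) ∧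
      (∀ a b, (N.map fun f => (f a - f b) ^ 2).sum = lam / L * dist (x a) (x b) ^ 2) ∧
      (∀ a b, (P.map fun f => (f a - f b) ^ 2).sum = (lam / L + lam) * dist (x a) (x b) ^ 2)) :
    IsRamseyFamily x := by
  classical
  intro r hr
  obtain ⟨i0⟩ := ‹Nonempty ι›
  obtain ⟨Bι, _, hHJ⟩ := Combinatorics.Line.exists_mono_in_high_dimension ι (Fin r)
  let B := Fintype.card Bι
  let L := B + 1
  obtain ⟨P, Nn, lam, hlam, hlaw, hN, hP⟩ := h L (by omega)
  let S := Multiset.card P
  let NN := B * L * S
  let Cw : (Bι → ι) → Multiset ℝ := fun w => ∑ j, L • P.map (fun f => f (w j))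
  have hcard : ∀ w, Multiset.card (Cw w) = NN := by
    intro w
    have h1 : Multiset.card (Cw w) = ∑ j : Bι, Multiset.card (L • P.map (fun f => f (w j))) :=
      map_sum Multiset.cardHom _ _
    rw [h1]
    simp [S, NN, B, Multiset.card_nsmul, mul_assoc]
  obtain ⟨n, M, K, hM, hC⟩ := lemmaC (N := NN) r (by omega)
    ((univ : Finset (Bι → ι)).toList.map Cw)
  let s : ℝ := Real.sqrt (1 / (M * (B * lam)))
  have hs : s ^ 2 = 1 / (M * (B * lam)) := Real.sq_sqrt (by positivity)
  let Pt : (Fin n → ℝ) → EuclideanSpace ℝ (Fin (n + 1)) := fun z =>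
    WithLp.toLp 2 (fun a => if h : a.val < n then s * z ⟨a, h⟩ else 0)
  have hPt : ∀ z z', dist (Pt z) (Pt z') ^ 2 = s ^ 2 * ∑ q, (z q - z' q) ^ 2 := by
    intro z z'
    rw [EuclideanSpace.dist_eq, Real.sq_sqrt (Finset.sum_nonneg fun _ _ => sq_nonneg _)]
    simp only [Real.dist_eq, sq_abs, Pt]
    rw [Fin.sum_univ_castSucc, mul_sum]
    simp only [Fin.val_castSucc, Fin.val_last, lt_irrefl, dite_false, sub_self, ne_eq,
      OfNat.ofNat_ne_zero, not_false_eq_true, zero_pow, add_zero, Fin.is_lt, dite_true, Fin.eta]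
    refine sum_congr rfl fun q _ => ?_
    ring
  refine ⟨n + 1, by omega, fun c => ?_⟩
  obtain ⟨τ, hLab, hmono⟩ := hC (fun z => c (Pt z))
  have hex : ∀ w, ∃ u : Fin NN → ℝ, cont u = Cw w := fun w => exists_enum (Cw w) (hcard w)
  choose U hU using hex
  obtain ⟨l, k, hl⟩ := hHJ (fun w => c (Pt (hostWord (U w) τ)))
  -- the active and inactive coordinates of the line
  let Act : Finset Bι := univ.filter (fun j => l.idxFun j = none)
  let Ina : Finset Bι := univ.filter (fun j => ¬ l.idxFun j = none)
  have hActIna : Act.card + Ina.card = B := by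
    simpa [Act, Ina, B] using Finset.card_filter_add_card_filter_not (s := (univ : Finset Bι))
      (fun j => l.idxFun j = none)
  have hApos : 0 < Act.card := by
    obtain ⟨j, hj⟩ := l.proper
    exact Finset.card_pos.mpr ⟨j, by simp [Act, hj]⟩
  have hBpos : 0 < B := by omega
  let a := Act.card
  let m := Ina.card
  have hmle : m ≤ a * L := by
    have : m ≤ B := by omega
    have h1 : 1 * L ≤ a * L := Nat.mul_le_mul_right _ hApos
    simp only [L] at h1 ⊢
    omega
  obtain ⟨e, he⟩ : ∃ e, m + e = a * L := ⟨a * L - m, by omega⟩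
  -- the array
  let A : Multiset (ι → ℝ) := (∑ j ∈ Ina, L • P.map (fun f => fun _ : ι => f (l i0 j))) +
    m • P + e • Nn
  have hlina : ∀ j ∈ Ina, ∀ i, l i j = l i0 j := by
    intro j hj i
    have hj' : ¬ l.idxFun j = none := (mem_filter.mp hj).2
    simp only [Combinatorics.Line.coe_apply]
    cases hh : l.idxFun j with
    | none => exact absurd hh hj'
    | some y => simp
  have hlact : ∀ j ∈ Act, ∀ i, l i j = i := by
    intro j hj i
    have hj' : l.idxFun j = none := (mem_filter.mp hj).2
    simp [Combinatorics.Line.coe_apply, hj']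
  have hrow : ∀ i, A.map (fun f => f i) = Cw (l i) := by
    intro i
    simp only [A, Multiset.map_add, Multiset.map_nsmul]
    rw [row_sum, ← hlaw i]
    have h1 : Cw (l i) = ∑ j ∈ Ina, L • P.map (fun f => f (l i j)) +
        ∑ j ∈ Act, L • P.map (fun f => f (l i j)) := by
      simp only [Cw, Ina, Act]
      rw [add_comm]
      exact (Finset.sum_filter_add_sum_filter_not _ _ _).symm
    have h2 : ∑ j ∈ Act, L • P.map (fun f => f (l i j)) = (a * L) • P.map (fun f => f i) := by
      rw [sum_congr rfl (fun j hj => by rw [hlact j hj i]), sum_const, ← mul_smul]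
    have h3 : ∑ j ∈ Ina, (L • P.map (fun f => fun _ : ι => f (l i0 j))).map (fun f => f i) =
        ∑ j ∈ Ina, L • P.map (fun f => f (l i j)) := by
      refine sum_congr rfl fun j hj => ?_
      rw [Multiset.map_nsmul, Multiset.map_map, hlina j hj i]
      rfl
    rw [h1, h2, h3, add_assoc, ← add_smul, he]
  have hcardA : Multiset.card A = NN := by
    rw [← Multiset.card_map (fun f => f i0) A, hrow, hcard]
  obtain ⟨col, hcol⟩ := exists_enum A hcardA
  let u : ι → Fin NN → ℝ := fun i q => col q i
  have hucont : ∀ i, cont (u i) = Cw (l i) := by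
    intro i
    rw [← hrow i, ← hcol, Multiset.map_map]
    rfl
  -- squared distances of the array
  have hL : (L : ℝ) ≠ 0 := by
    have : (0 : ℝ) < L := by exact_mod_cast Nat.succ_pos B
    exact this.ne'
  have hD : ∀ i j, ∑ q, (u i q - u j q) ^ 2 = B * lam * dist (x i) (x j) ^ 2 := by
    intro i j
    have h0 : ∑ q, (u i q - u j q) ^ 2 = (A.map fun f => (f i - f j) ^ 2).sum := by
      rw [← hcol, Multiset.map_map]
      rfl
    rw [h0]
    simp only [A]
    rw [D_add, D_add, D_sum, D_nsmul, D_nsmul, hN, hP]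
    have h1 : ∑ k ∈ Ina, ((L • P.map (fun f => fun _ : ι => f (l i0 k))).map
        fun f => (f i - f j) ^ 2).sum = 0 := by
      refine sum_eq_zero fun k _ => ?_
      rw [D_nsmul, Multiset.map_map]
      simp
    rw [h1, zero_add]
    have h2 : (m : ℝ) + e = a * L := by exact_mod_cast he
    have h3 : (a : ℝ) + m = B := by exact_mod_cast hActIna
    field_simp
    have h4 : (e : ℝ) = a * L - m := by linarith
    have h5 : (B : ℝ) = a + m := by linarith
    rw [h4, h5]
    ring
  refine ⟨fun i => Pt (hostWord (u i) τ), fun i j => ?_, k, fun i => ?_⟩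
  · have h1 : dist (Pt (hostWord (u i) τ)) (Pt (hostWord (u j) τ)) ^ 2 = dist (x i) (x j) ^ 2 := by
      rw [hPt, sum_host _ _ τ M hLab.1, hD, hs]
      have hMr : (M : ℝ) ≠ 0 := by exact_mod_cast hM.ne'
      have hBr : (B : ℝ) ≠ 0 := by exact_mod_cast hBpos.ne'
      field_simp
    exact (pow_left_inj₀ dist_nonneg dist_nonneg two_ne_zero).mp h1
  · have hmem : Cw (l i) ∈ (univ : Finset (Bι → ι)).toList.map Cw :=
      List.mem_map.mpr ⟨l i, by simp, rfl⟩
    have h1 := hmono _ hmem (u i) (U (l i)) (hucont i) (hU (l i))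
    exact h1.trans (hl i)

end Vale.Agent.Lib.P058K
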