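import Mathlib
import Vale.Agent.Lib.P058K.Hadamard
import Vale.Agent.Lib.P058K.ThmR

/-!
# The Hadamard criterion for Ramsey sets

If the rows of a real square matrix have equal norm and the entrywise square of the matrix is
invertible, then the rows form a Ramsey family.
-/

set_option linter.unusedVariables false
set_option linter.unusedSectionVars false

namespace Vale.Agent.Lib.P058K.Had

open Finset Vale.Agent.Lib.P058

/-- A family `x` whose squared distances are proportional to those of the rows of a square matrix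
`W`, with rows of equal norm and invertible entrywise square, is a Ramsey family. -/
theorem isRamseyFamily_of_hadamard {k d : ℕ} (W : Fin k → Fin k → ℝ) (τ : ℝ)
    (hτ : ∀ a, ∑ i, W a i ^ 2 = τ) (hdet : (Matrix.of fun a i => W a i ^ 2).det ≠ 0) (i0 : Fin k)
    (x : Fin k → EuclideanSpace ℝ (Fin d)) (c : ℝ) (hc : 0 < c)
    (hx : ∀ a b, ∑ i, (W a i - W b i) ^ 2 = c * dist (x a) (x b) ^ 2) : IsRamseyFamily x := by
  haveI : Nonempty (Fin k) := ⟨i0⟩
  refine thmR x fun L hL => ?_
  obtain ⟨P, N, lam, hlam, hlaw, hN, hP⟩ := pn_of_hadamard W τ hτ hdet i0 L hL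
  refine ⟨P, N, lam * c, mul_pos hlam hc, hlaw, fun a b => ?_, fun a b => ?_⟩
  · rw [hN, hx]
    ring
  · rw [hP, hx]
    ring

/-- The rows of a matrix as points of Euclidean space. -/
noncomputable def rowPt {k : ℕ} (W : Fin k → Fin k → ℝ) (a : Fin k) : EuclideanSpace ℝ (Fin k) :=
  WithLp.toLp 2 (W a)

theorem dist_rowPt_sq {k : ℕ} (W : Fin k → Fin k → ℝ) (a b : Fin k) :
    dist (rowPt W a) (rowPt W b) ^ 2 = ∑ i, (W a i - W b i) ^ 2 := by
  rw [EuclideanSpace.dist_eq, Real.sq_sqrt (Finset.sum_nonneg fun _ _ => sq_nonneg _)]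
  simp [rowPt, Real.dist_eq, sq_abs]

/-- **The Hadamard criterion.** If the rows of a real square matrix `W` have equal Euclidean norm and
the entrywise square of `W` is invertible, the set of rows of `W` is Ramsey. -/
theorem isRamsey_rows_of_hadamard {k : ℕ} (W : Fin k → Fin k → ℝ) (τ : ℝ)
    (hτ : ∀ a, ∑ i, W a i ^ 2 = τ) (hdet : (Matrix.of fun a i => W a i ^ 2).det ≠ 0) :
    IsRamsey (Set.range (rowPt W)) := by
  rcases Nat.eq_zero_or_pos k with rfl | hk
  · have : Set.range (rowPt W) = ∅ := by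
      ext y
      simp
    rw [this]
    intro r hr
    refine ⟨1, le_rfl, fun c => ⟨fun _ => 0, by simp, ⟨0, by omega⟩, by simp⟩⟩
  · have h := isRamseyFamily_of_hadamard W τ hτ hdet ⟨0, hk⟩ (rowPt W) 1 one_pos fun a b => by
      rw [one_mul, dist_rowPt_sq]
    exact h.range

end Vale.Agent.Lib.P058K.Had
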