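import Vale.Agent.Lib.P058K.CyclicFive
import Vale.Agent.Lib.P058K.HadamardRamsey

/-!
# Every five concyclic points of the plane form a Ramsey set
-/

namespace Vale.Agent.Lib.P058K.CyclicFive

open Finset Vale.Agent.Lib.P058

/-- Five distinct points on a circle of the plane form a Ramsey family. -/
theorem isRamseyFamily_five_concyclic (p : Fin 5 → EuclideanSpace ℝ (Fin 2))
    (hinj : Function.Injective p) (z : EuclideanSpace ℝ (Fin 2)) (ρ : ℝ)
    (hρ : ∀ a, dist (p a) z = ρ) : IsRamseyFamily p := by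
  have hρpos : 0 < ρ := by
    have h0 : 0 ≤ ρ := by rw [← hρ 0]; exact dist_nonneg
    rcases h0.lt_or_eq with h | h
    · exact h
    · exfalso
      have e0 : p 0 = z := dist_eq_zero.mp (by rw [hρ 0, ← h])
      have e1 : p 1 = z := dist_eq_zero.mp (by rw [hρ 1, ← h])
      have := hinj (e0.trans e1.symm)
      exact absurd this (by decide)
  have hρne : ρ ≠ 0 := hρpos.ne'
  let x : Fin 5 → ℝ := fun a => (p a 0 - z 0) / ρ
  let y : Fin 5 → ℝ := fun a => (p a 1 - z 1) / ρ
  have hdist2 : ∀ u v : EuclideanSpace ℝ (Fin 2),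
      dist u v ^ 2 = (u 0 - v 0) ^ 2 + (u 1 - v 1) ^ 2 := by
    intro u v
    rw [EuclideanSpace.dist_eq, Real.sq_sqrt (Finset.sum_nonneg fun _ _ => sq_nonneg _)]
    simp [Fin.sum_univ_two, Real.dist_eq, sq_abs]
  have hxy : ∀ a, x a ^ 2 + y a ^ 2 = 1 := by
    intro a
    have h := hdist2 (p a) z
    rw [hρ a] at h
    simp only [x, y]
    field_simp
    linear_combination -h
  have hinj' : ∀ a b, x a = x b → y a = y b → a = b := by
    intro a b h1 h2
    apply hinj
    have h1' : p a 0 = p b 0 := by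
      simp only [x] at h1
      field_simp at h1
      linarith
    have h2' : p a 1 = p b 1 := by
      simp only [y] at h2
      field_simp at h2
      linarith
    ext i
    fin_cases i
    · exact h1'
    · exact h2'
  have hd : ∀ a b, (x a - x b) ^ 2 + (y a - y b) ^ 2 = dist (p a) (p b) ^ 2 / ρ ^ 2 := by
    intro a b
    rw [hdist2]
    simp only [x, y]
    field_simp
    ring
  refine Had.isRamseyFamily_of_hadamard (fun a i => W5 x y a i) 46 (W5_row_norm x y hxy)
    (W5_det_ne x y hxy hinj') 0 p (27 / ρ ^ 2) (by positivity) ?_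
  intro a b
  rw [W5_dist, hd]
  ring

/-- Five distinct points on a circle of the plane form a Ramsey set. -/
theorem isRamsey_five_concyclic (p : Fin 5 → EuclideanSpace ℝ (Fin 2))
    (hinj : Function.Injective p) (z : EuclideanSpace ℝ (Fin 2)) (ρ : ℝ)
    (hρ : ∀ a, dist (p a) z = ρ) : IsRamsey (Set.range p) :=
  (isRamseyFamily_five_concyclic p hinj z ρ hρ).range

/-- A subset of a Ramsey set is Ramsey. -/
theorem isRamsey_mono {d : ℕ} {A B : Set (EuclideanSpace ℝ (Fin d))} (hAB : A ⊆ B)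
    (hB : IsRamsey B) : IsRamsey A := by
  intro r hr
  obtain ⟨D, hD, h⟩ := hB r hr
  refine ⟨D, hD, fun c => ?_⟩
  obtain ⟨f, hf, k, hk⟩ := h c
  exact ⟨f, fun a ha b hb => hf a (hAB ha) b (hAB hb), k, fun a ha => hk a (hAB ha)⟩

/-- A circle of positive radius in the plane is infinite. -/
theorem circle_infinite (z : EuclideanSpace ℝ (Fin 2)) (ρ : ℝ) (hρ : 0 < ρ) :
    {a : EuclideanSpace ℝ (Fin 2) | dist a z = ρ}.Infinite := by
  let g : ℝ → EuclideanSpace ℝ (Fin 2) := fun t =>
    WithLp.toLp 2 ![z 0 + ρ * ((1 - t ^ 2) / (1 + t ^ 2)), z 1 + ρ * (2 * t / (1 + t ^ 2))]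
  have hpos : ∀ t : ℝ, 1 + t ^ 2 ≠ 0 := fun t => by positivity
  have hg : Function.Injective g := by
    intro s t h
    have h0 := congrArg (fun v : EuclideanSpace ℝ (Fin 2) => v 0) h
    have h1 := congrArg (fun v : EuclideanSpace ℝ (Fin 2) => v 1) h
    simp only [g] at h0 h1
    simp at h0 h1
    have hρne : ρ ≠ 0 := hρ.ne'
    have h0' : (1 - s ^ 2) / (1 + s ^ 2) = (1 - t ^ 2) / (1 + t ^ 2) := by
      rcases h0 with h0 | h0
      · exact h0
      · exact absurd h0 hρne
    have h1' : s / (1 + s ^ 2) = t / (1 + t ^ 2) := by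
      have : 2 * s / (1 + s ^ 2) = 2 * t / (1 + t ^ 2) := by
        rcases h1 with h1 | h1
        · exact h1
        · exact absurd h1 hρne
      have e1 : 2 * s / (1 + s ^ 2) = 2 * (s / (1 + s ^ 2)) := by ring
      have e2 : 2 * t / (1 + t ^ 2) = 2 * (t / (1 + t ^ 2)) := by ring
      rw [e1, e2] at this
      linarith
    rw [div_eq_div_iff (hpos s) (hpos t)] at h0' h1'
    have hss : s ^ 2 = t ^ 2 := by linarith
    have : s * (1 + t ^ 2) = t * (1 + t ^ 2) := by rw [h1', hss]
    exact mul_right_cancel₀ (hpos t) this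
  refine Set.infinite_of_injective_forall_mem hg fun t => ?_
  have hsq : ∀ u v : EuclideanSpace ℝ (Fin 2),
      dist u v ^ 2 = (u 0 - v 0) ^ 2 + (u 1 - v 1) ^ 2 := by
    intro u v
    rw [EuclideanSpace.dist_eq, Real.sq_sqrt (Finset.sum_nonneg fun _ _ => sq_nonneg _)]
    simp [Fin.sum_univ_two, Real.dist_eq, sq_abs]
  have h2 : dist (g t) z ^ 2 = ρ ^ 2 := by
    rw [hsq]
    simp only [g]
    simp
    have := hpos t
    field_simp
    ring
  have h3 : 0 ≤ dist (g t) z := dist_nonneg
  show dist (g t) z = ρ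
  nlinarith [sq_nonneg (dist (g t) z - ρ), sq_nonneg (dist (g t) z + ρ)]

/-- **Every set of at most five points on a circle of the plane is Ramsey.**  In particular every
cyclic quadrilateral is Ramsey. -/
theorem isRamsey_concyclic_le_five (A : Finset (EuclideanSpace ℝ (Fin 2))) (hcard : A.card ≤ 5)
    (z : EuclideanSpace ℝ (Fin 2)) (ρ : ℝ) (hρ : 0 < ρ) (hA : ∀ a ∈ A, dist a z = ρ) :
    IsRamsey (A : Set (EuclideanSpace ℝ (Fin 2))) := by
  classical
  have hinf := (circle_infinite z ρ hρ).sdiff A.finite_toSet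
  obtain ⟨t, ht, htcard⟩ := hinf.exists_subset_card_eq (5 - A.card)
  have hdisj : Disjoint A t := by
    rw [Finset.disjoint_left]
    intro a ha hat
    exact (ht hat).2 ha
  obtain ⟨B, hAB, hB, hcardB⟩ : ∃ B : Finset (EuclideanSpace ℝ (Fin 2)), A ⊆ B ∧
      (∀ a ∈ B, dist a z = ρ) ∧ B.card = 5 := by
    refine ⟨A ∪ t, Finset.subset_union_left, ?_, ?_⟩
    · intro a ha
      rcases Finset.mem_union.mp ha with h | h
      · exact hA a h
      · exact (ht h).1
    · rw [Finset.card_union_of_disjoint hdisj, htcard]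
      omega
  let e : Fin 5 ≃ B := (Finset.equivFinOfCardEq hcardB).symm
  let p : Fin 5 → EuclideanSpace ℝ (Fin 2) := fun i => (e i : EuclideanSpace ℝ (Fin 2))
  have hp : Function.Injective p := fun i j h => e.injective (Subtype.ext h)
  have hR := isRamsey_five_concyclic p hp z ρ (fun a => hB _ (e a).2)
  refine isRamsey_mono (fun a ha => ?_) hR
  have haB : a ∈ B := hAB ha
  exact ⟨e.symm ⟨a, haB⟩, by simp [p]⟩

end Vale.Agent.Lib.P058K.CyclicFive
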