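import Vale.Agent.Lib.P058K.PN

/-!
# Column families for every cyclic quadrilateral

`cyclic_PN`: for any four points of a circle (distinct), column multisets `Pm`, `Nm` with equal laws,
`D(Nm) = (lam / L) d²` and `D(Pm) = (lam / L + lam) d²`.
-/

namespace Vale.Agent.Lib.P058K.PNC

/-- Scaling a column. -/
def sc (θ : ℝ) (f : Col) : Col := fun i => θ * f i

lemma sc_law {M M' : Multiset Col} {i : Fin 4} (θ : ℝ)
    (h : M.map (fun f => f i) = M'.map (fun f => f i)) :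
    (M.map (sc θ)).map (fun f => f i) = (M'.map (sc θ)).map (fun f => f i) := by
  have := congrArg (Multiset.map (fun x : ℝ => θ * x)) h
  simpa [Multiset.map_map, Function.comp_def, sc] using this

lemma sc_D (M : Multiset Col) (θ : ℝ) (i j : Fin 4) :
    ((M.map (sc θ)).map fun f => (f i - f j) ^ 2).sum =
      θ ^ 2 * (M.map fun f => (f i - f j) ^ 2).sum := by
  rw [Multiset.map_map, ← Multiset.sum_map_mul_left]
  congr 1
  apply Multiset.map_congr rfl
  intro f _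
  simp only [Function.comp, sc]
  ring

/-- The numerics of the tuning. -/
lemma tuning {s : ℝ} (hs : 0 < s) {L : ℕ} (hL : 1 ≤ L) :
    ∃ η : ℝ, 0 < η ∧ ∀ (n a b : ℝ), 0 < n → 0 ≤ a → 0 ≤ b → a + b ≤ η * n →
      ∃ u v lam : ℝ, 0 < u ∧ 0 < v ∧ 0 < lam ∧ 2 * n * u - (u + v) * a = lam ∧
        2 * n * v * (1 / s ^ 2) - (u + v) * b = lam ∧
        0 ≤ lam / L - (u + v) * a ∧ 0 ≤ lam / L - (u + v) * b := by
  have hL0 : (0 : ℝ) < L := by exact_mod_cast hL
  have hL1 : (1 : ℝ) ≤ L := by exact_mod_cast hL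
  obtain ⟨T, hT⟩ : ∃ T : ℝ, T = 4 / s ^ 2 := ⟨_, rfl⟩
  have hT0 : 0 < T := by rw [hT]; positivity
  obtain ⟨w, hw⟩ : ∃ w : ℝ, w = T / 2 + 2 := ⟨_, rfl⟩
  have hw0 : 0 < w := by rw [hw]; positivity
  obtain ⟨D0, hD0⟩ : ∃ D0 : ℝ, D0 = w * L + 2 + w := ⟨_, rfl⟩
  have hD00 : 0 < D0 := by rw [hD0]; positivity
  obtain ⟨η, hη⟩ : ∃ η : ℝ, η = T / D0 := ⟨_, rfl⟩
  have hη0 : 0 < η := by rw [hη]; positivity
  have hηD : η * D0 = T := by rw [hη]; field_simp
  have hwL : w ≤ w * L := by nlinarith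
  have hη1 : η < 1 := by
    rw [hη, div_lt_one hD00, hD0]
    have : T < 2 * w := by rw [hw]; linarith
    linarith
  have hη2 : η < T / 2 := by
    have h1 : 2 < D0 := by rw [hD0]; linarith
    have : η * 2 < η * D0 := mul_lt_mul_of_pos_left h1 hη0
    rw [hηD] at this
    linarith
  refine ⟨η, hη0, ?_⟩
  intro n a b hn0 ha hb hab'
  obtain ⟨a', ha'⟩ : ∃ a' : ℝ, a' = a / n := ⟨_, rfl⟩
  obtain ⟨b', hb'⟩ : ∃ b' : ℝ, b' = b / n := ⟨_, rfl⟩
  have haa : a = a' * n := by rw [ha']; field_simp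
  have hbb : b = b' * n := by rw [hb']; field_simp
  have ha'0 : 0 ≤ a' := by rw [ha']; positivity
  have hb'0 : 0 ≤ b' := by rw [hb']; positivity
  have hab2 : a' + b' ≤ η := by
    have : (a' + b') * n ≤ η * n := by rw [add_mul, ← haa, ← hbb]; exact hab'
    exact le_of_mul_le_mul_right this hn0
  obtain ⟨u, hu⟩ : ∃ u : ℝ, u = T / 2 + a' - b' := ⟨_, rfl⟩
  obtain ⟨v, hv⟩ : ∃ v : ℝ, v = 2 - a' + b' := ⟨_, rfl⟩
  have hu0 : 0 < u := by rw [hu]; linarith
  have hv0 : 0 < v := by rw [hv]; linarith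
  have huv : u + v = w := by rw [hu, hv, hw]; ring
  obtain ⟨lam, hlam⟩ : ∃ lam : ℝ, lam = n * (T - 2 * b' - T / 2 * a') := ⟨_, rfl⟩
  have hs2 : 1 / s ^ 2 = T / 4 := by rw [hT]; field_simp
  have hid1 : 2 * n * u - w * a = lam := by
    rw [haa, hu, hw, hlam]; ring
  have hid2 : 2 * n * v * (1 / s ^ 2) - w * b = lam := by
    rw [hbb, hs2, hv, hw, hlam]; ring
  have hmain : w * η * L ≤ T - w * η := by
    have : w * η * (L + 1) ≤ η * D0 := by
      rw [hD0]; nlinarith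
    rw [hηD] at this
    nlinarith
  have hlamlow : n * (T - w * η) ≤ lam := by
    rw [hlam]
    have : 2 * b' + T / 2 * a' ≤ w * η := by
      have h1 : w * (a' + b') ≤ w * η := mul_le_mul_of_nonneg_left hab2 hw0.le
      have : w * (a' + b') = (T / 2 + 2) * a' + (T / 2 + 2) * b' := by rw [hw]; ring
      nlinarith [mul_nonneg hT0.le ha'0, mul_nonneg hT0.le hb'0]
    apply mul_le_mul_of_nonneg_left _ hn0.le
    linarith
  have hpos : 0 < w * η * L := by positivity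
  have hlam0 : 0 < lam := by
    have : 0 < n * (T - w * η) := mul_pos hn0 (by linarith)
    linarith
  have hτlow : w * η * n ≤ lam / L := by
    rw [le_div_iff₀ hL0]
    have : (w * η * n) * L = n * (w * η * L) := by ring
    rw [this]
    have : n * (w * η * L) ≤ n * (T - w * η) := mul_le_mul_of_nonneg_left hmain hn0.le
    linarith
  have hr1 : 0 ≤ lam / L - w * a := by
    have : w * a ≤ w * η * n := by
      have h1 : a ≤ η * n := by linarith
      calc w * a ≤ w * (η * n) := mul_le_mul_of_nonneg_left h1 hw0.le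
        _ = _ := by ring
    linarith
  have hr2 : 0 ≤ lam / L - w * b := by
    have : w * b ≤ w * η * n := by
      have h1 : b ≤ η * n := by linarith
      calc w * b ≤ w * (η * n) := mul_le_mul_of_nonneg_left h1 hw0.le
        _ = _ := by ring
    linarith
  refine ⟨u, v, lam, hu0, hv0, hlam0, ?_, ?_, ?_, ?_⟩
  · rw [huv]; exact hid1
  · rw [huv]; exact hid2
  · rw [huv]; exact hr1
  · rw [huv]; exact hr2

/-- The assembly, given the numbers. -/
lemma assemble {X Y : Col} {P Q s : ℝ} (hs : 0 < s)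
    (hk : ∀ i, Y i - Q = s * (X i - P) ∨ Y i - Q = -(s * (X i - P)))
    {c B : RC} {n : ℕ} {a b : ℝ} (hc : Acts c n) (hE : Eqv (c * pr 1 X P) B)
    (hG : Good X Y B a b) {u v lam τ : ℝ} (hu0 : 0 < u) (hv0 : 0 < v)
    (hid1 : 2 * n * u - (u + v) * a = lam)
    (hid2 : 2 * n * v * (1 / s ^ 2) - (u + v) * b = lam)
    (hr1 : 0 ≤ τ - (u + v) * a) (hr2 : 0 ≤ τ - (u + v) * b) :
    ∃ (Pm Nm : Multiset (Fin 4 → ℝ)),
      (∀ i, Pm.map (fun f => f i) = Nm.map (fun f => f i)) ∧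
      (∀ i j, (Nm.map fun f => (f i - f j) ^ 2).sum =
        τ * ((X i - X j) ^ 2 + (Y i - Y j) ^ 2)) ∧
      (∀ i j, (Pm.map fun f => (f i - f j) ^ 2).sum =
        (τ + lam) * ((X i - X j) ^ 2 + (Y i - Y j) ^ 2)) := by
  obtain ⟨r₁, hr₁2⟩ : ∃ r : ℝ, r ^ 2 = τ - (u + v) * a := ⟨_, Real.sq_sqrt hr1⟩
  obtain ⟨r₂, hr₂2⟩ : ∃ r : ℝ, r ^ 2 = τ - (u + v) * b := ⟨_, Real.sq_sqrt hr2⟩
  obtain ⟨θ₁, hθ₁2⟩ : ∃ r : ℝ, r ^ 2 = u := ⟨_, Real.sq_sqrt hu0.le⟩
  obtain ⟨θ₂, hθ₂2⟩ : ∃ r : ℝ, r ^ 2 = v := ⟨_, Real.sq_sqrt hv0.le⟩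
  obtain ⟨Z, hZ⟩ : ∃ Z : Multiset Col, Z = {fun i => r₁ * X i, fun i => r₂ * Y i} := ⟨_, rfl⟩
  have hZD : ∀ i j, (Z.map fun f => (f i - f j) ^ 2).sum =
      r₁ ^ 2 * (X i - X j) ^ 2 + r₂ ^ 2 * (Y i - Y j) ^ 2 := by
    intro i j
    simp only [hZ, Multiset.insert_eq_cons, Multiset.map_cons, Multiset.map_singleton,
      Multiset.sum_cons, Multiset.sum_singleton]
    ring
  have hE₂ : Eqv (c * pr (1 / s) Y Q) B :=
    ((swap_eqv (t := 1) hs.ne' hk).mul_left c).symm.trans hE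
  have hF₁D : ∀ i j, ((ms (c * pr 1 X P)).map fun f => (f i - f j) ^ 2).sum =
      n * (2 * (X i - X j) ^ 2) := by
    intro i j
    have := hc (pr 1 X P) i j
    rw [pr_D] at this
    change D i j (c * pr 1 X P) = _
    rw [this]
    ring
  have hF₂D : ∀ i j, ((ms (c * pr (1 / s) Y Q)).map fun f => (f i - f j) ^ 2).sum =
      n * (2 * (1 / s ^ 2) * (Y i - Y j) ^ 2) := by
    intro i j
    have := hc (pr (1 / s) Y Q) i j
    rw [pr_D] at this
    change D i j (c * pr (1 / s) Y Q) = _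
    rw [this]
    have : (1 / s) ^ 2 = 1 / s ^ 2 := by ring
    rw [this]
  have hGD : ∀ i j, ((ms B).map fun f => (f i - f j) ^ 2).sum =
      a * (X i - X j) ^ 2 + b * (Y i - Y j) ^ 2 := hG
  refine ⟨(ms (c * pr 1 X P)).map (sc θ₁) + (ms (c * pr (1 / s) Y Q)).map (sc θ₂) + Z,
    (ms B).map (sc θ₁) + (ms B).map (sc θ₂) + Z, ?_, ?_, ?_⟩
  · intro i
    rw [Multiset.map_add, Multiset.map_add, Multiset.map_add, Multiset.map_add,
      sc_law θ₁ (ms_eq_of_Eqv hE i), sc_law θ₂ (ms_eq_of_Eqv hE₂ i)]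
  · intro i j
    rw [Multiset.map_add, Multiset.map_add, Multiset.sum_add, Multiset.sum_add, sc_D, sc_D, hGD,
      hZD, hθ₁2, hθ₂2, hr₁2, hr₂2]
    ring
  · intro i j
    rw [Multiset.map_add, Multiset.map_add, Multiset.sum_add, Multiset.sum_add, sc_D, sc_D, hF₁D,
      hF₂D, hZD, hθ₁2, hθ₂2, hr₁2, hr₂2]
    have h1 : u * (n * (2 * (X i - X j) ^ 2)) = (lam + (u + v) * a) * (X i - X j) ^ 2 := by
      rw [← hid1]; ring
    have h2 : v * (n * (2 * (1 / s ^ 2) * (Y i - Y j) ^ 2)) =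
        (lam + (u + v) * b) * (Y i - Y j) ^ 2 := by
      rw [← hid2]; ring
    rw [h1, h2]
    ring

/-- The general form: two pairings with different slopes. -/
theorem exists_PN_gen {X Y : Col} {P Q P' Q' s s' : ℝ} (hs : 0 < s) (hs' : 0 < s') (hlt : s' < s)
    (hk : ∀ i, Y i - Q = s * (X i - P) ∨ Y i - Q = -(s * (X i - P)))
    (hj : ∀ i, Y i - Q' = s' * (X i - P') ∨ Y i - Q' = -(s' * (X i - P')))
    (L : ℕ) (hL : 1 ≤ L) :
    ∃ (Pm Nm : Multiset (Fin 4 → ℝ)) (lam : ℝ), 0 < lam ∧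
      (∀ i, Pm.map (fun f => f i) = Nm.map (fun f => f i)) ∧
      (∀ i j, (Nm.map fun f => (f i - f j) ^ 2).sum =
        lam / L * ((X i - X j) ^ 2 + (Y i - Y j) ^ 2)) ∧
      (∀ i j, (Pm.map fun f => (f i - f j) ^ 2).sum =
        (lam / L + lam) * ((X i - X j) ^ 2 + (Y i - Y j) ^ 2)) := by
  obtain ⟨η, hη0, hη⟩ := tuning hs hL
  obtain ⟨c, n, B, a, b, hc, hn, hE, hG, ha, hb, hab⟩ :=
    TT_all (X := X) (Y := Y) hs hs' hlt hk hj (η := η) hη0 1
  have hn0 : (0 : ℝ) < n := by exact_mod_cast hn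
  have hab' : a + b ≤ η * n := by simpa using hab
  obtain ⟨u, v, lam, hu0, hv0, hlam0, hid1, hid2, hr1, hr2⟩ := hη n a b hn0 ha hb hab'
  obtain ⟨Pm, Nm, h1, h2, h3⟩ := assemble hs hk hc hE hG hu0 hv0 hid1 hid2 hr1 hr2
  exact ⟨Pm, Nm, lam, hlam0, h1, h2, h3⟩

/-- The rectangle case: no negative part at all. -/
theorem exists_PN_rect {X Y : Col} {p q : ℝ} (hX : ∀ i, X i = p ∨ X i = -p)
    (hY : ∀ i, Y i = q ∨ Y i = -q) (L : ℕ) (hL : 1 ≤ L) :
    ∃ (Pm Nm : Multiset (Fin 4 → ℝ)) (lam : ℝ), 0 < lam ∧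
      (∀ i, Pm.map (fun f => f i) = Nm.map (fun f => f i)) ∧
      (∀ i j, (Nm.map fun f => (f i - f j) ^ 2).sum =
        lam / L * ((X i - X j) ^ 2 + (Y i - Y j) ^ 2)) ∧
      (∀ i j, (Pm.map fun f => (f i - f j) ^ 2).sum =
        (lam / L + lam) * ((X i - X j) ^ 2 + (Y i - Y j) ^ 2)) := by
  have hL0 : (0 : ℝ) < L := by exact_mod_cast hL
  set r : ℝ := Real.sqrt (2 / L) with hr
  have hr2 : r ^ 2 = 2 / L := Real.sq_sqrt (by positivity)
  set Z : Multiset Col := {fun i => r * X i, fun i => r * Y i} with hZ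
  have hZD : ∀ i j, (Z.map fun f => (f i - f j) ^ 2).sum =
      r ^ 2 * ((X i - X j) ^ 2 + (Y i - Y j) ^ 2) := by
    intro i j
    simp only [hZ, Multiset.insert_eq_cons, Multiset.map_cons, Multiset.map_singleton,
      Multiset.sum_cons, Multiset.sum_singleton]
    ring
  refine ⟨({X, -X, Y, -Y} : Multiset Col) + Z,
    ({fun _ => p, fun _ => -p, fun _ => q, fun _ => -q} : Multiset Col) + Z, 2, two_pos, ?_, ?_, ?_⟩
  · intro i
    rw [Multiset.map_add, Multiset.map_add]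
    congr 1
    simp only [Multiset.insert_eq_cons, Multiset.map_cons, Multiset.map_singleton, Pi.neg_apply]
    have h1 : ∀ l : Multiset ℝ, (X i ::ₘ (-X i) ::ₘ l) = p ::ₘ (-p) ::ₘ l := by
      intro l
      rcases hX i with h | h
      · rw [h]
      · rw [h, neg_neg, Multiset.cons_swap]
    rw [h1]
    congr 2
    rcases hY i with h | h
    · rw [h]
    · rw [h, neg_neg]
      exact Multiset.pair_comm _ _
  · intro i j
    rw [Multiset.map_add, Multiset.sum_add, hZD, hr2]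
    simp
  · intro i j
    rw [Multiset.map_add, Multiset.sum_add, hZD, hr2]
    simp only [Multiset.insert_eq_cons, Multiset.map_cons, Multiset.map_singleton, Pi.neg_apply,
      Multiset.sum_cons, Multiset.sum_singleton]
    ring

/-! ### Trigonometry -/

/-- Two chords of the circle, in the rotated frame where the angles sum to zero. -/
lemma line_pair (R φa φb φc φd : ℝ) (hsum : φa + φb + φc + φd = 0)
    (hne : Real.sin (φa + φb) ≠ 0) :
    0 < |Real.cos ((φa + φb) / 2) / Real.sin ((φa + φb) / 2)| ∧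
    ∃ P Q : ℝ, ∀ φ ∈ ({φa, φb, φc, φd} : Set ℝ),
      R * Real.sin φ - Q =
          |Real.cos ((φa + φb) / 2) / Real.sin ((φa + φb) / 2)| * (R * Real.cos φ - P) ∨
      R * Real.sin φ - Q =
          -(|Real.cos ((φa + φb) / 2) / Real.sin ((φa + φb) / 2)| * (R * Real.cos φ - P)) := by
  set u := (φa + φb) / 2 with hu
  have h2u : φa + φb = 2 * u := by rw [hu]; ring
  rw [h2u, Real.sin_two_mul] at hne
  have hsu : Real.sin u ≠ 0 := by
    intro h; apply hne; rw [h]; ring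
  have hcu : Real.cos u ≠ 0 := by
    intro h; apply hne; rw [h]; ring
  refine ⟨abs_pos.2 (div_ne_zero hcu hsu), ?_⟩
  set A := R * Real.cos ((φa - φb) / 2) with hA
  set B := R * Real.cos ((φc - φd) / 2) with hB
  refine ⟨(A + B) / (2 * Real.cos u), (A - B) / (2 * Real.sin u), ?_⟩
  -- line equations
  have key1 : ∀ φ, R * Real.cos φ * Real.cos u + R * Real.sin φ * Real.sin u = A →
      R * Real.sin φ - (A - B) / (2 * Real.sin u) =
        -(Real.cos u / Real.sin u * (R * Real.cos φ - (A + B) / (2 * Real.cos u))) := by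
    intro φ h
    field_simp
    linear_combination 2 * h
  have key2 : ∀ φ, R * Real.cos φ * Real.cos u - R * Real.sin φ * Real.sin u = B →
      R * Real.sin φ - (A - B) / (2 * Real.sin u) =
        (Real.cos u / Real.sin u * (R * Real.cos φ - (A + B) / (2 * Real.cos u))) := by
    intro φ h
    field_simp
    linear_combination -2 * h
  have h1 : ∀ φ, φ - u = (φa - φb) / 2 ∨ φ - u = -((φa - φb) / 2) →
      R * Real.cos φ * Real.cos u + R * Real.sin φ * Real.sin u = A := by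
    intro φ h
    have : Real.cos (φ - u) = Real.cos ((φa - φb) / 2) := by
      rcases h with h | h
      · rw [h]
      · rw [h, Real.cos_neg]
    rw [Real.cos_sub] at this
    rw [hA, ← this]
    ring
  have h2 : ∀ φ, φ + u = (φc - φd) / 2 ∨ φ + u = -((φc - φd) / 2) →
      R * Real.cos φ * Real.cos u - R * Real.sin φ * Real.sin u = B := by
    intro φ h
    have : Real.cos (φ + u) = Real.cos ((φc - φd) / 2) := by
      rcases h with h | h
      · rw [h]
      · rw [h, Real.cos_neg]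
    rw [Real.cos_add] at this
    rw [hB, ← this]
    ring
  have hsplit : ∀ z : ℝ, ∀ w₁ w₂ : ℝ, (w₁ = -(z * w₂) ∨ w₁ = z * w₂) →
      (w₁ = |z| * w₂ ∨ w₁ = -(|z| * w₂)) := by
    intro z w₁ w₂ h
    rcases abs_cases z with ⟨hz, _⟩ | ⟨hz, _⟩ <;> rw [hz] <;> rcases h with h | h
    · right; exact h
    · left; exact h
    · left; rw [h]; ring
    · right; rw [h]; ring
  intro φ hφ
  apply hsplit
  simp only [Set.mem_insert_iff, Set.mem_singleton_iff] at hφ
  rcases hφ with rfl | rfl | rfl | rfl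
  · left; exact key1 _ (h1 _ (Or.inl (by rw [hu]; ring)))
  · left; exact key1 _ (h1 _ (Or.inr (by rw [hu]; ring)))
  · right
    refine key2 _ (h2 _ (Or.inl ?_))
    rw [hu]; linarith
  · right
    refine key2 _ (h2 _ (Or.inr ?_))
    rw [hu]; linarith

/-- Different pairings have different slopes. -/
lemma slopes_ne (φa φb φc φd : ℝ) (hsum : φa + φb + φc + φd = 0)
    (h1 : Real.sin (φa + φb) ≠ 0) (h2 : Real.sin (φa + φc) ≠ 0)
    (had : Real.cos φa ≠ Real.cos φd ∨ Real.sin φa ≠ Real.sin φd)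
    (hbc : Real.cos φb ≠ Real.cos φc ∨ Real.sin φb ≠ Real.sin φc) :
    |Real.cos ((φa + φb) / 2) / Real.sin ((φa + φb) / 2)| ≠
      |Real.cos ((φa + φc) / 2) / Real.sin ((φa + φc) / 2)| := by
  intro heq
  set u := (φa + φb) / 2 with hu
  set u' := (φa + φc) / 2 with hu'
  have h2u : φa + φb = 2 * u := by rw [hu]; ring
  have h2u' : φa + φc = 2 * u' := by rw [hu']; ring
  rw [h2u, Real.sin_two_mul] at h1
  rw [h2u', Real.sin_two_mul] at h2
  have hsu : Real.sin u ≠ 0 := by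
    intro h; apply h1; rw [h]; ring
  have hsu' : Real.sin u' ≠ 0 := by
    intro h; apply h2; rw [h]; ring
  have hsq : (Real.cos u / Real.sin u) ^ 2 = (Real.cos u' / Real.sin u') ^ 2 := by
    rw [← sq_abs, heq, sq_abs]
  have hcross : Real.cos u ^ 2 * Real.sin u' ^ 2 = Real.cos u' ^ 2 * Real.sin u ^ 2 := by
    rw [div_pow, div_pow] at hsq
    field_simp at hsq
    linarith
  have hs1 := Real.sin_sq_add_cos_sq u
  have hs2 := Real.sin_sq_add_cos_sq u'
  have hsin : Real.sin u ^ 2 = Real.sin u' ^ 2 := by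
    have e1 : Real.cos u ^ 2 = 1 - Real.sin u ^ 2 := by linarith
    have e2 : Real.cos u' ^ 2 = 1 - Real.sin u' ^ 2 := by linarith
    rw [e1, e2] at hcross
    linarith
  have hcos2 : Real.cos (2 * u) = Real.cos (2 * u') := by
    rw [Real.cos_two_mul, Real.cos_two_mul]
    have e1 : Real.cos u ^ 2 = 1 - Real.sin u ^ 2 := by linarith
    have e2 : Real.cos u' ^ 2 = 1 - Real.sin u' ^ 2 := by linarith
    rw [e1, e2, hsin]
  rw [← h2u, ← h2u', Real.cos_eq_cos_iff] at hcos2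
  -- use the product formula instead
  have hprod : Real.sin ((φa - φd) / 2) * Real.sin ((φb - φc) / 2) = 0 := by
    have h3 : Real.cos (φa + φb) - Real.cos (φa + φc) =
        -2 * Real.sin ((φa - φd) / 2) * Real.sin ((φb - φc) / 2) := by
      rw [Real.cos_sub_cos]
      have e1 : (φa + φb + (φa + φc)) / 2 = (φa - φd) / 2 := by linarith
      have e2 : (φa + φb - (φa + φc)) / 2 = (φb - φc) / 2 := by ring
      rw [e1, e2]
    have h4 : Real.cos (φa + φb) = Real.cos (φa + φc) := by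
      rw [h2u, h2u', Real.cos_two_mul, Real.cos_two_mul]
      have e1 : Real.cos u ^ 2 = 1 - Real.sin u ^ 2 := by linarith
      have e2 : Real.cos u' ^ 2 = 1 - Real.sin u' ^ 2 := by linarith
      rw [e1, e2, hsin]
    rw [h4, sub_self] at h3
    linarith
  have hcoin : ∀ p q : ℝ, Real.sin ((p - q) / 2) = 0 →
      Real.cos p = Real.cos q ∧ Real.sin p = Real.sin q := by
    intro p q h
    constructor
    · have := Real.cos_sub_cos p q
      rw [h] at this
      linarith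
    · have := Real.sin_sub_sin p q
      rw [h] at this
      linarith
  rcases mul_eq_zero.1 hprod with h | h
  · obtain ⟨h5, h6⟩ := hcoin _ _ h
    rcases had with h7 | h7
    · exact h7 h5
    · exact h7 h6
  · obtain ⟨h5, h6⟩ := hcoin _ _ h
    rcases hbc with h7 | h7
    · exact h7 h5
    · exact h7 h6

/-- Rectangle lemma at the level of angles. -/
lemma rect_angles (φa φb φc φd : ℝ) (hsum : φa + φb + φc + φd = 0)
    (h1 : Real.sin (φa + φb) = 0) (h2 : Real.sin (φa + φc) = 0) :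
    Real.cos (2 * φb) = Real.cos (2 * φa) ∧ Real.cos (2 * φc) = Real.cos (2 * φa) ∧
      Real.cos (2 * φd) = Real.cos (2 * φa) := by
  have hA1 : Real.cos (2 * (φa + φb)) = 1 := by
    rw [Real.cos_two_mul']
    have := Real.sin_sq_add_cos_sq (φa + φb)
    rw [h1] at this ⊢
    linarith
  have hA2 : Real.cos (2 * (φa + φc)) = 1 := by
    rw [Real.cos_two_mul']
    have := Real.sin_sq_add_cos_sq (φa + φc)
    rw [h2] at this ⊢
    linarith
  have hS1 : Real.sin (2 * (φa + φb)) = 0 := by rw [Real.sin_two_mul, h1]; ring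
  have hS2 : Real.sin (2 * (φa + φc)) = 0 := by rw [Real.sin_two_mul, h2]; ring
  refine ⟨?_, ?_, ?_⟩
  · have : 2 * φa = 2 * (φa + φb) - 2 * φb := by ring
    rw [this, Real.cos_sub, hA1, hS1]
    ring
  · have : 2 * φa = 2 * (φa + φc) - 2 * φc := by ring
    rw [this, Real.cos_sub, hA2, hS2]
    ring
  · -- `2 φd = -2 (φa + φb) - 2 φc`
    have e : 2 * φd = -(2 * (φa + φb)) - 2 * φc := by linarith
    have : 2 * φa = 2 * (φa + φc) - 2 * φc := by ring
    rw [e, this, Real.cos_sub, Real.cos_sub, Real.cos_neg, Real.sin_neg, hA1, hA2, hS1, hS2]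
    ring

/-- A point on a circle has an angle. -/
lemma exists_angle {a b R : ℝ} (hR : 0 < R) (h : a ^ 2 + b ^ 2 = R ^ 2) :
    ∃ θ : ℝ, a = R * Real.cos θ ∧ b = R * Real.sin θ := by
  have hnorm : ‖(⟨a, b⟩ : ℂ)‖ = R := by
    rw [Complex.norm_def, Complex.normSq_apply]
    simp only
    rw [show a * a + b * b = R ^ 2 by rw [← h]; ring]
    exact Real.sqrt_sq hR.le
  have hz : (⟨a, b⟩ : ℂ) ≠ 0 := by
    intro h0
    rw [h0, norm_zero] at hnorm
    linarith
  refine ⟨Complex.arg ⟨a, b⟩, ?_, ?_⟩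
  · rw [Complex.cos_arg hz, hnorm]
    simp only
    field_simp
  · rw [Complex.sin_arg, hnorm]
    simp only
    field_simp

/-- Two non-degenerate pairings give the families. -/
lemma pairs_data (φ : Fin 4 → ℝ) (R : ℝ) (a b c d : Fin 4)
    (hall : ∀ i, i = a ∨ i = b ∨ i = c ∨ i = d)
    (hsum : φ a + φ b + φ c + φ d = 0)
    (h1 : Real.sin (φ a + φ b) ≠ 0) (h2 : Real.sin (φ a + φ c) ≠ 0)
    (had : Real.cos (φ a) ≠ Real.cos (φ d) ∨ Real.sin (φ a) ≠ Real.sin (φ d))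
    (hbc : Real.cos (φ b) ≠ Real.cos (φ c) ∨ Real.sin (φ b) ≠ Real.sin (φ c))
    (L : ℕ) (hL : 1 ≤ L) :
    ∃ (Pm Nm : Multiset (Fin 4 → ℝ)) (lam : ℝ), 0 < lam ∧
      (∀ i, Pm.map (fun f => f i) = Nm.map (fun f => f i)) ∧
      (∀ i j, (Nm.map fun f => (f i - f j) ^ 2).sum =
        lam / L * ((R * Real.cos (φ i) - R * Real.cos (φ j)) ^ 2 +
          (R * Real.sin (φ i) - R * Real.sin (φ j)) ^ 2)) ∧
      (∀ i j, (Pm.map fun f => (f i - f j) ^ 2).sum =
        (lam / L + lam) * ((R * Real.cos (φ i) - R * Real.cos (φ j)) ^ 2 +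
          (R * Real.sin (φ i) - R * Real.sin (φ j)) ^ 2)) := by
  obtain ⟨hs₁, P₁, Q₁, hP₁⟩ := line_pair R (φ a) (φ b) (φ c) (φ d) hsum h1
  obtain ⟨hs₂, P₂, Q₂, hP₂⟩ := line_pair R (φ a) (φ c) (φ b) (φ d) (by linarith) h2
  have hne := slopes_ne (φ a) (φ b) (φ c) (φ d) hsum h1 h2 had hbc
  have hk₁ : ∀ i, R * Real.sin (φ i) - Q₁ =
      |Real.cos ((φ a + φ b) / 2) / Real.sin ((φ a + φ b) / 2)| * (R * Real.cos (φ i) - P₁) ∨
      R * Real.sin (φ i) - Q₁ =
      -(|Real.cos ((φ a + φ b) / 2) / Real.sin ((φ a + φ b) / 2)| * (R * Real.cos (φ i) - P₁)) := by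
    intro i
    apply hP₁
    rcases hall i with h | h | h | h <;> rw [h] <;> simp
  have hk₂ : ∀ i, R * Real.sin (φ i) - Q₂ =
      |Real.cos ((φ a + φ c) / 2) / Real.sin ((φ a + φ c) / 2)| * (R * Real.cos (φ i) - P₂) ∨
      R * Real.sin (φ i) - Q₂ =
      -(|Real.cos ((φ a + φ c) / 2) / Real.sin ((φ a + φ c) / 2)| * (R * Real.cos (φ i) - P₂)) := by
    intro i
    apply hP₂
    rcases hall i with h | h | h | h <;> rw [h] <;> simp
  rcases lt_or_gt_of_ne hne with hlt | hlt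
  · exact exists_PN_gen (X := fun i => R * Real.cos (φ i)) (Y := fun i => R * Real.sin (φ i))
      hs₂ hs₁ hlt hk₂ hk₁ L hL
  · exact exists_PN_gen (X := fun i => R * Real.cos (φ i)) (Y := fun i => R * Real.sin (φ i))
      hs₁ hs₂ hlt hk₁ hk₂ L hL

/-- Rectangles. -/
lemma rect_data (φ : Fin 4 → ℝ) (R : ℝ) (h : ∀ i, Real.cos (2 * φ i) = Real.cos (2 * φ 0))
    (L : ℕ) (hL : 1 ≤ L) :
    ∃ (Pm Nm : Multiset (Fin 4 → ℝ)) (lam : ℝ), 0 < lam ∧
      (∀ i, Pm.map (fun f => f i) = Nm.map (fun f => f i)) ∧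
      (∀ i j, (Nm.map fun f => (f i - f j) ^ 2).sum =
        lam / L * ((R * Real.cos (φ i) - R * Real.cos (φ j)) ^ 2 +
          (R * Real.sin (φ i) - R * Real.sin (φ j)) ^ 2)) ∧
      (∀ i j, (Pm.map fun f => (f i - f j) ^ 2).sum =
        (lam / L + lam) * ((R * Real.cos (φ i) - R * Real.cos (φ j)) ^ 2 +
          (R * Real.sin (φ i) - R * Real.sin (φ j)) ^ 2)) := by
  have hcos : ∀ i, (R * Real.cos (φ i)) ^ 2 = (R * Real.cos (φ 0)) ^ 2 := by
    intro i
    have := h i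
    rw [Real.cos_two_mul, Real.cos_two_mul] at this
    have e : Real.cos (φ i) ^ 2 = Real.cos (φ 0) ^ 2 := by linarith
    rw [mul_pow, mul_pow, e]
  have hsin : ∀ i, (R * Real.sin (φ i)) ^ 2 = (R * Real.sin (φ 0)) ^ 2 := by
    intro i
    have := h i
    rw [Real.cos_two_mul, Real.cos_two_mul] at this
    have e : Real.cos (φ i) ^ 2 = Real.cos (φ 0) ^ 2 := by linarith
    have e1 := Real.sin_sq_add_cos_sq (φ i)
    have e2 := Real.sin_sq_add_cos_sq (φ 0)
    have e3 : Real.sin (φ i) ^ 2 = Real.sin (φ 0) ^ 2 := by linarith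
    rw [mul_pow, mul_pow, e3]
  exact exists_PN_rect (X := fun i => R * Real.cos (φ i)) (Y := fun i => R * Real.sin (φ i))
    (p := R * Real.cos (φ 0)) (q := R * Real.sin (φ 0))
    (fun i => sq_eq_sq_iff_eq_or_eq_neg.1 (hcos i)) (fun i => sq_eq_sq_iff_eq_or_eq_neg.1 (hsin i))
    L hL

/-- **Column families for every cyclic quadrilateral.** -/
theorem cyclic_PN (x y : Fin 4 → ℝ) (R : ℝ) (hR : 0 < R) (hc : ∀ i, x i ^ 2 + y i ^ 2 = R ^ 2)
    (hne : ∀ i j, i ≠ j → x i ≠ x j ∨ y i ≠ y j) (L : ℕ) (hL : 1 ≤ L) :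
    ∃ (Pm Nm : Multiset (Fin 4 → ℝ)) (lam : ℝ), 0 < lam ∧
      (∀ i, Pm.map (fun f => f i) = Nm.map (fun f => f i)) ∧
      (∀ i j, (Nm.map fun f => (f i - f j) ^ 2).sum =
        lam / L * ((x i - x j) ^ 2 + (y i - y j) ^ 2)) ∧
      (∀ i j, (Pm.map fun f => (f i - f j) ^ 2).sum =
        (lam / L + lam) * ((x i - x j) ^ 2 + (y i - y j) ^ 2)) := by
  choose θ hθx hθy using fun i => exists_angle hR (hc i)
  obtain ⟨Θ, hΘ⟩ : ∃ Θ : ℝ, Θ = (θ 0 + θ 1 + θ 2 + θ 3) / 4 := ⟨_, rfl⟩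
  obtain ⟨φ, hφ⟩ : ∃ φ : Fin 4 → ℝ, ∀ i, φ i = θ i - Θ := ⟨fun i => θ i - Θ, fun _ => rfl⟩
  have hsum : φ 0 + φ 1 + φ 2 + φ 3 = 0 := by
    rw [hφ, hφ, hφ, hφ, hΘ]; ring
  have hX : ∀ i, R * Real.cos (φ i) = x i * Real.cos Θ + y i * Real.sin Θ := by
    intro i
    rw [hφ, Real.cos_sub, hθx, hθy]
    ring
  have hY : ∀ i, R * Real.sin (φ i) = y i * Real.cos Θ - x i * Real.sin Θ := by
    intro i
    rw [hφ, Real.sin_sub, hθx, hθy]
    ring
  have hdist : ∀ i j, (R * Real.cos (φ i) - R * Real.cos (φ j)) ^ 2 +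
      (R * Real.sin (φ i) - R * Real.sin (φ j)) ^ 2 = (x i - x j) ^ 2 + (y i - y j) ^ 2 := by
    intro i j
    rw [hX, hX, hY, hY]
    have := Real.sin_sq_add_cos_sq Θ
    linear_combination ((x i - x j) ^ 2 + (y i - y j) ^ 2) * this
  have hdistinct : ∀ i j, i ≠ j → Real.cos (φ i) ≠ Real.cos (φ j) ∨ Real.sin (φ i) ≠ Real.sin (φ j) := by
    intro i j hij
    by_contra hcon
    simp only [not_or, ne_eq, not_not] at hcon
    have h0 := hdist i j
    rw [hcon.1, hcon.2] at h0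
    have h1 : (x i - x j) ^ 2 + (y i - y j) ^ 2 = 0 := by rw [← h0]; ring
    have h2 : x i - x j = 0 := by nlinarith [sq_nonneg (x i - x j), sq_nonneg (y i - y j)]
    have h3 : y i - y j = 0 := by nlinarith [sq_nonneg (x i - x j), sq_nonneg (y i - y j)]
    rcases hne i j hij with h | h
    · exact h (by linarith)
    · exact h (by linarith)
  have hall1 : ∀ i : Fin 4, i = 0 ∨ i = 1 ∨ i = 2 ∨ i = 3 := by
    intro i; fin_cases i <;> simp
  have hall2 : ∀ i : Fin 4, i = 0 ∨ i = 1 ∨ i = 3 ∨ i = 2 := by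
    intro i; fin_cases i <;> simp
  have hall3 : ∀ i : Fin 4, i = 0 ∨ i = 2 ∨ i = 3 ∨ i = 1 := by
    intro i; fin_cases i <;> simp
  have key : ∃ (Pm Nm : Multiset (Fin 4 → ℝ)) (lam : ℝ), 0 < lam ∧
      (∀ i, Pm.map (fun f => f i) = Nm.map (fun f => f i)) ∧
      (∀ i j, (Nm.map fun f => (f i - f j) ^ 2).sum =
        lam / L * ((R * Real.cos (φ i) - R * Real.cos (φ j)) ^ 2 +
          (R * Real.sin (φ i) - R * Real.sin (φ j)) ^ 2)) ∧
      (∀ i j, (Pm.map fun f => (f i - f j) ^ 2).sum =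
        (lam / L + lam) * ((R * Real.cos (φ i) - R * Real.cos (φ j)) ^ 2 +
          (R * Real.sin (φ i) - R * Real.sin (φ j)) ^ 2)) := by
    by_cases S₁ : Real.sin (φ 0 + φ 1) = 0
    · by_cases S₂ : Real.sin (φ 0 + φ 2) = 0
      · obtain ⟨h1, h2, h3⟩ := rect_angles (φ 0) (φ 1) (φ 2) (φ 3) hsum S₁ S₂
        refine rect_data φ R ?_ L hL
        intro i
        fin_cases i
        · rfl
        · exact h1
        · exact h2
        · exact h3
      · by_cases S₃ : Real.sin (φ 0 + φ 3) = 0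
        · obtain ⟨h1, h2, h3⟩ := rect_angles (φ 0) (φ 1) (φ 3) (φ 2) (by linarith) S₁ S₃
          refine rect_data φ R ?_ L hL
          intro i
          fin_cases i
          · rfl
          · exact h1
          · exact h3
          · exact h2
        · exact pairs_data φ R 0 2 3 1 hall3 (by linarith) S₂ S₃
            (hdistinct _ _ (by decide)) (hdistinct _ _ (by decide)) L hL
    · by_cases S₂ : Real.sin (φ 0 + φ 2) = 0
      · by_cases S₃ : Real.sin (φ 0 + φ 3) = 0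
        · obtain ⟨h1, h2, h3⟩ := rect_angles (φ 0) (φ 2) (φ 3) (φ 1) (by linarith) S₂ S₃
          refine rect_data φ R ?_ L hL
          intro i
          fin_cases i
          · rfl
          · exact h3
          · exact h1
          · exact h2
        · exact pairs_data φ R 0 1 3 2 hall2 (by linarith) S₁ S₃
            (hdistinct _ _ (by decide)) (hdistinct _ _ (by decide)) L hL
      · exact pairs_data φ R 0 1 2 3 hall1 hsum S₁ S₂
          (hdistinct _ _ (by decide)) (hdistinct _ _ (by decide)) L hL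
  obtain ⟨Pm, Nm, lam, h0, h1, h2, h3⟩ := key
  refine ⟨Pm, Nm, lam, h0, h1, ?_, ?_⟩
  · intro i j; rw [h2, hdist]
  · intro i j; rw [h3, hdist]

end Vale.Agent.Lib.P058K.PNC
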