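import Vale.Agent.Lib.P058K.CyclicPN
import Vale.Agent.Lib.P058K.TheoremRA

/-!
# Every cyclic quadrilateral is Ramsey
-/

namespace Vale.Agent.Lib.P058K.PNC

open Vale.Agent.Lib.P058

lemma dist_sq_two (u v : EuclideanSpace ℝ (Fin 2)) :
    dist u v ^ 2 = (u 0 - v 0) ^ 2 + (u 1 - v 1) ^ 2 := by
  rw [EuclideanSpace.dist_eq, Real.sq_sqrt (by positivity), Fin.sum_univ_two, Real.dist_eq,
    Real.dist_eq, sq_abs, sq_abs]

/-- **Every cyclic quadrilateral is Ramsey**: four distinct points of a circle in the plane. -/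
theorem cyclic_quadrilateral_isRamsey (x : Fin 4 → EuclideanSpace ℝ (Fin 2))
    (hinj : Function.Injective x) (c : EuclideanSpace ℝ (Fin 2)) (R : ℝ)
    (hc : ∀ i, dist (x i) c = R) : IsRamsey (Set.range x) := by
  have hne01 : x 0 ≠ x 1 := fun h => absurd (hinj h) (by decide)
  have hR : 0 < R := by
    have h0 : 0 ≤ R := by rw [← hc 0]; exact dist_nonneg
    rcases h0.lt_or_eq with h | h
    · exact h
    · exfalso
      apply hne01
      have h1 : x 0 = c := dist_eq_zero.1 (by rw [hc 0, h])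
      have h2 : x 1 = c := dist_eq_zero.1 (by rw [hc 1, h])
      rw [h1, h2]
  refine Vale.Agent.Lib.P058K.RA.isRamsey_of_arrays x 0 1 hne01 ?_
  intro L hL
  have hcirc : ∀ i, (x i 0 - c 0) ^ 2 + (x i 1 - c 1) ^ 2 = R ^ 2 := by
    intro i
    rw [← dist_sq_two, hc i]
  have hdiff : ∀ i j, i ≠ j → (x i 0 - c 0) ≠ (x j 0 - c 0) ∨ (x i 1 - c 1) ≠ (x j 1 - c 1) := by
    intro i j hij
    by_contra hcon
    simp only [not_or, ne_eq, not_not] at hcon
    apply hij
    apply hinj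
    have h0 : x i 0 = x j 0 := by linarith [hcon.1]
    have h1 : x i 1 = x j 1 := by linarith [hcon.2]
    ext k
    fin_cases k
    · exact h0
    · exact h1
  obtain ⟨Pm, Nm, lam, h0, h1, h2, h3⟩ :=
    cyclic_PN (fun i => x i 0 - c 0) (fun i => x i 1 - c 1) R hR hcirc hdiff L hL
  have hdist : ∀ i j, dist (x i) (x j) ^ 2 =
      (x i 0 - c 0 - (x j 0 - c 0)) ^ 2 + (x i 1 - c 1 - (x j 1 - c 1)) ^ 2 := by
    intro i j
    rw [dist_sq_two]
    ring
  refine ⟨Pm, Nm, lam, h0, h1, ?_, ?_⟩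
  · intro i j; rw [h2, hdist]
  · intro i j; rw [h3, hdist]

end Vale.Agent.Lib.P058K.PNC
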