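import Mathlib

/-!
# Five points of a sphere are separated by quadratics

For at most five distinct points of a Euclidean sphere and a distinguished point `a` among them,
some product of two affine functions vanishes at the other points and not at `a`.
-/

namespace Vale.Agent.Lib.P058K

open scoped RealInnerProductSpace

variable {d : ℕ}

/-- An affine function vanishing at two points of a sphere and not at a third one. -/
theorem exists_affine_secant (a b b' c : EuclideanSpace ℝ (Fin d)) (r : ℝ)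
    (ha : dist a c = r) (hb : dist b c = r) (hb' : dist b' c = r) (hab : a ≠ b) (hab' : a ≠ b') :
    ∃ (u : EuclideanSpace ℝ (Fin d)) (s : ℝ), ⟪u, a⟫ + s ≠ 0 ∧ ⟪u, b⟫ + s = 0 ∧ ⟪u, b'⟫ + s = 0 := by
  by_cases hbb : b = b'
  · subst hbb
    refine ⟨a - b, -⟪a - b, b⟫, ?_, by ring, by ring⟩
    have : ⟪a - b, a⟫ + -⟪a - b, b⟫ = ⟪a - b, a - b⟫ := by
      rw [inner_sub_right]; ring
    rw [this]
    exact inner_self_ne_zero.2 (sub_ne_zero.2 hab)
  have hne : b' - b ≠ 0 := sub_ne_zero.2 (Ne.symm hbb)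
  have hpos : 0 < ⟪b' - b, b' - b⟫ := real_inner_self_pos.2 hne
  set τ : ℝ := ⟪a - b, b' - b⟫ / ⟪b' - b, b' - b⟫ with hτ
  set n : EuclideanSpace ℝ (Fin d) := (a - b) - τ • (b' - b) with hn
  have hperp : ⟪n, b' - b⟫ = 0 := by
    rw [hn, inner_sub_left, inner_smul_left, hτ]
    simp only [conj_trivial]
    field_simp
    ring
  have hna : ⟪n, a - b⟫ = ⟪n, n⟫ := by
    have : a - b = n + τ • (b' - b) := by rw [hn]; abel
    conv_lhs => rw [this]
    rw [inner_add_right, inner_smul_right, hperp]; ring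
  -- `n ≠ 0` since no three points of a sphere are collinear
  have hn0 : n ≠ 0 := by
    intro h0
    have hab2 : a - c = (b - c) + τ • (b' - b) := by
      have : a - b = τ • (b' - b) := by
        have := sub_eq_zero.1 (hn ▸ h0)
        exact this
      calc a - c = (a - b) + (b - c) := by abel
        _ = _ := by rw [this]; abel
    have h1 : ⟪a - c, a - c⟫ = r ^ 2 := by
      rw [real_inner_self_eq_norm_sq, ← dist_eq_norm, ha]
    have h2 : ⟪b - c, b - c⟫ = r ^ 2 := by
      rw [real_inner_self_eq_norm_sq, ← dist_eq_norm, hb]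
    have h3 : ⟪b' - c, b' - c⟫ = r ^ 2 := by
      rw [real_inner_self_eq_norm_sq, ← dist_eq_norm, hb']
    have h4 : b' - c = (b - c) + (b' - b) := by abel
    have h5 : 2 * ⟪b - c, b' - b⟫ + ⟪b' - b, b' - b⟫ = 0 := by
      rw [h4, inner_add_left, inner_add_right, inner_add_right, h2,
        real_inner_comm (b - c) (b' - b)] at h3
      linarith
    have h6 : (τ ^ 2 - τ) * ⟪b' - b, b' - b⟫ = 0 := by
      rw [hab2, inner_add_left, inner_add_right, inner_add_right, inner_smul_left, inner_smul_right,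
        inner_smul_left, inner_smul_right, h2] at h1
      simp only [conj_trivial] at h1
      rw [real_inner_comm (b - c) (b' - b)] at h1
      linear_combination h1 - τ * h5
    have h7 : τ = 0 ∨ τ = 1 := by
      have h8 : τ * (τ - 1) = 0 := by
        have := (mul_eq_zero.1 h6).resolve_right hpos.ne'
        nlinarith
      rcases mul_eq_zero.1 h8 with h | h
      · exact Or.inl h
      · exact Or.inr (by linarith)
    have hab3 : a = b + τ • (b' - b) := by
      have : a - b = τ • (b' - b) := sub_eq_zero.1 (hn ▸ h0)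
      rw [← this]; abel
    rcases h7 with h | h
    · apply hab; rw [hab3, h]; simp
    · apply hab'; rw [hab3, h]; simp
  refine ⟨n, -⟪n, b⟫, ?_, by ring, ?_⟩
  · have : ⟪n, a⟫ + -⟪n, b⟫ = ⟪n, a - b⟫ := by rw [inner_sub_right]; ring
    rw [this, hna]
    exact inner_self_ne_zero.2 hn0
  · have : ⟪n, b'⟫ + -⟪n, b⟫ = ⟪n, b' - b⟫ := by rw [inner_sub_right]; ring
    rw [this, hperp]

/-- Points of a sphere, at most four of them besides `a`: a product of two affine functions
vanishes on the others and not at `a`. -/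
theorem exists_quadratic_separating_list (a c : EuclideanSpace ℝ (Fin d)) (r : ℝ) (ha : dist a c = r)
    (b₁ b₂ b₃ b₄ : EuclideanSpace ℝ (Fin d))
    (h₁ : dist b₁ c = r) (h₂ : dist b₂ c = r) (h₃ : dist b₃ c = r) (h₄ : dist b₄ c = r)
    (n₁ : a ≠ b₁) (n₂ : a ≠ b₂) (n₃ : a ≠ b₃) (n₄ : a ≠ b₄) :
    ∃ (u v : EuclideanSpace ℝ (Fin d)) (s t : ℝ), (⟪u, a⟫ + s) * (⟪v, a⟫ + t) ≠ 0 ∧
      ((⟪u, b₁⟫ + s) * (⟪v, b₁⟫ + t) = 0) ∧ ((⟪u, b₂⟫ + s) * (⟪v, b₂⟫ + t) = 0) ∧
      ((⟪u, b₃⟫ + s) * (⟪v, b₃⟫ + t) = 0) ∧ ((⟪u, b₄⟫ + s) * (⟪v, b₄⟫ + t) = 0) := by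
  obtain ⟨u, s, hu, hu1, hu2⟩ := exists_affine_secant a b₁ b₂ c r ha h₁ h₂ n₁ n₂
  obtain ⟨v, t, hv, hv1, hv2⟩ := exists_affine_secant a b₃ b₄ c r ha h₃ h₄ n₃ n₄
  refine ⟨u, v, s, t, mul_ne_zero hu hv, ?_, ?_, ?_, ?_⟩
  · rw [hu1, zero_mul]
  · rw [hu2, zero_mul]
  · rw [hv1, mul_zero]
  · rw [hv2, mul_zero]

/-- Separation by a product of two affine functions, for at most four other points indexed by a
finite set. -/
theorem exists_quadratic_separating {k : ℕ} (hk : k ≤ 5) (x : Fin k → EuclideanSpace ℝ (Fin d))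
    (hinj : Function.Injective x) (c : EuclideanSpace ℝ (Fin d)) (r : ℝ) (hs : ∀ a, dist (x a) c = r)
    (a : Fin k) :
    ∃ (u v : EuclideanSpace ℝ (Fin d)) (s t : ℝ), (⟪u, x a⟫ + s) * (⟪v, x a⟫ + t) ≠ 0 ∧
      ∀ b, b ≠ a → (⟪u, x b⟫ + s) * (⟪v, x b⟫ + t) = 0 := by
  classical
  let S : Type := {b : Fin k // b ≠ a}
  by_cases hne : Nonempty S
  · have hcard : Fintype.card S ≤ Fintype.card (Fin 4) := by
      have h1 : Fintype.card S = k - 1 := by
        simp only [S]
        rw [Fintype.card_subtype_compl]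
        simp
      rw [h1]; simp; omega
    obtain ⟨ι⟩ := Function.Embedding.nonempty_of_card_le hcard
    have he : Function.Surjective (Function.invFun ι) := Function.invFun_surjective ι.injective
    let e : Fin 4 → S := Function.invFun ι
    have hnee : ∀ i, x a ≠ x (e i).1 := fun i h => (e i).2 (hinj h).symm
    obtain ⟨u, v, s, t, h0, h1, h2, h3, h4⟩ := exists_quadratic_separating_list (x a) c r (hs a)
      (x (e 0).1) (x (e 1).1) (x (e 2).1) (x (e 3).1) (hs _) (hs _) (hs _) (hs _)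
      (hnee 0) (hnee 1) (hnee 2) (hnee 3)
    refine ⟨u, v, s, t, h0, fun b hb => ?_⟩
    obtain ⟨i, hi⟩ := he ⟨b, hb⟩
    have hb' : x b = x (e i).1 := by
      have : e i = ⟨b, hb⟩ := hi
      rw [this]
    rw [hb']
    fin_cases i
    · exact h1
    · exact h2
    · exact h3
    · exact h4
  · refine ⟨0, 0, 1, 1, by simp, fun b hb => ?_⟩
    exact absurd ⟨⟨b, hb⟩⟩ hne

/-- Every function on at most five points of a sphere is the restriction of a polynomial of degree
at most two. -/
theorem quad_interp_five {k : ℕ} (hk : k ≤ 5) (x : Fin k → EuclideanSpace ℝ (Fin d))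
    (hinj : Function.Injective x) (c : EuclideanSpace ℝ (Fin d)) (r : ℝ) (hs : ∀ a, dist (x a) c = r)
    (g : Fin k → ℝ) :
    ∃ (c₀ : ℝ) (l : Fin d → ℝ) (Q : Fin d → Fin d → ℝ), ∀ a,
      g a = c₀ + (∑ i, l i * x a i) + ∑ i, ∑ j, Q i j * (x a i * x a j) := by
  classical
  choose u v s t h0 h1 using exists_quadratic_separating hk x hinj c r hs
  have hinner : ∀ (w y : EuclideanSpace ℝ (Fin d)), ⟪w, y⟫ = ∑ i, w i * y i := by
    intro w y
    simp [PiLp.inner_apply, mul_comm]
  let q : Fin k → Fin k → ℝ := fun b a => (⟪u b, x a⟫ + s b) * (⟪v b, x a⟫ + t b)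
  have hq : ∀ b a, q b a = s b * t b + (∑ i, (t b * u b i + s b * v b i) * x a i) +
      ∑ i, ∑ j, (u b i * v b j) * (x a i * x a j) := by
    intro b a
    simp only [q, hinner]
    have e1 : ∑ i, ∑ j, (u b i * v b j) * (x a i * x a j) =
        (∑ i, u b i * x a i) * (∑ j, v b j * x a j) := by
      rw [Finset.sum_mul_sum]
      refine Finset.sum_congr rfl fun i _ => Finset.sum_congr rfl fun j _ => by ring
    have e2 : ∑ i, (t b * u b i + s b * v b i) * x a i =
        t b * (∑ i, u b i * x a i) + s b * (∑ j, v b j * x a j) := by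
      rw [Finset.mul_sum, Finset.mul_sum, ← Finset.sum_add_distrib]
      refine Finset.sum_congr rfl fun i _ => by ring
    rw [e1, e2]; ring
  let lam : Fin k → ℝ := fun b => g b / q b b
  refine ⟨∑ b, lam b * (s b * t b), fun i => ∑ b, lam b * (t b * u b i + s b * v b i),
    fun i j => ∑ b, lam b * (u b i * v b j), fun a => ?_⟩
  have hsum : g a = ∑ b, lam b * q b a := by
    rw [Finset.sum_eq_single a]
    · change g a = g a / q a a * q a a
      rw [div_mul_cancel₀ _ (h0 a)]
    · intro b _ hb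
      have : q b a = 0 := h1 b a (Ne.symm hb)
      rw [this, mul_zero]
    · intro h; exact absurd (Finset.mem_univ a) h
  have e2 : ∑ i, (∑ b, lam b * (t b * u b i + s b * v b i)) * x a i =
      ∑ b, lam b * ∑ i, (t b * u b i + s b * v b i) * x a i := by
    simp_rw [Finset.sum_mul, Finset.mul_sum, mul_assoc]
    rw [Finset.sum_comm]
  have e3 : ∑ i, ∑ j, (∑ b, lam b * (u b i * v b j)) * (x a i * x a j) =
      ∑ b, lam b * ∑ i, ∑ j, (u b i * v b j) * (x a i * x a j) := by
    simp_rw [Finset.sum_mul, Finset.mul_sum, mul_assoc]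
    symm
    refine Finset.sum_comm.trans (Finset.sum_congr rfl fun i _ => ?_)
    exact Finset.sum_comm
  rw [hsum, e2, e3, ← Finset.sum_add_distrib, ← Finset.sum_add_distrib]
  refine Finset.sum_congr rfl fun b _ => ?_
  rw [hq]; ring

end Vale.Agent.Lib.P058K
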