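import Mathlib
import Vale.Agent.Lib.P058K.Hadamard
import Vale.Agent.Lib.P058K.ArrayCrit

/-!
# Spherical sets on which quadratics interpolate are Ramsey

Let `x : Fin k → E d` lie on a sphere, and suppose every real function on the `k` points is the
restriction of a polynomial of degree at most two. Then the family `x` is Ramsey.

The algebra is the rectangular form of the Cramer argument over the monoid ring of `(ℝ, *)`: if the
rows of a `k × I` matrix `W` have equal norm and the entrywise square of `W` has a right inverse, then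
there is `m : I → ℤ[ℝ]` with `∑ i, [W a i] * m i` independent of `a` and `eps (m i) = 1` for all `i`.
-/

set_option linter.unusedVariables false
set_option linter.unusedSectionVars false

namespace Vale.Agent.Lib.P058K.QI

open Finset
open Vale.Agent.Lib.P058K.Had

/-- Every real number is `eps` of some element of the ring. -/
theorem exists_eps_eq (x : ℝ) : ∃ t : ZR, eps t = x := by
  rcases le_total 0 x with h | h
  · exact ⟨gen (Real.sqrt x), by rw [eps_gen, Real.sq_sqrt h]⟩
  · refine ⟨-gen (Real.sqrt (-x)), ?_⟩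
    rw [map_neg, eps_gen, Real.sq_sqrt (by linarith)]
    ring

/-- **Rectangular Cramer**: equal row norms and a right inverse of the entrywise square give the
arrays. -/
theorem pn_of_rightInverse {k : ℕ} {I : Type} [Fintype I] [DecidableEq I]
    (W : Fin k → I → ℝ) (τ : ℝ) (hτ : ∀ a, ∑ i, W a i ^ 2 = τ)
    (R : I → Fin k → ℝ)
    (hR : ∀ a b, ∑ i, W a i ^ 2 * R i b = if a = b then 1 else 0) (L : ℕ) (hL : 1 ≤ L) :
    ∃ (P N : Multiset (Fin k → ℝ)) (lam : ℝ), 0 < lam ∧
      (∀ r, P.map (fun f => f r) = N.map (fun f => f r)) ∧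
      (∀ r r', (N.map fun f => (f r - f r') ^ 2).sum = lam / L * ∑ i, (W r i - W r' i) ^ 2) ∧
      (∀ r r', (P.map fun f => (f r - f r') ^ 2).sum =
        (lam / L + lam) * ∑ i, (W r i - W r' i) ^ 2) := by
  classical
  choose lf hlf using exists_eps_eq
  let C : Matrix (Fin k) I ZR := Matrix.of fun a i => gen (W a i)
  let That : Matrix I (Fin k) ZR := Matrix.of fun i b => lf (R i b)
  let H : Matrix (Fin k) (Fin k) ZR := C * That
  have hHmap : eps.mapMatrix H = 1 := by
    ext a b
    simp only [RingHom.mapMatrix_apply, Matrix.map_apply, H, Matrix.mul_apply, C, That, Matrix.of_apply,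
      map_sum, map_mul, eps_gen, hlf, hR a b, Matrix.one_apply]
  let G0 : ZR := H.det
  have hG0 : eps G0 = 1 := by
    simp only [G0]
    rw [RingHom.map_det, hHmap, Matrix.det_one]
  let T : Matrix I (Fin k) ZR := That * H.adjugate
  have hCT : C * T = G0 • (1 : Matrix (Fin k) (Fin k) ZR) := by
    simp only [T]
    rw [← Matrix.mul_assoc]
    exact Matrix.mul_adjugate H
  let u : ZR := lf τ
  let e : Fin k → ZR := fun a => u - ∑ i, gen (W a i)
  have he : ∀ a, eps (e a) = 0 := by
    intro a
    simp only [e, u, map_sub, map_sum, eps_gen, hlf, hτ a, sub_self]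
  let m : I → ZR := fun i => G0 + ∑ b, T i b * e b
  have hm : ∀ a, ∑ i, gen (W a i) * m i = G0 * u := by
    intro a
    have h1 : ∑ i, gen (W a i) * ∑ b, T i b * e b = G0 * e a := by
      have h2 : ∀ b, ∑ i, gen (W a i) * T i b = (C * T) a b := by
        intro b
        simp only [Matrix.mul_apply, C, Matrix.of_apply]
      calc ∑ i, gen (W a i) * ∑ b, T i b * e b
          = ∑ b, (∑ i, gen (W a i) * T i b) * e b := by
            simp only [Finset.mul_sum, Finset.sum_mul]
            rw [Finset.sum_comm]
            refine Finset.sum_congr rfl fun b _ => Finset.sum_congr rfl fun i _ => ?_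
            ring
        _ = ∑ b, (G0 • (1 : Matrix (Fin k) (Fin k) ZR)) a b * e b := by
            refine Finset.sum_congr rfl fun b _ => ?_
            rw [h2 b, hCT]
        _ = G0 * e a := by
            simp only [Matrix.smul_apply, Matrix.one_apply, smul_eq_mul, mul_ite, mul_one, mul_zero,
              ite_mul, zero_mul, Finset.sum_ite_eq, Finset.mem_univ, if_true]
    have h3 : ∑ i, gen (W a i) * m i
        = (∑ i, gen (W a i)) * G0 + ∑ i, gen (W a i) * ∑ b, T i b * e b := by
      simp only [m, mul_add, Finset.sum_add_distrib, Finset.sum_mul]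
    rw [h3, h1]
    simp only [e]
    ring
  have hε : ∀ i, eps (m i) = 1 := by
    intro i
    simp only [m, map_add, map_sum, map_mul, he, mul_zero, Finset.sum_const_zero, add_zero, hG0]
  exact core W m (G0 * u) hm 1 one_pos hε L hL

/-- Sign of a Boolean. -/
def sgn (b : Bool) : ℝ := if b then 1 else -1

/-- Every real function on the `k` points is the restriction of a polynomial of degree at most two. -/
def QuadInterp {k d : ℕ} (x : Fin k → EuclideanSpace ℝ (Fin d)) : Prop :=
  ∀ g : Fin k → ℝ, ∃ (c : ℝ) (l : Fin d → ℝ) (Q : Fin d → Fin d → ℝ), ∀ a,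
    g a = c + ∑ p, l p * x a p + ∑ p, ∑ q, Q p q * (x a p * x a q)

theorem dist_sq_coord {d : ℕ} (y y' : EuclideanSpace ℝ (Fin d)) :
    dist y y' ^ 2 = ∑ p, (y p - y' p) ^ 2 := by
  rw [EuclideanSpace.dist_eq, Real.sq_sqrt (Finset.sum_nonneg fun _ _ => sq_nonneg _)]
  simp [Real.dist_eq, sq_abs]

/-- **Spherical sets on which quadratics interpolate are Ramsey.** -/
theorem isRamseyFamily_of_quadInterp {k d : ℕ} (x : Fin k → EuclideanSpace ℝ (Fin d))
    (z : EuclideanSpace ℝ (Fin d)) (ρ : ℝ) (hsph : ∀ a, dist (x a) z = ρ) (hint : QuadInterp x) :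
    Vale.Agent.Lib.P058.IsRamseyFamily x := by
  classical
  rcases isEmpty_or_nonempty (Fin k) with hk | hk
  · intro r hr
    exact ⟨1, le_rfl, fun c => ⟨fun i => isEmptyElim i, fun i => isEmptyElim i, ⟨0, by omega⟩,
      fun i => isEmptyElim i⟩⟩
  refine Vale.Agent.Lib.P058K.Crit.theoremR (dsq := fun i j => dist (x i) (x j) ^ 2) ?_ x
    (fun _ _ => rfl)
  intro L hL
  rcases Nat.eq_zero_or_pos d with hd | hd
  · -- dimension zero: all points coincide
    subst hd
    have h0 : ∀ i j, dist (x i) (x j) ^ 2 = 0 := fun i j => by rw [dist_sq_coord]; simp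
    refine ⟨0, 0, 1, one_pos, fun i => rfl, fun i j => ?_, fun i j => ?_⟩
    · simp [h0]
    · simp [h0]
  have hdR : (0 : ℝ) < d := by exact_mod_cast hd
  -- centred coordinates
  let u : Fin k → Fin d → ℝ := fun a p => x a p - z p
  have hu2 : ∀ a, ∑ p, u a p ^ 2 = ρ ^ 2 := by
    intro a
    rw [← hsph a, dist_sq_coord]
  -- the columns
  let I := Fin d × Fin d × Bool × Bool
  let W : Fin k → I → ℝ := fun a i => u a i.1 + sgn i.2.2.1 * u a i.2.1 + sgn i.2.2.2
  have hexp : ∀ (f : I → ℝ), ∑ i, f i = ∑ p, ∑ q,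
      (f (p, q, true, true) + f (p, q, true, false) + f (p, q, false, true) + f (p, q, false, false)) := by
    intro f
    simp only [I, Fintype.sum_prod_type, Fintype.sum_bool]
    refine Finset.sum_congr rfl fun p _ => Finset.sum_congr rfl fun q _ => ?_
    ring
  -- the row norms
  let τ : ℝ := 8 * d * ρ ^ 2 + 4 * d * d
  have hτpos : 0 < τ := by positivity
  have hW : ∀ a, ∑ i, W a i ^ 2 = τ := by
    intro a
    have h0 := hexp (fun i => W a i ^ 2)
    rw [h0]
    have h1 : ∀ p q, W a (p, q, true, true) ^ 2 + W a (p, q, true, false) ^ 2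
        + W a (p, q, false, true) ^ 2 + W a (p, q, false, false) ^ 2
        = 4 * u a p ^ 2 + 4 * u a q ^ 2 + 4 := by
      intro p q
      simp only [W, sgn]
      simp
      ring
    simp only [h1, Finset.sum_add_distrib, Finset.sum_const, Finset.card_univ, Fintype.card_fin,
      nsmul_eq_mul, ← Finset.mul_sum, hu2]
    simp only [τ]
    ring
  -- the distances
  have hD : ∀ a b, ∑ i, (W a i - W b i) ^ 2 = 8 * d * dist (x a) (x b) ^ 2 := by
    intro a b
    have h0 := hexp (fun i => (W a i - W b i) ^ 2)
    rw [h0, dist_sq_coord]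
    have h1 : ∀ p q, (W a (p, q, true, true) - W b (p, q, true, true)) ^ 2
        + (W a (p, q, true, false) - W b (p, q, true, false)) ^ 2
        + (W a (p, q, false, true) - W b (p, q, false, true)) ^ 2
        + (W a (p, q, false, false) - W b (p, q, false, false)) ^ 2
        = 4 * (x a p - x b p) ^ 2 + 4 * (x a q - x b q) ^ 2 := by
      intro p q
      simp only [W, sgn, u]
      simp
      ring
    simp only [h1, Finset.sum_add_distrib, Finset.sum_const, Finset.card_univ, Fintype.card_fin,
      nsmul_eq_mul, ← Finset.mul_sum]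
    ring
  -- the span of the squares
  let sqc : I → Fin k → ℝ := fun i a => W a i ^ 2
  let S : Submodule ℝ (Fin k → ℝ) := Submodule.span ℝ (Set.range sqc)
  have hgen : ∀ i, sqc i ∈ S := fun i => Submodule.subset_span ⟨i, rfl⟩
  have h1S : (fun _ : Fin k => (1 : ℝ)) ∈ S := by
    have e : (fun _ : Fin k => (1 : ℝ)) = τ⁻¹ • ∑ i, sqc i := by
      funext a
      simp only [Pi.smul_apply, Finset.sum_apply, sqc, hW a, smul_eq_mul]
      field_simp
    rw [e]
    exact S.smul_mem _ (S.sum_mem fun i _ => hgen i)
  have hlin : ∀ p, (fun a => u a p) ∈ S := by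
    intro p
    have e : (fun a => u a p) = (1 / 8 : ℝ) • (sqc (p, p, true, true) - sqc (p, p, true, false)) := by
      funext a
      simp only [Pi.smul_apply, Pi.sub_apply, sqc, W, sgn, smul_eq_mul]
      simp
      ring
    rw [e]
    exact S.smul_mem _ (S.sub_mem (hgen _) (hgen _))
  have hquad : ∀ p q, (fun a => u a p * u a q) ∈ S := by
    intro p q
    have e : (fun a => u a p * u a q) = (1 / 8 : ℝ) • (sqc (p, q, true, true) + sqc (p, q, true, false)
        - sqc (p, q, false, true) - sqc (p, q, false, false)) := by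
      funext a
      simp only [Pi.smul_apply, Pi.sub_apply, Pi.add_apply, sqc, W, sgn, smul_eq_mul]
      simp
      ring
    rw [e]
    exact S.smul_mem _ (S.sub_mem (S.sub_mem (S.add_mem (hgen _) (hgen _)) (hgen _)) (hgen _))
  have hx : ∀ p, (fun a => x a p) ∈ S := by
    intro p
    have e : (fun a => x a p) = (fun a => u a p) + z p • (fun _ : Fin k => (1 : ℝ)) := by
      funext a
      simp only [Pi.add_apply, Pi.smul_apply, smul_eq_mul, u]
      ring
    rw [e]
    exact S.add_mem (hlin p) (S.smul_mem _ h1S)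
  have hxx : ∀ p q, (fun a => x a p * x a q) ∈ S := by
    intro p q
    have e : (fun a => x a p * x a q) = (fun a => u a p * u a q) + z q • (fun a => u a p)
        + z p • (fun a => u a q) + (z p * z q) • (fun _ : Fin k => (1 : ℝ)) := by
      funext a
      simp only [Pi.add_apply, Pi.smul_apply, smul_eq_mul, u]
      ring
    rw [e]
    exact S.add_mem (S.add_mem (S.add_mem (hquad p q) (S.smul_mem _ (hlin p)))
      (S.smul_mem _ (hlin q))) (S.smul_mem _ h1S)
  have hall : ∀ g : Fin k → ℝ, g ∈ S := by
    intro g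
    obtain ⟨c, l, Q, h⟩ := hint g
    have e : g = c • (fun _ : Fin k => (1 : ℝ)) + ∑ p, l p • (fun a => x a p)
        + ∑ p, ∑ q, Q p q • (fun a => x a p * x a q) := by
      funext a
      rw [h a]
      simp [Finset.sum_apply]
    rw [e]
    exact S.add_mem (S.add_mem (S.smul_mem _ h1S) (S.sum_mem fun p _ => S.smul_mem _ (hx p)))
      (S.sum_mem fun p _ => S.sum_mem fun q _ => S.smul_mem _ (hxx p q))
  have hex : ∀ b : Fin k, ∃ c : I → ℝ, ∑ i, c i • sqc i = fun a => if a = b then (1 : ℝ) else 0 :=
    fun b => (Submodule.mem_span_range_iff_exists_fun ℝ).mp (hall _)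
  choose R' hR' using hex
  have hR : ∀ a b, ∑ i, W a i ^ 2 * R' b i = if a = b then 1 else 0 := by
    intro a b
    have h0 := congrFun (hR' b) a
    simp only [Finset.sum_apply, Pi.smul_apply, sqc, smul_eq_mul] at h0
    rw [← h0]
    exact Finset.sum_congr rfl fun i _ => mul_comm _ _
  obtain ⟨P, N, lam, hlam, hlaw, hN, hP⟩ :=
    pn_of_rightInverse W τ hW (fun i b => R' b i) hR L hL
  refine ⟨P, N, lam * (8 * d), by positivity, hlaw, fun i j => ?_, fun i j => ?_⟩
  · rw [hN, hD]
    ring
  · rw [hP, hD]
    ring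

end Vale.Agent.Lib.P058K.QI
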