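import Mathlib
import Vale.Agent.Lib.P058K.QuadInterp
import Vale.Agent.Lib.P058K.FiveSpherical

/-!
# Every spherical set of at most five points is Ramsey
-/

namespace Vale.Agent.Lib.P058K.QI

/-- **Every spherical family of at most five distinct points is Ramsey**, in any dimension. -/
theorem isRamseyFamily_of_le_five {k d : ℕ} (hk : k ≤ 5) (x : Fin k → EuclideanSpace ℝ (Fin d))
    (hinj : Function.Injective x) (z : EuclideanSpace ℝ (Fin d)) (r : ℝ)
    (hs : ∀ a, dist (x a) z = r) : Vale.Agent.Lib.P058.IsRamseyFamily x :=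
  isRamseyFamily_of_quadInterp x z r hs (fun g => Vale.Agent.Lib.P058K.quad_interp_five hk x hinj z r hs g)

end Vale.Agent.Lib.P058K.QI
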