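import Mathlib
import Vale.Agent.Lib.P058K.QuadInterp
import Vale.Agent.Lib.P058K.FiveSpherical

/-!
# Every spherical set of at most five points is Ramsey
-/

namespace Vale.Agent.Lib.P058K

open Vale.Agent.Lib.P058

/-- **Every spherical family of at most five distinct points is Ramsey.** -/
theorem isRamseyFamily_of_card_le_five {k d : ℕ} (hk : k ≤ 5) (x : Fin k → EuclideanSpace ℝ (Fin d))
    (hinj : Function.Injective x) (c : EuclideanSpace ℝ (Fin d)) (r : ℝ)
    (hs : ∀ a, dist (x a) c = r) : IsRamseyFamily x :=
  QI.isRamseyFamily_of_quadInterp x c r hs (fun g => quad_interp_five hk x hinj c r hs g)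

/-- **Every spherical set of at most five points is Ramsey.** -/
theorem isRamsey_of_ncard_le_five {d : ℕ} (A : Set (EuclideanSpace ℝ (Fin d))) (hfin : A.Finite)
    (hcard : A.ncard ≤ 5) (c : EuclideanSpace ℝ (Fin d)) (r : ℝ) (hs : ∀ a ∈ A, dist a c = r) :
    IsRamsey A := by
  classical
  have hfin' := hfin.fintype
  let e := (Fintype.equivFin A).symm
  have hk : Fintype.card A ≤ 5 := by
    have : Fintype.card A = A.ncard := by
      rw [← Nat.card_eq_fintype_card, Nat.card_coe_set_eq]
    rw [this]; exact hcard
  have hR := (isRamseyFamily_of_card_le_five hk (fun i => (e i : EuclideanSpace ℝ (Fin d)))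
    (fun i j h => e.injective (Subtype.ext h)) c r (fun i => hs _ (e i).2)).range
  have hrange : Set.range (fun i => (e i : EuclideanSpace ℝ (Fin d))) = A := by
    ext y
    constructor
    · rintro ⟨i, rfl⟩; exact (e i).2
    · intro hy
      exact ⟨e.symm ⟨y, hy⟩, by simp⟩
  rwa [hrange] at hR

end Vale.Agent.Lib.P058K
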