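import Mathlib
import Vale.Agent.Lib.P058.Subtransitive

/-!
# A four point kite on a circle that is not subtransitive

The points are `(-h, e), (h, e), (0, -1), (0, 1)` with `e = √2 - 1` and `h² = 1 - e² = 2√2 - 2`.
They satisfy `x₀ + x₁ = (2 - √2) x₂ + √2 x₃`, and no finite transitive set contains a congruent copy
of them: apply the additive map `τ(v) = φ(√2 v) - √2 φ(v)`, with `φ : ℝ → ℚ` additive, to a
coordinate of this dependency, which turns it into a dependency whose coefficient of `x₂` has the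
sign opposite to all others, and average over the symmetry group.
-/

set_option linter.unusedVariables false
set_option linter.unusedSectionVars false

namespace Vale.Agent.Lib.P058K

open Vale.Agent.Lib.P058 Finset

/-- `e = √2 - 1`. -/
noncomputable def kE : ℝ := Real.sqrt 2 - 1

/-- `h = √(2√2 - 2)`, so that `h² + e² = 1`. -/
noncomputable def kH : ℝ := Real.sqrt (2 * Real.sqrt 2 - 2)

/-- The first coordinates of the four points of the kite. -/
noncomputable def kX : Fin 4 → ℝ := ![-kH, kH, 0, 0]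

/-- The second coordinates of the four points of the kite. -/
noncomputable def kY : Fin 4 → ℝ := ![kE, kE, -1, 1]

/-- The four points of the kite `(-h, e), (h, e), (0, -1), (0, 1)` in the plane. -/
noncomputable def kitePt (i : Fin 4) : EuclideanSpace ℝ (Fin 2) :=
  WithLp.toLp 2 ![kX i, kY i]

/-- The kite, a four point subset of the unit circle. -/
def kite : Set (EuclideanSpace ℝ (Fin 2)) := Set.range kitePt

theorem sqrt2_sq : Real.sqrt 2 ^ 2 = 2 := Real.sq_sqrt (by norm_num)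

theorem sqrt2_lower : (1 : ℝ) < Real.sqrt 2 := by
  have h : Real.sqrt 1 < Real.sqrt 2 := Real.sqrt_lt_sqrt (by norm_num) (by norm_num)
  simpa using h

theorem kH_sq : kH ^ 2 = 2 * Real.sqrt 2 - 2 := by
  unfold kH
  exact Real.sq_sqrt (by linarith [sqrt2_lower])

theorem kH_pos : 0 < kH := by
  unfold kH
  exact Real.sqrt_pos.mpr (by linarith [sqrt2_lower])

theorem kitePt_dist_sq (i j : Fin 4) :
    dist (kitePt i) (kitePt j) ^ 2 = (kX i - kX j) ^ 2 + (kY i - kY j) ^ 2 := by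
  rw [EuclideanSpace.dist_eq, Real.sq_sqrt (Finset.sum_nonneg fun _ _ => sq_nonneg _)]
  simp [kitePt, Fin.sum_univ_two, Real.dist_eq, sq_abs]

/-- All points of the kite lie on the unit circle. -/
theorem kite_on_circle (i : Fin 4) : kX i ^ 2 + kY i ^ 2 = 1 := by
  have h2 := sqrt2_sq
  have hh := kH_sq
  fin_cases i <;> simp [kX, kY, kE] <;> nlinarith

/-- The squared distances of the kite. -/
theorem kite_dists :
    dist (kitePt 0) (kitePt 1) ^ 2 = 8 * Real.sqrt 2 - 8 ∧
    dist (kitePt 0) (kitePt 2) ^ 2 = 2 * Real.sqrt 2 ∧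
    dist (kitePt 1) (kitePt 2) ^ 2 = 2 * Real.sqrt 2 ∧
    dist (kitePt 0) (kitePt 3) ^ 2 = 4 - 2 * Real.sqrt 2 ∧
    dist (kitePt 1) (kitePt 3) ^ 2 = 4 - 2 * Real.sqrt 2 ∧
    dist (kitePt 2) (kitePt 3) ^ 2 = 4 := by
  have h2 := sqrt2_sq
  have hh := kH_sq
  refine ⟨?_, ?_, ?_, ?_, ?_, ?_⟩ <;> rw [kitePt_dist_sq] <;> simp [kX, kY, kE] <;> nlinarith

theorem kite_dist01_pos : dist (kitePt 0) (kitePt 1) ≠ 0 := by
  intro h
  have := kite_dists.1
  rw [h] at this
  have h3 := sqrt2_lower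
  nlinarith

/-- Every copy of the kite satisfies the linear dependency, coordinate by coordinate. -/
theorem kite_dep {n : ℕ} (z : Fin 4 → EuclideanSpace ℝ (Fin n))
    (hz : ∀ i j, dist (z i) (z j) = dist (kitePt i) (kitePt j)) (m : Fin n) :
    z 0 m + z 1 m = (2 - Real.sqrt 2) * z 2 m + Real.sqrt 2 * z 3 m := by
  obtain ⟨d01, d02, d12, d03, d13, d23⟩ := kite_dists
  have hD : ∀ i j, ∑ m, (z i m - z j m) ^ 2 = dist (kitePt i) (kitePt j) ^ 2 := by
    intro i j
    rw [← hz, EuclideanSpace.dist_eq, Real.sq_sqrt (Finset.sum_nonneg fun _ _ => sq_nonneg _)]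
    simp [Real.dist_eq, sq_abs]
  set s := Real.sqrt 2 with hs
  have hs2 : s ^ 2 = 2 := sqrt2_sq
  have hsum : ∑ m, (z 0 m + z 1 m - (2 - s) * z 2 m - s * z 3 m) ^ 2 = 0 := by
    have hpt : ∀ m, (z 0 m + z 1 m - (2 - s) * z 2 m - s * z 3 m) ^ 2 =
        -((z 0 m - z 1 m) ^ 2 - (2 - s) * ((z 0 m - z 2 m) ^ 2 + (z 1 m - z 2 m) ^ 2)
          - s * ((z 0 m - z 3 m) ^ 2 + (z 1 m - z 3 m) ^ 2)
          + s * (2 - s) * (z 2 m - z 3 m) ^ 2) := by
      intro m
      ring
    simp only [hpt]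
    rw [Finset.sum_neg_distrib, Finset.sum_add_distrib, Finset.sum_sub_distrib,
      Finset.sum_sub_distrib, ← Finset.mul_sum, ← Finset.mul_sum, ← Finset.mul_sum,
      Finset.sum_add_distrib, Finset.sum_add_distrib, hD, hD, hD, hD, hD, hD, d01, d02, d12,
      d03, d13, d23]
    nlinarith
  have hzero := (Finset.sum_eq_zero_iff_of_nonneg fun _ _ => sq_nonneg _).mp hsum m (mem_univ m)
  have := pow_eq_zero_iff (two_ne_zero) |>.mp hzero
  linarith

/-- The averaging argument: equal norms and a dependency force equality. -/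
theorem avg_eq {G : Type*} [Fintype G] {s : ℝ} (hs : 0 < s) (U0 U1 U2 U3 : G → ℝ)
    (hdep : ∀ g, U0 g + U1 g + s * U3 g = (2 + s) * U2 g)
    (h0 : ∑ g, U0 g ^ 2 = ∑ g, U2 g ^ 2) (h1 : ∑ g, U1 g ^ 2 = ∑ g, U2 g ^ 2)
    (h3 : ∑ g, U3 g ^ 2 = ∑ g, U2 g ^ 2) (g : G) : U0 g = U1 g := by
  have hpt : ∀ g, (U0 g - U2 g) ^ 2 + (U1 g - U2 g) ^ 2 + s * (U3 g - U2 g) ^ 2 =
      U0 g ^ 2 + U1 g ^ 2 + s * U3 g ^ 2 - (2 + s) * U2 g ^ 2 := by
    intro g
    have := hdep g
    have e : U0 g = (2 + s) * U2 g - U1 g - s * U3 g := by linarith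
    rw [e]
    ring
  have hsum : ∑ g, ((U0 g - U2 g) ^ 2 + (U1 g - U2 g) ^ 2 + s * (U3 g - U2 g) ^ 2) = 0 := by
    simp only [hpt]
    rw [Finset.sum_sub_distrib, Finset.sum_add_distrib, Finset.sum_add_distrib, ← Finset.mul_sum,
      ← Finset.mul_sum, h0, h1, h3]
    ring
  have hnn : ∀ g ∈ (univ : Finset G),
      0 ≤ (U0 g - U2 g) ^ 2 + (U1 g - U2 g) ^ 2 + s * (U3 g - U2 g) ^ 2 := fun g _ => by positivity
  have hz := (Finset.sum_eq_zero_iff_of_nonneg hnn).mp hsum g (mem_univ g)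
  have h00 : (U0 g - U2 g) ^ 2 = 0 := by
    nlinarith [sq_nonneg (U0 g - U2 g), sq_nonneg (U1 g - U2 g),
      mul_nonneg hs.le (sq_nonneg (U3 g - U2 g))]
  have h11 : (U1 g - U2 g) ^ 2 = 0 := by
    nlinarith [sq_nonneg (U0 g - U2 g), sq_nonneg (U1 g - U2 g),
      mul_nonneg hs.le (sq_nonneg (U3 g - U2 g))]
  have a0 := pow_eq_zero_iff (two_ne_zero) |>.mp h00
  have a1 := pow_eq_zero_iff (two_ne_zero) |>.mp h11
  linarith

/-- The kite is not subtransitive. -/
theorem kite_not_subtransitive : ¬ IsSubtransitive kite := by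
  classical
  rintro ⟨-, n, X, ⟨hXfin, hXtr⟩, f, hf, hfX⟩
  have : Finite X := hXfin
  letI : Fintype X := Fintype.ofFinite X
  -- the four points of the copy
  have hmem : ∀ i, f (kitePt i) ∈ X := fun i => hfX _ ⟨i, rfl⟩
  let y : Fin 4 → X := fun i => ⟨f (kitePt i), hmem i⟩
  let Γ := distPerm X
  letI : Fintype Γ := Fintype.ofFinite Γ
  -- transitivity of `Γ`
  have htr : ∀ x x' : X, ∃ g : Γ, g.1 x = x' := by
    intro x0 x
    obtain ⟨φ, hφ, hφx⟩ := hXtr x0 x0.2 x x.2
    have hmem : ∀ y : X, φ y ∈ X := by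
      intro y
      have hy : φ y ∈ φ '' X := ⟨y, y.2, rfl⟩
      rwa [hφ] at hy
    have hsurj : ∀ y : X, ∃ z : X, φ z = y := by
      intro y
      have hy : (y : EuclideanSpace ℝ (Fin n)) ∈ φ '' X := by
        rw [hφ]
        exact y.2
      obtain ⟨z, hz, hzy⟩ := hy
      exact ⟨⟨z, hz⟩, hzy⟩
    let p : X → X := fun y => ⟨φ y, hmem y⟩
    have hinj : Function.Injective p := by
      intro a b hab
      have : φ a = φ b := congrArg Subtype.val hab
      exact Subtype.ext (φ.injective this)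
    have hbij : Function.Bijective p := by
      refine ⟨hinj, fun y => ?_⟩
      obtain ⟨z, hz⟩ := hsurj y
      exact ⟨z, Subtype.ext hz⟩
    let γ : Equiv.Perm X := Equiv.ofBijective p hbij
    have hγ : γ ∈ distPerm X := by
      intro a b
      show dist (φ a) (φ b) = _
      exact φ.dist_eq _ _
    exact ⟨⟨γ, hγ⟩, Subtype.ext hφx⟩
  -- a coordinate where the images of the first two points differ
  have hne : ∃ m, (f (kitePt 0)) m ≠ (f (kitePt 1)) m := by
    by_contra hcon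
    push Not at hcon
    have heq : f (kitePt 0) = f (kitePt 1) := by
      ext m
      exact hcon m
    have hd := hf _ ⟨0, rfl⟩ _ ⟨1, rfl⟩
    rw [heq, dist_self] at hd
    exact kite_dist01_pos hd.symm
  obtain ⟨m, hm⟩ := hne
  have hd : (f (kitePt 0)) m - (f (kitePt 1)) m ≠ 0 := sub_ne_zero.mpr hm
  -- a rational functional that does not vanish at the difference
  obtain ⟨φ, hφ⟩ : ∃ φ : Module.Dual ℚ ℝ, φ ((f (kitePt 0)) m - (f (kitePt 1)) m) ≠ 0 := by
    by_contra hcon
    push Not at hcon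
    exact hd ((Module.forall_dual_apply_eq_zero_iff ℚ _).mp hcon)
  set s := Real.sqrt 2 with hs
  have hs2 : s * s = 2 := Real.mul_self_sqrt (by norm_num)
  have hspos : 0 < s := by
    have := sqrt2_lower
    linarith
  -- the map `τ`
  let τ : ℝ → ℝ := fun v => (φ (s * v) : ℝ) - s * (φ v : ℝ)
  have τadd : ∀ a b, τ (a + b) = τ a + τ b := by
    intro a b
    simp only [τ, mul_add, map_add]
    push_cast
    ring
  have τsub : ∀ a b, τ (a - b) = τ a - τ b := by
    intro a b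
    simp only [τ, mul_sub, map_sub]
    push_cast
    ring
  have τmul : ∀ a, τ (s * a) = - s * τ a := by
    intro a
    simp only [τ]
    rw [← mul_assoc, hs2]
    have : φ (2 * a) = 2 * φ a := by
      rw [two_mul, map_add, two_mul]
    rw [this]
    push_cast
    linear_combination (-(φ a : ℝ)) * hs2
  -- the orbit values
  let F : EuclideanSpace ℝ (Fin n) → ℝ := fun x => τ (x m)
  let U : Fin 4 → Γ → ℝ := fun i g => F (g.1 (y i) : EuclideanSpace ℝ (Fin n))
  -- all `U i` have the same norm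
  have hnorm : ∀ i j, ∑ g, U i g ^ 2 = ∑ g, U j g ^ 2 := by
    intro i j
    obtain ⟨δ, hδ⟩ := htr (y j) (y i)
    have : ∀ g : Γ, U i g ^ 2 = U j (g * δ) ^ 2 := by
      intro g
      simp only [U]
      have : ((g * δ : Γ) : Equiv.Perm X) (y j) = g.1 (y i) := by
        show g.1 (δ.1 (y j)) = _
        rw [hδ]
      rw [this]
    simp only [this]
    exact Equiv.sum_comp (Equiv.mulRight δ) (fun g => U j g ^ 2)
  -- the dependency for `U`
  have hdep : ∀ g, U 0 g + U 1 g + s * U 3 g = (2 + s) * U 2 g := by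
    intro g
    have hz := kite_dep (fun i => ((g.1 (y i) : X) : EuclideanSpace ℝ (Fin n))) (by
      intro i j
      have h1 := g.2 (y i) (y j)
      have h2 := hf _ ⟨i, rfl⟩ _ ⟨j, rfl⟩
      exact h1.trans h2) m
    simp only at hz
    simp only [U, F]
    set a0 := ((g.1 (y 0) : X) : EuclideanSpace ℝ (Fin n)) m with ha0
    set a1 := ((g.1 (y 1) : X) : EuclideanSpace ℝ (Fin n)) m with ha1
    set a2 := ((g.1 (y 2) : X) : EuclideanSpace ℝ (Fin n)) m with ha2
    set a3 := ((g.1 (y 3) : X) : EuclideanSpace ℝ (Fin n)) m with ha3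
    have e1 : a0 + a1 = a2 + a2 + s * (a3 - a2) := by
      rw [hz]
      ring
    have e2 := congrArg τ e1
    rw [τadd, τadd, τadd, τmul, τsub] at e2
    rw [e2]
    ring
  have hU := avg_eq hspos (U 0) (U 1) (U 2) (U 3) hdep (hnorm 0 2) (hnorm 1 2) (hnorm 3 2) 1
  have hU' : τ ((f (kitePt 0)) m) = τ ((f (kitePt 1)) m) := hU
  have hτ0 : τ ((f (kitePt 0)) m - (f (kitePt 1)) m) = 0 := by
    rw [τsub, hU', sub_self]
  set d := (f (kitePt 0)) m - (f (kitePt 1)) m with hdd
  have hτ1 : ((φ (s * d) : ℚ) : ℝ) = s * (φ d : ℝ) := by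
    have : (φ (s * d) : ℝ) - s * (φ d : ℝ) = 0 := hτ0
    linarith
  have hirr : Irrational s := irrational_sqrt_two
  apply hirr
  refine ⟨φ (s * d) / φ d, ?_⟩
  have hφ' : ((φ d : ℚ) : ℝ) ≠ 0 := by exact_mod_cast hφ
  push_cast
  rw [hτ1]
  field_simp

end Vale.Agent.Lib.P058K
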