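import Vale.Agent.Lib.P058K.TheoremR62
import Vale.Agent.Lib.P058K.CirculantPair
import Vale.Agent.Lib.P058K.KiteNotSub

/-!
# The kite is Ramsey
-/

set_option linter.unusedVariables false
set_option linter.unusedSectionVars false

namespace Vale.Agent.Lib.P058K

open Finset Vale.Agent.Lib.P058

/-- A multiset of `S` elements is enumerated by `Fin S`. -/
lemma exists_enum {α : Type} (m : Multiset α) (S : ℕ) (h : Multiset.card m = S) :
    ∃ f : Fin S → α, (univ : Finset (Fin S)).val.map f = m := by
  subst h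
  have hl : m.toList.length = Multiset.card m := Multiset.length_toList m
  refine ⟨fun s => m.toList.get (Fin.cast hl.symm s), ?_⟩
  rw [Fin.univ_val_map]
  have : List.ofFn (fun s : Fin (Multiset.card m) => m.toList.get (Fin.cast hl.symm s)) =
      m.toList := by
    apply List.ext_get
    · simp [hl]
    · intro n h1 h2
      simp
  rw [this]
  exact Multiset.coe_toList m

/-- Two enumerations of the same multiset of reals differ by a permutation. -/
lemma exists_perm_of_map_eq {S : ℕ} (y z : Fin S → ℝ)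
    (h : (univ : Finset (Fin S)).val.map y = (univ : Finset (Fin S)).val.map z) :
    ∃ π : Equiv.Perm (Fin S), ∀ s, y (π s) = z s := by
  classical
  have hc : ∀ l : ℝ, Fintype.card {q // z q = l} = Fintype.card {q // y q = l} := by
    intro l
    have h1 := congrArg (Multiset.count l) h
    rw [Multiset.count_map, Multiset.count_map] at h1
    rw [Fintype.card_subtype, Fintype.card_subtype]
    have e1 : ∀ g : Fin S → ℝ, (univ.filter fun q => g q = l).card =
        Multiset.card ((univ : Finset (Fin S)).val.filter fun a => l = g a) := by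
      intro g
      rw [Finset.card_def, Finset.filter_val]
      congr 1
      apply Multiset.filter_congr
      intro a _
      exact eq_comm
    rw [e1 z, e1 y, h1]
  let e : ∀ l : ℝ, {q // z q = l} ≃ {q // y q = l} := fun l => Fintype.equivOfCardEq (hc l)
  refine ⟨Equiv.ofFiberEquiv e, fun s => ?_⟩
  exact Equiv.ofFiberEquiv_map e s

/-- The hypothesis of Theorem R from multisets of columns. -/
lemma hPN_of_multiset {d : ℕ} (x : Fin 4 → EuclideanSpace ℝ (Fin d)) (L : ℕ)
    (P N : Multiset (Fin 4 → ℝ)) (lam : ℝ) (hlam : 0 < lam)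
    (hlaw : ∀ i, P.map (fun f => f i) = N.map (fun f => f i))
    (hN : ∀ i j, (N.map (fun f => (f i - f j) ^ 2)).sum = lam / L * dist (x i) (x j) ^ 2)
    (hP : ∀ i j, (P.map (fun f => (f i - f j) ^ 2)).sum = (lam / L + lam) * dist (x i) (x j) ^ 2)
    (hne : P ≠ 0) :
    ∃ (S : ℕ) (P' N' : Fin S → Fin 4 → ℝ) (lam : ℝ), 0 < S ∧ 0 < lam ∧
      (∀ i, ∃ π : Equiv.Perm (Fin S), ∀ s, P' (π s) i = N' s i) ∧
      (∀ i j, ∑ s, (N' s i - N' s j) ^ 2 = lam / L * dist (x i) (x j) ^ 2) ∧
      (∀ i j, ∑ s, (P' s i - P' s j) ^ 2 = (lam / L + lam) * dist (x i) (x j) ^ 2) := by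
  have hcard : Multiset.card N = Multiset.card P := by
    have := congrArg Multiset.card (hlaw 0)
    simpa using this.symm
  obtain ⟨S, hS⟩ : ∃ S, Multiset.card P = S := ⟨_, rfl⟩
  obtain ⟨P', hP'⟩ := exists_enum P S hS
  obtain ⟨N', hN'⟩ := exists_enum N S (hcard.trans hS)
  have hSpos : 0 < S := hS ▸ Multiset.card_pos.mpr hne
  have sumP : ∀ F : (Fin 4 → ℝ) → ℝ, (P.map F).sum = ∑ s, F (P' s) := by
    intro F
    rw [← hP', Multiset.map_map]
    rfl
  have sumN : ∀ F : (Fin 4 → ℝ) → ℝ, (N.map F).sum = ∑ s, F (N' s) := by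
    intro F
    rw [← hN', Multiset.map_map]
    rfl
  refine ⟨S, P', N', lam, hSpos, hlam, fun i => ?_, fun i j => ?_, fun i j => ?_⟩
  · apply exists_perm_of_map_eq (fun s => P' s i) (fun s => N' s i)
    have h := hlaw i
    rw [← hP', ← hN', Multiset.map_map, Multiset.map_map] at h
    exact h
  · rw [← hN i j, sumN]
  · rw [← hP i j, sumP]

/-- The squared distances of the kite in the closed form of the columns. -/
lemma kite_kd2 (i j : Fin 4) : Circulant.kd2 i j = dist (kitePt i) (kitePt j) ^ 2 := by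
  rw [kitePt_dist_sq]
  rfl

/-- The kite is Ramsey. -/
theorem kite_isRamseyFamily : IsRamseyFamily kitePt := by
  refine R62.theoremR kitePt fun L hL => ?_
  obtain ⟨P, N, lam, hlam, hlaw, hN, hP⟩ := Circulant.exists_PN L hL
  refine hPN_of_multiset kitePt L P N lam hlam hlaw ?_ ?_ ?_
  · intro i j
    rw [← kite_kd2]
    exact hN i j
  · intro i j
    rw [← kite_kd2]
    exact hP i j
  · rintro rfl
    have h := hP 2 3
    have hd : dist (kitePt 2) (kitePt 3) ^ 2 = 4 := kite_dists.2.2.2.2.2
    have hk : Circulant.kd2 2 3 = 4 := by rw [kite_kd2, hd]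
    rw [hk] at h
    simp only [Multiset.map_zero, Multiset.sum_zero] at h
    have hL' : (0 : ℝ) ≤ lam / L := by positivity
    nlinarith

theorem kite_isRamsey : IsRamsey kite :=
  IsRamseyFamily.range kite_isRamseyFamily

end Vale.Agent.Lib.P058K
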