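import Mathlib

/-!
# Lemma X: cheap second-order stencils in the group ring `ℤ[ℝ]`

`Y g` is the basis element of `g`, `W g = Y g + Y (-g) - 2`.  `StC E C` says that
`E` is an integer combination of stencils `Y b (Y s - 1) (Y s' - 1)` of total cost
at most `C`, the cost of a stencil being `s^2 + s'^2`.
Main result: if `a^2 + b^2 = c^2` then for all `ε > 0` there are `k > 0`, `δ > 0` with
`StC (T k δ * (W a + W b - W c)) (ε * k^2)`, where `T k δ` has nonnegative coefficients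
and mass `k^2`.
-/

namespace Vale.Agent.Lib.P058K

/-- The group ring of `(ℝ, +)` over `ℤ`. -/
abbrev GR : Type := AddMonoidAlgebra ℤ ℝ

/-- basis element -/
noncomputable def Y (g : ℝ) : GR := AddMonoidAlgebra.single g 1

lemma Y_zero : Y 0 = 1 := rfl

lemma Y_add (a b : ℝ) : Y (a + b) = Y a * Y b := by
  unfold Y
  rw [AddMonoidAlgebra.single_mul_single]
  simp

lemma Y_neg_mul (a : ℝ) : Y (-a) * Y a = 1 := by
  rw [← Y_add]; simp [Y_zero]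

lemma Y_mul_neg (a : ℝ) : Y a * Y (-a) = 1 := by
  rw [← Y_add]; simp [Y_zero]

/-- second difference -/
noncomputable def W (g : ℝ) : GR := Y g + Y (-g) - 2

lemma W_zero : W 0 = 0 := by
  unfold W; simp [Y_zero]; norm_num

lemma W_neg (g : ℝ) : W (-g) = W g := by
  unfold W; simp [add_comm]

lemma W_abs (g : ℝ) : W |g| = W g := by
  rcases abs_cases g with ⟨h, _⟩ | ⟨h, _⟩ <;> rw [h]
  exact W_neg g

/-- integer combinations of stencils, with cost -/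
inductive StC : GR → ℝ → Prop
  | stencil (b s s' : ℝ) : StC (Y b * (Y s - 1) * (Y s' - 1)) (s ^ 2 + s' ^ 2)
  | add {E F : GR} {C D : ℝ} : StC E C → StC F D → StC (E + F) (C + D)
  | neg {E : GR} {C : ℝ} : StC E C → StC (-E) C
  | mono {E : GR} {C D : ℝ} : StC E C → C ≤ D → StC E D

lemma StC.nonneg {E : GR} {C : ℝ} (h : StC E C) : 0 ≤ C := by
  induction h with
  | stencil b s s' => positivity
  | add _ _ h1 h2 => linarith
  | neg _ h => exact h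
  | mono _ hle h => linarith

lemma StC.zero : StC 0 0 := by
  have := StC.stencil 0 0 0
  simpa [Y_zero] using this

lemma StC.sub {E F : GR} {C D : ℝ} (h1 : StC E C) (h2 : StC F D) : StC (E - F) (C + D) := by
  rw [sub_eq_add_neg]; exact h1.add h2.neg

lemma StC.congr {E F : GR} {C : ℝ} (h : StC E C) (e : E = F) : StC F C := e ▸ h

/-- translation does not change the cost -/
lemma StC.Y_mul (m : ℝ) {E : GR} {C : ℝ} (h : StC E C) : StC (Y m * E) C := by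
  induction h with
  | stencil b s s' =>
    have := StC.stencil (m + b) s s'
    refine this.congr ?_
    rw [Y_add]; ring
  | add _ _ h1 h2 =>
    rw [mul_add]; exact h1.add h2
  | neg _ h =>
    rw [mul_neg]; exact h.neg
  | mono _ hle h => exact h.mono hle

lemma StC.nat_smul (n : ℕ) {E : GR} {C : ℝ} (h : StC E C) : StC ((n : GR) * E) (n * C) := by
  induction n with
  | zero => simpa using StC.zero
  | succ n ih =>
    have := ih.add h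
    refine (this.congr (by push_cast; ring)).mono (by push_cast; linarith)

lemma StC.int_smul (n : ℤ) {E : GR} {C : ℝ} (h : StC E C) : StC ((n : GR) * E) (|(n : ℝ)| * C) := by
  rcases Int.eq_nat_or_neg n with ⟨m, rfl | rfl⟩
  · have := h.nat_smul m
    simpa using this
  · have := (h.nat_smul m).neg
    refine this.congr ?_ |>.mono ?_
    · push_cast; ring
    · simp

/-- geometric sum -/
noncomputable def G (k : ℕ) (δ : ℝ) : GR := ∑ j ∈ Finset.range k, Y (j * δ)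

lemma G_mul_sub (k : ℕ) (δ : ℝ) : G k δ * (Y δ - 1) = Y (k * δ) - 1 := by
  induction k with
  | zero => simp [G, Y_zero]
  | succ k ih =>
    have h : G (k + 1) δ = G k δ + Y (k * δ) := by
      unfold G; rw [Finset.sum_range_succ]
    have h2 : Y (((k + 1 : ℕ) : ℝ) * δ) = Y (k * δ) * Y δ := by
      rw [← Y_add]; congr 1; push_cast; ring
    rw [h, add_mul, ih, h2]; ring

lemma StC.G_mul (k : ℕ) (δ : ℝ) {E : GR} {C : ℝ} (h : StC E C) : StC (G k δ * E) (k * C) := by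
  induction k with
  | zero =>
    simpa [G] using StC.zero
  | succ k ih =>
    have h1 : G (k + 1) δ = G k δ + Y (k * δ) := by
      unfold G; rw [Finset.sum_range_succ]
    rw [h1, add_mul]
    refine ((ih.add (h.Y_mul _))).mono ?_
    push_cast; linarith

/-- the triangle kernel: nonnegative coefficients, mass `k^2` -/
noncomputable def T (k : ℕ) (δ : ℝ) : GR := G k δ * G k (-δ)

lemma StC.T_mul (k : ℕ) (δ : ℝ) {E : GR} {C : ℝ} (h : StC E C) :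
    StC (T k δ * E) ((k : ℝ) ^ 2 * C) := by
  have := (h.G_mul k (-δ)).G_mul k δ
  refine (this.congr ?_).mono ?_
  · unfold T; ring
  · apply le_of_eq; ring

/-- `W δ` as a stencil -/
lemma W_eq_stencil (δ : ℝ) : W δ = Y (-δ) * (Y δ - 1) * (Y δ - 1) := by
  have h := Y_neg_mul δ
  unfold W
  have : Y (-δ) * (Y δ - 1) * (Y δ - 1) = (Y (-δ) * Y δ) * Y δ - 2 * (Y (-δ) * Y δ) + Y (-δ) := by
    ring
  rw [this, h]; ring

lemma StC.ofW (δ : ℝ) : StC (W δ) (2 * δ ^ 2) := by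
  rw [W_eq_stencil]
  exact (StC.stencil (-δ) δ δ).mono (by linarith)

/-- `T k δ * W δ = W (k δ)` -/
lemma T_mul_W (k : ℕ) (δ : ℝ) : T k δ * W δ = W (k * δ) := by
  have h1 := G_mul_sub k δ
  have h2 := G_mul_sub k (-δ)
  have hW : W δ = -((Y δ - 1) * (Y (-δ) - 1)) := by
    have h := Y_mul_neg δ
    unfold W
    have : (Y δ - 1) * (Y (-δ) - 1) = Y δ * Y (-δ) - Y δ - Y (-δ) + 1 := by ring
    rw [this, h]; ring
  have hWk : W (k * δ) = -((Y (k * δ) - 1) * (Y ((k:ℝ) * (-δ)) - 1)) := by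
    have h := Y_mul_neg ((k:ℝ) * δ)
    have e : ((k:ℝ) * (-δ)) = -((k:ℝ) * δ) := by ring
    rw [e]
    unfold W
    have : (Y (k * δ) - 1) * (Y (-((k:ℝ) * δ)) - 1)
        = Y (k * δ) * Y (-((k:ℝ) * δ)) - Y (k * δ) - Y (-((k:ℝ) * δ)) + 1 := by ring
    rw [this, h]; ring
  rw [hW, hWk, ← h1, ← h2]
  unfold T; ring

/-- `W` addition formula -/
lemma W_add_sub (x y : ℝ) : W (x + y) + W (x - y) = 2 * W x + 2 * W y + W x * W y := by
  have h1 : Y (x + y) = Y x * Y y := Y_add x y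
  have h2 : Y (x - y) = Y x * Y (-y) := by rw [← Y_add]; rfl
  have h3 : Y (-(x + y)) = Y (-x) * Y (-y) := by rw [← Y_add]; congr 1; ring
  have h4 : Y (-(x - y)) = Y (-x) * Y y := by rw [← Y_add]; congr 1; ring
  unfold W
  rw [h1, h2, h3, h4]; ring

/-- Chebyshev: `W (n δ) = n^2 W δ + A W δ ^ 2`. -/
lemma W_nat (δ : ℝ) (n : ℕ) : ∃ A : GR, W (n * δ) = ((n : GR) ^ 2) * W δ + A * W δ * W δ := by
  induction n using Nat.twoStepInduction with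
  | zero => exact ⟨0, by simp [W_zero]⟩
  | one => exact ⟨0, by simp⟩
  | more n ih1 ih2 =>
    obtain ⟨A0, h0⟩ := ih1
    obtain ⟨A1, h1⟩ := ih2
    have h := W_add_sub (((n + 1 : ℕ) : ℝ) * δ) δ
    have e1 : ((n + 1 : ℕ) : ℝ) * δ + δ = ((n + 2 : ℕ) : ℝ) * δ := by push_cast; ring
    have e2 : ((n + 1 : ℕ) : ℝ) * δ - δ = (n : ℝ) * δ := by push_cast; ring
    rw [e1, e2, h0, h1] at h
    refine ⟨2 * A1 - A0 + ((n + 1 : ℕ) : GR) ^ 2 + A1 * W δ, ?_⟩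
    have : W (((n + 2 : ℕ) : ℝ) * δ) = 2 * (((n + 1 : ℕ) : GR) ^ 2 * W δ + A1 * W δ * W δ)
        + 2 * W δ + (((n + 1 : ℕ) : GR) ^ 2 * W δ + A1 * W δ * W δ) * W δ
        - ((n : GR) ^ 2 * W δ + A0 * W δ * W δ) := by
      rw [eq_sub_iff_add_eq]; exact h
    rw [this]; push_cast; ring

/-- The `W` addition formula with two stencil-like remainders. -/
lemma W_add_eq (x y : ℝ) :
    W (x + y) = W x + W y + (Y x - 1) * (Y y - 1) + (Y (-x) - 1) * (Y (-y) - 1) := by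
  have h3 : Y (-(x + y)) = Y (-x) * Y (-y) := by rw [← Y_add]; congr 1; ring
  unfold W
  rw [Y_add, h3]; ring

/-- For every element `A` of the group ring, `A * E` has some finite cost. -/
lemma StC.exists_mul (A : GR) {E : GR} {C : ℝ} (h : StC E C) : ∃ D, StC (A * E) D := by
  induction A using AddMonoidAlgebra.induction_on with
  | of g =>
    refine ⟨C, ?_⟩
    exact h.Y_mul g
  | add a b ha hb =>
    obtain ⟨D1, h1⟩ := ha
    obtain ⟨D2, h2⟩ := hb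
    exact ⟨D1 + D2, by rw [add_mul]; exact h1.add h2⟩
  | smul n a ha =>
    obtain ⟨D, hD⟩ := ha
    refine ⟨|(n : ℝ)| * D, ?_⟩
    have := hD.int_smul n
    refine this.congr ?_
    rw [smul_mul_assoc, zsmul_eq_mul]

/-- one step approximating `W x` by `W (r δ)`. -/
lemma StC.W_approx {x δ : ℝ} (hx : 0 ≤ x) (hδ : 0 < δ) :
    ∃ r : ℕ, (r : ℝ) * δ ≤ x ∧ x - δ ≤ (r : ℝ) * δ ∧
      StC (W x - W ((r : ℝ) * δ)) (2 * δ ^ 2 + 4 * x * δ) := by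
  obtain ⟨r, hr1, hr2⟩ : ∃ r : ℕ, (r : ℝ) ≤ x / δ ∧ x / δ < r + 1 :=
    ⟨⌊x / δ⌋₊, Nat.floor_le (by positivity), Nat.lt_floor_add_one _⟩
  have hr1' : (r : ℝ) * δ ≤ x := by rwa [le_div_iff₀ hδ] at hr1
  have hr2' : x < ((r : ℝ) + 1) * δ := by rwa [div_lt_iff₀ hδ] at hr2
  refine ⟨r, hr1', by nlinarith, ?_⟩
  obtain ⟨e, he⟩ : ∃ e : ℝ, e = x - r * δ := ⟨_, rfl⟩
  have he0 : 0 ≤ e := by rw [he]; linarith
  have he1 : e ≤ δ := by rw [he]; nlinarith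
  have hxe : x = r * δ + e := by rw [he]; ring
  have hmain := W_add_eq ((r : ℝ) * δ) e
  rw [← hxe] at hmain
  -- the three remainder terms
  have t1 : StC (W e) (2 * δ ^ 2) :=
    (StC.ofW e).mono (by nlinarith)
  have t2 : StC (G r δ * (Y δ - 1) * (Y e - 1)) (r * (2 * δ ^ 2)) := by
    have hs : StC (Y 0 * (Y δ - 1) * (Y e - 1)) (δ ^ 2 + e ^ 2) := StC.stencil 0 δ e
    rw [Y_zero, one_mul] at hs
    have := hs.G_mul r δ
    refine (this.congr (by ring)).mono ?_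
    have : (0:ℝ) ≤ r := Nat.cast_nonneg r
    have : e ^ 2 ≤ δ ^ 2 := by nlinarith
    nlinarith
  have t3 : StC (G r (-δ) * (Y (-δ) - 1) * (Y (-e) - 1)) (r * (2 * δ ^ 2)) := by
    have hs : StC (Y 0 * (Y (-δ) - 1) * (Y (-e) - 1)) ((-δ) ^ 2 + (-e) ^ 2) := StC.stencil 0 (-δ) (-e)
    rw [Y_zero, one_mul] at hs
    have := hs.G_mul r (-δ)
    refine (this.congr (by ring)).mono ?_
    have : (0:ℝ) ≤ r := Nat.cast_nonneg r
    have : e ^ 2 ≤ δ ^ 2 := by nlinarith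
    nlinarith
  have t := (t1.add t2).add t3
  refine (t.congr ?_).mono ?_
  · rw [hmain, G_mul_sub r δ, G_mul_sub r (-δ)]
    have : (r:ℝ) * (-δ) = -((r:ℝ) * δ) := by ring
    rw [this]; ring
  · have : (r : ℝ) * δ ^ 2 ≤ x * δ := by nlinarith
    nlinarith

/-- multiplication by `W x` costs a factor `4`. -/
lemma StC.W_mul (x : ℝ) {E : GR} {C : ℝ} (h : StC E C) : StC (W x * E) (4 * C) := by
  have h1 := h.Y_mul x
  have h2 := h.Y_mul (-x)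
  have h3 := h.nat_smul 2
  have := (h1.add h2).sub h3
  refine (this.congr ?_).mono ?_
  · unfold W; push_cast; ring
  · push_cast; linarith

/-- algebraic decomposition behind Lemma X -/
lemma lemmaX_algebra (k r u v : ℕ) (δ a b c : ℝ) (Ar Au Av : GR)
    (hAr : W (r * δ) = ((r : GR) ^ 2) * W δ + Ar * W δ * W δ)
    (hAu : W (u * δ) = ((u : GR) ^ 2) * W δ + Au * W δ * W δ)
    (hAv : W (v * δ) = ((v : GR) ^ 2) * W δ + Av * W δ * W δ) :
    T k δ * (W a - W ((r : ℝ) * δ)) + T k δ * (W b - W ((u : ℝ) * δ))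
      - T k δ * (W c - W ((v : ℝ) * δ))
      + T k δ * ((((r : ℤ) ^ 2 + (u : ℤ) ^ 2 - (v : ℤ) ^ 2 : ℤ) : GR) * W δ)
      + W ((k : ℝ) * δ) * ((Ar + Au - Av) * W δ)
    = T k δ * (W a + W b - W c) := by
  rw [← T_mul_W k δ, hAr, hAu, hAv]
  push_cast
  ring

/-- bound on the integer `ν = r^2 + u^2 - v^2` -/
lemma lemmaX_nu {a b c δ : ℝ} {r u v : ℕ} (ha : 0 ≤ a) (hb : 0 ≤ b) (hc : 0 ≤ c) (hδ : 0 < δ)
    (h : a ^ 2 + b ^ 2 = c ^ 2)
    (hr1 : (r : ℝ) * δ ≤ a) (hr2 : a - δ ≤ (r : ℝ) * δ)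
    (hu1 : (u : ℝ) * δ ≤ b) (hu2 : b - δ ≤ (u : ℝ) * δ)
    (hv1 : (v : ℝ) * δ ≤ c) (hv2 : c - δ ≤ (v : ℝ) * δ) :
    |(((r : ℤ) ^ 2 + (u : ℤ) ^ 2 - (v : ℤ) ^ 2 : ℤ) : ℝ)| * (2 * δ ^ 2) ≤ 4 * (a + b + c) * δ := by
  have e : (((r : ℤ) ^ 2 + (u : ℤ) ^ 2 - (v : ℤ) ^ 2 : ℤ) : ℝ) * δ ^ 2
      = ((r : ℝ) * δ) ^ 2 + ((u : ℝ) * δ) ^ 2 - ((v : ℝ) * δ) ^ 2 := by
    push_cast; ring
  have hr0 : 0 ≤ (r : ℝ) * δ := by positivity
  have hu0 : 0 ≤ (u : ℝ) * δ := by positivity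
  have hv0 : 0 ≤ (v : ℝ) * δ := by positivity
  have t1 : a ^ 2 - 2 * a * δ ≤ ((r : ℝ) * δ) ^ 2 := by nlinarith
  have t2 : ((r : ℝ) * δ) ^ 2 ≤ a ^ 2 := by nlinarith
  have t3 : b ^ 2 - 2 * b * δ ≤ ((u : ℝ) * δ) ^ 2 := by nlinarith
  have t4 : ((u : ℝ) * δ) ^ 2 ≤ b ^ 2 := by nlinarith
  have t5 : c ^ 2 - 2 * c * δ ≤ ((v : ℝ) * δ) ^ 2 := by nlinarith
  have t6 : ((v : ℝ) * δ) ^ 2 ≤ c ^ 2 := by nlinarith
  have habs : |(((r : ℤ) ^ 2 + (u : ℤ) ^ 2 - (v : ℤ) ^ 2 : ℤ) : ℝ) * δ ^ 2| ≤ 2 * (a + b + c) * δ := by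
    rw [e, abs_le]; constructor <;> nlinarith
  rw [abs_mul, abs_of_pos (by positivity : (0:ℝ) < δ ^ 2)] at habs
  linarith

/-- Lemma X for nonnegative `a b c`. -/
lemma lemmaX_nonneg {a b c : ℝ} (ha : 0 ≤ a) (hb : 0 ≤ b) (hc : 0 ≤ c)
    (h : a ^ 2 + b ^ 2 = c ^ 2) {ε : ℝ} (hε : 0 < ε) :
    ∃ (k : ℕ) (δ : ℝ), 0 < k ∧ 0 < δ ∧ StC (T k δ * (W a + W b - W c)) (ε * (k : ℝ) ^ 2) := by
  have hK0 : 0 ≤ a + b + c := by positivity
  obtain ⟨δ, hδ, hδ1, hδ2⟩ : ∃ δ : ℝ, 0 < δ ∧ δ ≤ 1 ∧ δ * (6 + 8 * (a + b + c)) ≤ ε / 2 := by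
    have hdiv : 0 < ε / (2 * (6 + 8 * (a + b + c))) := by positivity
    refine ⟨min 1 (ε / (2 * (6 + 8 * (a + b + c)))), lt_min one_pos hdiv, min_le_left _ _, ?_⟩
    have h1 : min 1 (ε / (2 * (6 + 8 * (a + b + c)))) ≤ ε / (2 * (6 + 8 * (a + b + c))) :=
      min_le_right _ _
    have h2 : 0 < 6 + 8 * (a + b + c) := by positivity
    calc min 1 (ε / (2 * (6 + 8 * (a + b + c)))) * (6 + 8 * (a + b + c))
        ≤ ε / (2 * (6 + 8 * (a + b + c))) * (6 + 8 * (a + b + c)) := by gcongr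
      _ = ε / 2 := by field_simp
  obtain ⟨r, hr1, hr2, p1⟩ := StC.W_approx ha hδ
  obtain ⟨u, hu1, hu2, p2⟩ := StC.W_approx hb hδ
  obtain ⟨v, hv1, hv2, p3⟩ := StC.W_approx hc hδ
  obtain ⟨Ar, hAr⟩ := W_nat δ r
  obtain ⟨Au, hAu⟩ := W_nat δ u
  obtain ⟨Av, hAv⟩ := W_nat δ v
  have hνb := lemmaX_nu ha hb hc hδ h hr1 hr2 hu1 hu2 hv1 hv2
  obtain ⟨D, hD⟩ := StC.exists_mul (Ar + Au - Av) (StC.ofW δ)
  have hD0 : 0 ≤ D := hD.nonneg
  -- choose k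
  obtain ⟨k, hkpos, hk3⟩ : ∃ k : ℕ, 0 < k ∧ 4 * D ≤ ε / 2 * (k : ℝ) ^ 2 := by
    refine ⟨⌈8 * D / ε⌉₊ + 1, by omega, ?_⟩
    have hk2 : 8 * D / ε ≤ ((⌈8 * D / ε⌉₊ + 1 : ℕ) : ℝ) := by
      have := Nat.le_ceil (8 * D / ε)
      push_cast; linarith
    have h1 : 8 * D ≤ ((⌈8 * D / ε⌉₊ + 1 : ℕ) : ℝ) * ε := by rwa [div_le_iff₀ hε] at hk2
    have h2 : ((⌈8 * D / ε⌉₊ + 1 : ℕ) : ℝ) ≤ ((⌈8 * D / ε⌉₊ + 1 : ℕ) : ℝ) ^ 2 := by
      have : (1 : ℝ) ≤ ((⌈8 * D / ε⌉₊ + 1 : ℕ) : ℝ) := by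
        push_cast; linarith [Nat.cast_nonneg (α := ℝ) ⌈8 * D / ε⌉₊]
      nlinarith
    nlinarith
  refine ⟨k, δ, hkpos, hδ, ?_⟩
  have q1 := p1.T_mul k δ
  have q2 := p2.T_mul k δ
  have q3 := p3.T_mul k δ
  have q4 := ((StC.ofW δ).int_smul ((r : ℤ) ^ 2 + (u : ℤ) ^ 2 - (v : ℤ) ^ 2)).T_mul k δ
  have q5 := hD.W_mul ((k : ℝ) * δ)
  have total := ((((q1.add q2).sub q3).add q4).add q5)
  have halg := lemmaX_algebra k r u v δ a b c Ar Au Av hAr hAu hAv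
  refine (total.congr halg).mono ?_
  -- cost
  have hk0 : (0 : ℝ) ≤ (k : ℝ) ^ 2 := by positivity
  have hδsq : δ ^ 2 ≤ δ := by nlinarith
  have hsum : (2 * δ ^ 2 + 4 * a * δ) + (2 * δ ^ 2 + 4 * b * δ) + (2 * δ ^ 2 + 4 * c * δ)
      + |(((r : ℤ) ^ 2 + (u : ℤ) ^ 2 - (v : ℤ) ^ 2 : ℤ) : ℝ)| * (2 * δ ^ 2) ≤ ε / 2 := by
    nlinarith
  have := mul_le_mul_of_nonneg_left hsum hk0
  nlinarith

/-- **Lemma X.** If `a^2 + b^2 = c^2` then for every `ε > 0` there are `k > 0`, `δ > 0` such that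
`T k δ * (W a + W b - W c)` is an integer combination of stencils of total cost at most
`ε * k^2`; `T k δ` has nonnegative coefficients and mass `k^2`. -/
theorem lemmaX {a b c : ℝ} (h : a ^ 2 + b ^ 2 = c ^ 2) {ε : ℝ} (hε : 0 < ε) :
    ∃ (k : ℕ) (δ : ℝ), 0 < k ∧ 0 < δ ∧ StC (T k δ * (W a + W b - W c)) (ε * (k : ℝ) ^ 2) := by
  have h' : |a| ^ 2 + |b| ^ 2 = |c| ^ 2 := by simpa [sq_abs] using h
  have := lemmaX_nonneg (abs_nonneg a) (abs_nonneg b) (abs_nonneg c) h' hε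
  simpa [W_abs] using this

end Vale.Agent.Lib.P058K
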