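import Mathlib

/-!
# The column families for the kite: a tiny negative part

All computations take place in the commutative semiring `ℕ[Col]`, `Col = Fin 4 → ℝ`: a multiset of
columns is an element of it, and translating a family by a multiset of constant columns is
multiplication.
-/

namespace Vale.Agent.Lib.P058K.PNC

open AddMonoidAlgebra

/-- A column: four real values. -/
abbrev Col := Fin 4 → ℝ
/-- Finite multisets of columns, with convolution. -/
abbrev RC := AddMonoidAlgebra ℕ Col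
/-- Finite multisets of reals, with convolution. -/
abbrev RR := AddMonoidAlgebra ℕ ℝ

/-- One column. -/
noncomputable def e (f : Col) : RC := single f 1

lemma e_add (f g : Col) : e (f + g) = e f * e g := by
  simp [e, single_mul_single]

lemma e_zero : e 0 = 1 := rfl

/-- The law at index `i`, a ring homomorphism. -/
noncomputable def lawAt (i : Fin 4) : RC →+* RR :=
  mapDomainRingHom ℕ (Pi.evalAddMonoidHom (fun _ : Fin 4 => ℝ) i)

lemma lawAt_e (i : Fin 4) (f : Col) : lawAt i (e f) = single (f i) 1 := by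
  simp [lawAt, e]

/-- Two families have the same law at every index. -/
def Eqv (m m' : RC) : Prop := ∀ i, lawAt i m = lawAt i m'

lemma Eqv.refl (m : RC) : Eqv m m := fun _ => rfl
lemma Eqv.symm {m m' : RC} (h : Eqv m m') : Eqv m' m := fun i => (h i).symm
lemma Eqv.trans {a b c : RC} (h : Eqv a b) (h' : Eqv b c) : Eqv a c :=
  fun i => (h i).trans (h' i)
lemma Eqv.add {a b c d : RC} (h : Eqv a b) (h' : Eqv c d) : Eqv (a + c) (b + d) := fun i => by
  simp only [map_add, h i, h' i]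
lemma Eqv.mul_left (c : RC) {a b : RC} (h : Eqv a b) : Eqv (c * a) (c * b) := fun i => by
  simp only [map_mul, h i]

/-- The multiset underlying an element. -/
noncomputable def ms (m : RC) : Multiset Col := Finsupp.toMultiset m.coeff

lemma ms_add (a b : RC) : ms (a + b) = ms a + ms b := by
  simp [ms, coeff_add]

lemma ms_zero : ms 0 = 0 := by simp [ms]

lemma ms_e (f : Col) : ms (e f) = {f} := by
  simp [ms, e, coeff_single]

lemma ms_law (m : RC) (i : Fin 4) :
    (ms m).map (fun f => f i) = Finsupp.toMultiset (lawAt i m).coeff := by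
  simp only [ms, lawAt]
  rw [Finsupp.toMultiset_map]
  rfl

lemma ms_eq_of_Eqv {a b : RC} (h : Eqv a b) (i : Fin 4) :
    (ms a).map (fun f => f i) = (ms b).map (fun f => f i) := by
  rw [ms_law, ms_law, h i]

/-- Sum of squared differences over a family. -/
noncomputable def D (i j : Fin 4) (m : RC) : ℝ := ((ms m).map fun f => (f i - f j) ^ 2).sum

lemma D_add (i j : Fin 4) (a b : RC) : D i j (a + b) = D i j a + D i j b := by
  simp [D, ms_add]

lemma D_zero (i j : Fin 4) : D i j 0 = 0 := by simp [D, ms_zero]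

lemma D_e (i j : Fin 4) (f : Col) : D i j (e f) = (f i - f j) ^ 2 := by
  simp [D, ms_e]

/-- A constant column. -/
noncomputable def w (c : ℝ) : RC := e (fun _ => c)

lemma w_add (a b : ℝ) : w (a + b) = w a * w b := by
  rw [w, w, w, ← e_add]
  rfl

lemma w_zero : w 0 = 1 := rfl

lemma D_single (i j : Fin 4) (f : Col) (n : ℕ) :
    D i j (single f n) = n * (f i - f j) ^ 2 := by
  simp [D, ms, coeff_single, Multiset.map_nsmul, Multiset.sum_nsmul]

/-- `c` acts on all the functionals `D` as multiplication by `n`. -/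
def Acts (c : RC) (n : ℕ) : Prop := ∀ (m : RC) (i j : Fin 4), D i j (c * m) = n * D i j m

lemma Acts.one : Acts 1 1 := fun m i j => by simp

lemma Acts.w (c : ℝ) : Acts (w c) 1 := by
  intro m i j
  induction m using AddMonoidAlgebra.induction_linear with
  | zero => simp [D_zero]
  | add a b ha hb => rw [mul_add, D_add, D_add, ha, hb]; push_cast; ring
  | single f n =>
    rw [PNC.w, e, single_mul_single, D_single, D_single]
    simp

lemma Acts.mul {a b : RC} {n k : ℕ} (ha : Acts a n) (hb : Acts b k) : Acts (a * b) (n * k) := by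
  intro m i j
  rw [mul_assoc, ha, hb]
  push_cast
  ring

lemma Acts.add {a b : RC} {n k : ℕ} (ha : Acts a n) (hb : Acts b k) : Acts (a + b) (n + k) := by
  intro m i j
  rw [add_mul, D_add, ha, hb]
  push_cast
  ring

lemma Acts.pow {a : RC} (ha : Acts a 1) (k : ℕ) : Acts (a ^ k) 1 := by
  induction k with
  | zero => simpa using Acts.one
  | succ k ih => rw [pow_succ]; simpa using ih.mul ha

lemma Acts.geom {a : RC} (ha : Acts a 1) (L : ℕ) : Acts (∑ m ∈ Finset.range L, a ^ m) L := by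
  induction L with
  | zero => intro m i j; simp [D_zero]
  | succ L ih => rw [Finset.sum_range_succ]; exact ih.add (ha.pow L)

section Chain

variable (X Y : Col)

/-- The pair of columns `± t (V - P)`. -/
noncomputable def pr (t : ℝ) (V : Col) (P : ℝ) : RC :=
  e (fun i => t * (V i - P)) + e (fun i => -(t * (V i - P)))

/-- Family with `D = a ΔX² + b ΔY²`. -/
def Good (m : RC) (a b : ℝ) : Prop :=
  ∀ i j, D i j m = a * (X i - X j) ^ 2 + b * (Y i - Y j) ^ 2

variable {X Y}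

lemma Good.add {m m' : RC} {a b a' b' : ℝ} (h : Good X Y m a b) (h' : Good X Y m' a' b') :
    Good X Y (m + m') (a + a') (b + b') := fun i j => by
  rw [D_add, h, h']; ring

lemma Good.act {m c : RC} {a b : ℝ} {n : ℕ} (h : Good X Y m a b) (hc : Acts c n) :
    Good X Y (c * m) (n * a) (n * b) := fun i j => by
  rw [hc, h]; ring

/-- The swap identity. -/
lemma swap_eqv {V W : Col} {P Q s t : ℝ} (hs : s ≠ 0)
    (h : ∀ i, W i - Q = s * (V i - P) ∨ W i - Q = -(s * (V i - P))) :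
    Eqv (pr t V P) (pr (t / s) W Q) := by
  intro i
  simp only [pr, map_add, lawAt_e]
  rcases h i with h | h
  · have : t / s * (W i - Q) = t * (V i - P) := by rw [h]; field_simp
    rw [this]
  · have : t / s * (W i - Q) = -(t * (V i - P)) := by rw [h]; field_simp
    rw [this, neg_neg, add_comm]

/-- The remainder of a conversion. -/
noncomputable def rem (t : ℝ) (V : Col) (P P' : ℝ) (L : ℕ) : RC :=
  e (fun i => t * (V i - P')) + e (fun i => -(t * (V i - P'))) * w (2 * t * (P - P')) ^ (L + 1)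

lemma tele1 (t : ℝ) (V : Col) (P P' : ℝ) :
    w (t * (P - P')) * pr t V P =
      e (fun i => t * (V i - P')) + e (fun i => -(t * (V i - P'))) * w (2 * t * (P - P')) := by
  simp only [pr, w, mul_add, ← e_add]
  congr 1
  · rw [add_comm]
    congr 1
    ext i
    simp only [Pi.add_apply]
    ring
  · rw [add_comm (fun _ => t * (P - P')), ]
    congr 1
    ext i
    simp only [Pi.add_apply]
    ring

/-- The telescoping conversion from `P` to `P'`. -/
lemma tele (t : ℝ) (V : Col) (P P' : ℝ) (L : ℕ) :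
    w (t * (P - P')) * (∑ m ∈ Finset.range (L + 1), w (2 * t * (P - P')) ^ m) * pr t V P =
      rem t V P P' L +
        (w (2 * t * (P - P')) * ∑ m ∈ Finset.range L, w (2 * t * (P - P')) ^ m) * pr t V P' := by
  set z := w (2 * t * (P - P')) with hz
  set U := e (fun i => t * (V i - P')) with hU
  set W := e (fun i => -(t * (V i - P'))) with hW
  have h1 := tele1 t V P P'
  rw [← hz, ← hU, ← hW] at h1
  have h2 : (∑ m ∈ Finset.range (L + 1), z ^ m) = z * (∑ m ∈ Finset.range L, z ^ m) + 1 :=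
    geom_sum_succ
  have h3 : (∑ m ∈ Finset.range (L + 1), z ^ m) = z ^ L + ∑ m ∈ Finset.range L, z ^ m :=
    geom_sum_succ'
  have h4 : pr t V P' = U + W := rfl
  have h5 : rem t V P P' L = U + W * z ^ (L + 1) := rfl
  rw [h5, h4]
  calc w (t * (P - P')) * (∑ m ∈ Finset.range (L + 1), z ^ m) * pr t V P
      = (w (t * (P - P')) * pr t V P) * (∑ m ∈ Finset.range (L + 1), z ^ m) := by ring
    _ = U * (∑ m ∈ Finset.range (L + 1), z ^ m) + W * z * (∑ m ∈ Finset.range (L + 1), z ^ m) := by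
        rw [h1]; ring
    _ = U * (z * (∑ m ∈ Finset.range L, z ^ m) + 1) +
          W * z * (z ^ L + ∑ m ∈ Finset.range L, z ^ m) := by
        rw [← h2, ← h3]
    _ = _ := by ring

lemma good_e_neg_pow {t : ℝ} {V : Col} {P' c : ℝ} (i j : Fin 4) (L : ℕ) :
    D i j (e (fun i => -(t * (V i - P'))) * w c ^ L) = t ^ 2 * (V i - V j) ^ 2 := by
  rw [mul_comm, (Acts.pow (Acts.w c) L) _ i j, D_e]
  push_cast
  ring

lemma rem_D (t : ℝ) (V : Col) (P P' : ℝ) (L : ℕ) (i j : Fin 4) :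
    D i j (rem t V P P' L) = 2 * t ^ 2 * (V i - V j) ^ 2 := by
  rw [rem, D_add, good_e_neg_pow, D_e]
  ring

lemma pr_D (t : ℝ) (V : Col) (P : ℝ) (i j : Fin 4) :
    D i j (pr t V P) = 2 * t ^ 2 * (V i - V j) ^ 2 := by
  rw [pr, D_add, D_e, D_e]
  ring

/-- The statement `T(η)`. -/
def TT (X Y : Col) (P : ℝ) (η : ℝ) : Prop :=
  ∀ t : ℝ, ∃ (c : RC) (n : ℕ) (B : RC) (a b : ℝ), Acts c n ∧ 0 < n ∧ Eqv (c * pr t X P) B ∧
    Good X Y B a b ∧ 0 ≤ a ∧ 0 ≤ b ∧ a + b ≤ η * t ^ 2 * n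

lemma TT_two (P : ℝ) : TT X Y P 2 := by
  intro t
  refine ⟨1, 1, pr t X P, 2 * t ^ 2, 0, Acts.one, one_pos, ?_, ?_, by positivity, le_rfl, ?_⟩
  · rw [one_mul]; exact Eqv.refl _
  · intro i j; rw [pr_D]; ring
  · push_cast; linarith

/-- One round of the chain. -/
lemma TT_step {P Q P' Q' s s' : ℝ} (hs : 0 < s) (hs' : 0 < s') (hlt : s' < s)
    (hk : ∀ i, Y i - Q = s * (X i - P) ∨ Y i - Q = -(s * (X i - P)))
    (hj : ∀ i, Y i - Q' = s' * (X i - P') ∨ Y i - Q' = -(s' * (X i - P')))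
    {η : ℝ} (hη : 0 < η) (hT : TT X Y P η) :
    TT X Y P (((s' / s) ^ 2 + 1) / 2 * η) := by
  intro t
  set ρ := s' / s with hρ
  have hρ0 : 0 < ρ := div_pos hs' hs
  have hρ1 : ρ < 1 := (div_lt_one hs).2 hlt
  set t' := t / s with ht'
  set t'' := s' * t' with ht''
  have ht''ρ : t'' = ρ * t := by rw [ht'', ht', hρ]; field_simp
  obtain ⟨c0, n0, B0, a0, b0, hc0, hn0, hE0, hG0, ha0, hb0, hab0⟩ := hT t''
  -- choose `L`
  have hgap : 0 < (1 - ρ ^ 2) * η / 2 := by
    have : ρ ^ 2 < 1 := by nlinarith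
    have h1 : 0 < 1 - ρ ^ 2 := by linarith
    positivity
  obtain ⟨L, hL⟩ := exists_nat_gt ((2 / s ^ 2 + 2 * ρ ^ 2) / ((1 - ρ ^ 2) * η / 2))
  set z1 := w (2 * t' * (Q - Q')) with hz1
  set z2 := w (2 * t'' * (P' - P)) with hz2
  set Z1 := w (t' * (Q - Q')) * ∑ m ∈ Finset.range (L + 1), z1 ^ m with hZ1
  set Z2 := w (t'' * (P' - P)) * ∑ m ∈ Finset.range (L + 1), z2 ^ m with hZ2
  set G1 := z1 * ∑ m ∈ Finset.range L, z1 ^ m with hG1
  set G2 := z2 * ∑ m ∈ Finset.range L, z2 ^ m with hG2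
  set R1 := rem t' Y Q Q' L with hR1
  set R2 := rem t'' X P' P L with hR2
  have hte1 : Z1 * pr t' Y Q = R1 + G1 * pr t' Y Q' := tele t' Y Q Q' L
  have hte2 : Z2 * pr t'' X P' = R2 + G2 * pr t'' X P := tele t'' X P' P L
  have hsw1 : Eqv (pr t X P) (pr t' Y Q) := swap_eqv hs.ne' hk
  have hsw2 : Eqv (pr t'' X P') (pr t' Y Q') := by
    have := swap_eqv (t := t'') hs'.ne' hj
    have h : t'' / s' = t' := by rw [ht'']; field_simp
    rwa [h] at this
  have hAZ1 : Acts Z1 (1 * (L + 1)) := (Acts.w _).mul (Acts.geom (Acts.w _) _)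
  have hAZ2 : Acts Z2 (1 * (L + 1)) := (Acts.w _).mul (Acts.geom (Acts.w _) _)
  have hAG1 : Acts G1 (1 * L) := (Acts.w _).mul (Acts.geom (Acts.w _) _)
  have hAG2 : Acts G2 (1 * L) := (Acts.w _).mul (Acts.geom (Acts.w _) _)
  simp only [one_mul] at hAZ1 hAZ2 hAG1 hAG2
  have hGR1 : Good X Y R1 0 (2 * t' ^ 2) := fun i j => by rw [hR1, rem_D]; ring
  have hGR2 : Good X Y R2 (2 * t'' ^ 2) 0 := fun i j => by rw [hR2, rem_D]; ring
  refine ⟨c0 * Z2 * Z1, n0 * (L + 1) * (L + 1),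
    c0 * Z2 * R1 + c0 * G1 * R2 + G1 * G2 * B0,
    _, _, (hc0.mul hAZ2).mul hAZ1, by positivity, ?_,
    (((hGR1.act (hc0.mul hAZ2))).add (hGR2.act (hc0.mul hAG1))).add (hG0.act (hAG1.mul hAG2)),
    by positivity, by positivity, ?_⟩
  · -- the chain of equal laws
    have e1 : Eqv (c0 * Z2 * Z1 * pr t X P) (c0 * Z2 * Z1 * pr t' Y Q) := hsw1.mul_left _
    have e2 : c0 * Z2 * Z1 * pr t' Y Q = c0 * Z2 * R1 + c0 * G1 * Z2 * pr t' Y Q' := by
      rw [mul_assoc (c0 * Z2), hte1]; ring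
    have e3 : Eqv (c0 * G1 * Z2 * pr t' Y Q') (c0 * G1 * Z2 * pr t'' X P') :=
      (hsw2.symm).mul_left _
    have e4 : c0 * G1 * Z2 * pr t'' X P' =
        c0 * G1 * R2 + G1 * G2 * (c0 * pr t'' X P) := by
      rw [mul_assoc (c0 * G1), hte2]; ring
    have e5 : Eqv (G1 * G2 * (c0 * pr t'' X P)) (G1 * G2 * B0) := hE0.mul_left _
    refine e1.trans ?_
    rw [e2]
    rw [add_assoc]
    refine (Eqv.refl _).add ?_
    refine e3.trans ?_
    rw [e4]
    exact (Eqv.refl _).add e5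
  · -- the bound
    have hn0' : (0 : ℝ) < n0 := by exact_mod_cast hn0
    have hL0 : (0 : ℝ) ≤ L := Nat.cast_nonneg _
    have hL1 : (0 : ℝ) < (L : ℝ) + 1 := by positivity
    have hLgap : (2 / s ^ 2 + 2 * ρ ^ 2) < (L + 1) * ((1 - ρ ^ 2) * η / 2) := by
      rw [div_lt_iff₀ hgap] at hL
      nlinarith
    have ht'2 : t' ^ 2 = t ^ 2 / s ^ 2 := by rw [ht']; ring
    have ht''2 : t'' ^ 2 = ρ ^ 2 * t ^ 2 := by rw [ht''ρ]; ring
    have ht2 : 0 ≤ t ^ 2 := sq_nonneg t
    have hab0' : a0 + b0 ≤ η * (ρ ^ 2 * t ^ 2) * n0 := by rw [← ht''2]; exact hab0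
    -- total
    push_cast
    have hmain : (n0 : ℝ) * ((L : ℝ) + 1) * 0 + (n0 * (L : ℝ)) * (2 * t'' ^ 2) + ((L : ℝ) * L) * a0 +
        ((n0 : ℝ) * ((L : ℝ) + 1) * (2 * t' ^ 2) + (n0 * (L : ℝ)) * 0 + ((L : ℝ) * L) * b0) ≤
        (ρ ^ 2 + 1) / 2 * η * t ^ 2 * ((n0 : ℝ) * ((L : ℝ) + 1) * ((L : ℝ) + 1)) := by
      have h1 : ((L : ℝ) * L) * (a0 + b0) ≤ ((L : ℝ) + 1) * ((L : ℝ) + 1) * (a0 + b0) := by
        apply mul_le_mul_of_nonneg_right _ (by positivity)
        nlinarith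
      have h2 : ((L : ℝ) + 1) * ((L : ℝ) + 1) * (a0 + b0) ≤
          ((L : ℝ) + 1) * ((L : ℝ) + 1) * (η * (ρ ^ 2 * t ^ 2) * n0) :=
        mul_le_mul_of_nonneg_left hab0' (by positivity)
      have h3 : (n0 : ℝ) * (L : ℝ) * (2 * t'' ^ 2) ≤ (n0 : ℝ) * ((L : ℝ) + 1) * (2 * t'' ^ 2) := by
        apply mul_le_mul_of_nonneg_right _ (by positivity)
        nlinarith
      have h4 : (n0 : ℝ) * ((L : ℝ) + 1) * (2 * t' ^ 2) + (n0 : ℝ) * ((L : ℝ) + 1) * (2 * t'' ^ 2) ≤
          (n0 : ℝ) * ((L : ℝ) + 1) * ((L + 1) * ((1 - ρ ^ 2) * η / 2)) * t ^ 2 := by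
        have : 2 * t' ^ 2 + 2 * t'' ^ 2 = (2 / s ^ 2 + 2 * ρ ^ 2) * t ^ 2 := by
          rw [ht'2, ht''2]; ring
        calc _ = (n0 : ℝ) * ((L : ℝ) + 1) * (2 * t' ^ 2 + 2 * t'' ^ 2) := by ring
          _ = (n0 : ℝ) * ((L : ℝ) + 1) * (2 / s ^ 2 + 2 * ρ ^ 2) * t ^ 2 := by rw [this]; ring
          _ ≤ _ := by
            apply mul_le_mul_of_nonneg_right _ ht2
            apply mul_le_mul_of_nonneg_left hLgap.le (by positivity)
      nlinarith
    linarith

/-- The conclusion of the chain. -/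
theorem TT_all {P Q P' Q' s s' : ℝ} (hs : 0 < s) (hs' : 0 < s') (hlt : s' < s)
    (hk : ∀ i, Y i - Q = s * (X i - P) ∨ Y i - Q = -(s * (X i - P)))
    (hj : ∀ i, Y i - Q' = s' * (X i - P') ∨ Y i - Q' = -(s' * (X i - P')))
    {η : ℝ} (hη : 0 < η) : TT X Y P η := by
  set κ := ((s' / s) ^ 2 + 1) / 2 with hκ
  have hρ0 : 0 < s' / s := div_pos hs' hs
  have hρ1 : s' / s < 1 := (div_lt_one hs).2 hlt
  have hκ0 : 0 < κ := by positivity
  have hκ1 : κ < 1 := by
    have : (s' / s) ^ 2 < 1 := by nlinarith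
    rw [hκ]; linarith
  have hall : ∀ n : ℕ, TT X Y P (κ ^ n * 2) := by
    intro n
    induction n with
    | zero => simpa using (TT_two (X := X) (Y := Y) P)
    | succ n ih =>
      have := TT_step hs hs' hlt hk hj (η := κ ^ n * 2) (by positivity) ih
      rw [← hκ] at this
      rwa [pow_succ, show κ ^ n * κ * 2 = κ * (κ ^ n * 2) by ring]
  obtain ⟨n, hn⟩ := exists_pow_lt_of_lt_one (show 0 < η / 2 by positivity) hκ1
  intro t
  obtain ⟨c, k, B, a, b, h1, h2, h3, h4, h5, h6, h7⟩ := hall n t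
  refine ⟨c, k, B, a, b, h1, h2, h3, h4, h5, h6, h7.trans ?_⟩
  have hk0 : (0 : ℝ) ≤ k := Nat.cast_nonneg _
  have ht : 0 ≤ t ^ 2 := sq_nonneg t
  have : κ ^ n * 2 ≤ η := by linarith
  have : κ ^ n * 2 * t ^ 2 ≤ η * t ^ 2 := mul_le_mul_of_nonneg_right this ht
  exact mul_le_mul_of_nonneg_right this hk0

end Chain

/-- The abstract form of the final families. -/
theorem exists_PN_of_data {X Y : Col} {P Q P' Q' s s' : ℝ} (hs : 0 < s) (hs' : 0 < s') (hlt : s' < s)
    (hk : ∀ i, Y i - Q = s * (X i - P) ∨ Y i - Q = -(s * (X i - P)))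
    (hj : ∀ i, Y i - Q' = s' * (X i - P') ∨ Y i - Q' = -(s' * (X i - P')))
    (σ : Equiv.Perm (Fin 4)) (hX : ∀ i, X (σ i) = -Y i) (hY : ∀ i, Y (σ i) = -X i)
    (d : Fin 4 → Fin 4 → ℝ) (hd : ∀ i j, (X i - X j) ^ 2 + (Y i - Y j) ^ 2 = 2 * d i j)
    (L : ℕ) (hL : 1 ≤ L) :
    ∃ (Pm Nm : Multiset (Fin 4 → ℝ)) (lam : ℝ), 0 < lam ∧
      (∀ i, Pm.map (fun f => f i) = Nm.map (fun f => f i)) ∧
      (∀ i j, (Nm.map fun f => (f i - f j) ^ 2).sum = lam / L * d i j) ∧
      (∀ i j, (Pm.map fun f => (f i - f j) ^ 2).sum = (lam / L + lam) * d i j) := by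
  have hL0 : (0 : ℝ) < L := by exact_mod_cast hL
  have hL1 : (1 : ℝ) ≤ L := by exact_mod_cast hL
  obtain ⟨c, n, B, a, b, hc, hn, hE, hG, ha, hb, hab⟩ :=
    TT_all (X := X) (Y := Y) hs hs' hlt hk hj (η := 1 / (L : ℝ)) (by positivity) 1
  have hn0 : (0 : ℝ) < n := by exact_mod_cast hn
  have hab' : a + b ≤ (n : ℝ) / L := by
    have : (1 / (L : ℝ)) * (1 : ℝ) ^ 2 * n = (n : ℝ) / L := by ring
    linarith
  have hnL : (n : ℝ) / L ≤ n := div_le_self hn0.le hL1
  set lam : ℝ := 4 * n - 2 * (a + b) with hlam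
  have hlam0 : 0 < lam := by rw [hlam]; linarith
  have hrr : 0 ≤ lam / (2 * L) - (a + b) := by
    have h1 : a + b ≤ lam / (2 * L) := by
      rw [le_div_iff₀ (by positivity)]
      have h2 : (a + b) * L ≤ n := by
        rw [le_div_iff₀ hL0] at hab'
        exact hab'
      have h3 : (a + b) * L + (a + b) ≤ n + n := by
        have : a + b ≤ n := hab'.trans hnL
        linarith
      rw [hlam]
      nlinarith
    linarith
  set r : ℝ := Real.sqrt (lam / (2 * L) - (a + b)) with hr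
  have hr2 : r ^ 2 = lam / (2 * L) - (a + b) := Real.sq_sqrt hrr
  set sw : Col → Col := fun f i => f (σ i) with hsw
  set P0 := ms (c * pr 1 X P) with hP0
  set N0 := ms B with hN0
  set Z : Multiset Col := {fun i => r * X i, fun i => r * Y i} with hZ
  have hZD : ∀ i j, (Z.map fun f => (f i - f j) ^ 2).sum =
      r ^ 2 * ((X i - X j) ^ 2 + (Y i - Y j) ^ 2) := by
    intro i j
    simp only [hZ, Multiset.insert_eq_cons, Multiset.map_cons, Multiset.map_singleton,
      Multiset.sum_cons, Multiset.sum_singleton]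
    ring
  have hswD : ∀ (M : Multiset Col) i j, ((M.map sw).map fun f => (f i - f j) ^ 2).sum =
      (M.map fun f => (f (σ i) - f (σ j)) ^ 2).sum := by
    intro M i j
    rw [Multiset.map_map]
    rfl
  have hXs : ∀ i j, (X (σ i) - X (σ j)) ^ 2 = (Y i - Y j) ^ 2 := by
    intro i j; rw [hX, hX]; ring
  have hYs : ∀ i j, (Y (σ i) - Y (σ j)) ^ 2 = (X i - X j) ^ 2 := by
    intro i j; rw [hY, hY]; ring
  have hDP0 : ∀ i j, (P0.map fun f => (f i - f j) ^ 2).sum = 2 * n * (X i - X j) ^ 2 := by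
    intro i j
    have := hc (pr 1 X P) i j
    rw [pr_D] at this
    change D i j (c * pr 1 X P) = _
    rw [this]
    ring
  have hDN0 : ∀ i j, (N0.map fun f => (f i - f j) ^ 2).sum =
      a * (X i - X j) ^ 2 + b * (Y i - Y j) ^ 2 := hG
  refine ⟨P0 + P0.map sw + Z, N0 + N0.map sw + Z, lam, hlam0, ?_, ?_, ?_⟩
  · intro i
    simp only [Multiset.map_add, Multiset.map_map]
    have h1 := ms_eq_of_Eqv hE i
    have h2 := ms_eq_of_Eqv hE (σ i)
    congr 1
    congr 1
  · intro i j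
    rw [Multiset.map_add, Multiset.map_add, Multiset.sum_add, Multiset.sum_add, hDN0, hswD, hDN0,
      hZD, hXs, hYs, hd i j]
    have h1 : (X i - X j) ^ 2 + (Y i - Y j) ^ 2 = 2 * d i j := hd i j
    have h2 : lam / L = 2 * (r ^ 2 + (a + b)) := by
      rw [hr2]; field_simp; ring
    rw [h2]
    have : a * (X i - X j) ^ 2 + b * (Y i - Y j) ^ 2 + (a * (Y i - Y j) ^ 2 + b * (X i - X j) ^ 2) =
        (a + b) * ((X i - X j) ^ 2 + (Y i - Y j) ^ 2) := by ring
    rw [this, h1]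
    ring
  · intro i j
    rw [Multiset.map_add, Multiset.map_add, Multiset.sum_add, Multiset.sum_add, hDP0, hswD, hDP0,
      hZD, hXs, hd i j]
    have h1 : (X i - X j) ^ 2 + (Y i - Y j) ^ 2 = 2 * d i j := hd i j
    have h2 : lam / L = 2 * (r ^ 2 + (a + b)) := by
      rw [hr2]; field_simp; ring
    rw [h2]
    have : 2 * (n : ℝ) * (X i - X j) ^ 2 + 2 * n * (Y i - Y j) ^ 2 =
        2 * n * ((X i - X j) ^ 2 + (Y i - Y j) ^ 2) := by ring
    rw [this, h1, hlam]
    ring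

/-! ### The kite -/

/-- The height parameter `e = √2 - 1`. -/
noncomputable def ke : ℝ := Real.sqrt 2 - 1
/-- The half width `h = √(1 - e²)`. -/
noncomputable def kh : ℝ := Real.sqrt (1 - ke ^ 2)
/-- First coordinates of the kite `(-h, e), (h, e), (0, -1), (0, 1)`. -/
noncomputable def kx : Fin 4 → ℝ := ![-kh, kh, 0, 0]
/-- Second coordinates of the kite `(-h, e), (h, e), (0, -1), (0, 1)`. -/
noncomputable def ky : Fin 4 → ℝ := ![ke, ke, -1, 1]
/-- Squared distances of the kite. -/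
noncomputable def kd2 (i j : Fin 4) : ℝ := (kx i - kx j) ^ 2 + (ky i - ky j) ^ 2

lemma ke_pos : 0 < ke := by
  have : (1 : ℝ) < Real.sqrt 2 := by
    rw [show (1 : ℝ) = Real.sqrt 1 by simp]
    exact Real.sqrt_lt_sqrt (by norm_num) (by norm_num)
  unfold ke; linarith

lemma ke_lt_one : ke < 1 := by
  have : Real.sqrt 2 < 2 := by
    rw [show (2 : ℝ) = Real.sqrt 4 by
      rw [show (4 : ℝ) = 2 ^ 2 by norm_num]; simp]
    exact Real.sqrt_lt_sqrt (by norm_num) (by norm_num)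
  unfold ke; linarith

lemma kh_sq : kh ^ 2 = 1 - ke ^ 2 := by
  apply Real.sq_sqrt
  have := ke_pos
  have := ke_lt_one
  nlinarith

lemma kh_pos : 0 < kh := by
  apply Real.sqrt_pos.2
  have := ke_pos
  have := ke_lt_one
  nlinarith

/-- The final families for the kite. -/
theorem exists_PN (L : ℕ) (hL : 1 ≤ L) :
    ∃ (Pm Nm : Multiset (Fin 4 → ℝ)) (lam : ℝ), 0 < lam ∧
      (∀ i, Pm.map (fun f => f i) = Nm.map (fun f => f i)) ∧
      (∀ i j, (Nm.map fun f => (f i - f j) ^ 2).sum = lam / L * kd2 i j) ∧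
      (∀ i j, (Pm.map fun f => (f i - f j) ^ 2).sum = (lam / L + lam) * kd2 i j) := by
  have he := ke_pos
  have he1 := ke_lt_one
  have hh := kh_pos
  have hh2 := kh_sq
  have hden : 0 < 1 + ke - kh := by nlinarith
  set s : ℝ := (1 + kh + ke) / (1 + ke - kh) with hs
  have hs1 : 1 < s := by
    rw [hs, lt_div_iff₀ hden]; linarith
  have hs0 : 0 < s := by linarith
  have hse : s * (1 + ke - kh) = 1 + kh + ke := by
    rw [hs]; field_simp
  have hse2 : s * (ke + kh - 1) = 1 + kh - ke := by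
    have h1 : (1 + kh + ke) * (ke + kh - 1) = (1 + ke - kh) * (1 + kh - ke) := by nlinarith
    have h2 : (1 + ke - kh) * (s * (ke + kh - 1)) = (1 + ke - kh) * (1 + kh - ke) := by
      rw [← h1, ← hse]; ring
    exact mul_left_cancel₀ hden.ne' h2
  have hinv : s * s⁻¹ = 1 := mul_inv_cancel₀ hs0.ne'
  refine exists_PN_of_data (X := fun i => kx i + ky i) (Y := fun i => kx i - ky i)
    (P := 1 / s) (Q := -s) (P' := ke) (Q' := -ke) (s := s) (s' := 1) hs0 one_pos hs1 ?_ ?_
    (Equiv.swap 0 1) ?_ ?_ kd2 ?_ L hL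
  · intro i
    fin_cases i
    · right
      simp [kx, ky]
      rw [mul_sub, hinv]
      linarith
    · left
      simp [kx, ky]
      rw [mul_sub, hinv]
      linarith
    · right
      simp [kx, ky]
      rw [mul_sub, hinv]
      linarith
    · left
      simp [kx, ky]
      rw [mul_sub, hinv]
      linarith
  · intro i
    fin_cases i
    · left; simp [kx, ky]
    · left; simp [kx, ky]
    · right; simp [kx, ky]; ring
    · right; simp [kx, ky]; ring
  · intro i
    fin_cases i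
    · simp [kx, ky, Equiv.swap_apply_left]; ring
    · simp [kx, ky, Equiv.swap_apply_right]; ring
    · simp [kx, ky, Equiv.swap_apply_of_ne_of_ne]
    · simp [kx, ky, Equiv.swap_apply_of_ne_of_ne]
  · intro i
    fin_cases i
    · simp [kx, ky, Equiv.swap_apply_left]; ring
    · simp [kx, ky, Equiv.swap_apply_right]; ring
    · simp [kx, ky, Equiv.swap_apply_of_ne_of_ne]
    · simp [kx, ky, Equiv.swap_apply_of_ne_of_ne]
  · intro i j
    simp only [kd2]
    ring

end Vale.Agent.Lib.P058K.PNC
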