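import Mathlib

/-!
# Proper separation of a point from a convex cone in finite dimensions
-/

namespace Vale.Agent.Lib.P058K

open Set

/-- Proper separation inside a subspace spanned by the cone. -/
theorem proper_sep_spanning {E : Type*} [NormedAddCommGroup E] [NormedSpace ℝ E]
    [FiniteDimensional ℝ E] (C : Set E) (h0 : (0 : E) ∈ C)
    (hadd : ∀ x ∈ C, ∀ y ∈ C, x + y ∈ C) (hsmul : ∀ c : ℝ, 0 ≤ c → ∀ x ∈ C, c • x ∈ C)
    (hspan : Submodule.span ℝ C = ⊤) (τ : E) (hτ : τ ∉ C) :
    ∃ φ : E →ₗ[ℝ] ℝ, (∀ x ∈ C, 0 ≤ φ x) ∧ φ τ ≤ 0 ∧ (φ τ ≠ 0 ∨ ∃ z ∈ C, φ z ≠ 0) := by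
  have hconv : Convex ℝ C := by
    intro x hx y hy a b ha hb _
    exact hadd _ (hsmul a ha x hx) _ (hsmul b hb y hy)
  have haff : affineSpan ℝ C = ⊤ := by
    rw [AffineSubspace.affineSpan_eq_top_iff_vectorSpan_eq_top_of_nonempty ℝ E E ⟨0, h0⟩]
    rw [vectorSpan_eq_span_vsub_set_right ℝ h0]
    simpa using hspan
  have hint : (interior C).Nonempty := hconv.interior_nonempty_iff_affineSpan_eq_top.mpr haff
  have hdisj : Disjoint (interior C) ({τ} : Set E) := by
    rw [Set.disjoint_singleton_right]
    exact fun h => hτ (interior_subset h)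
  obtain ⟨f, u, hf1, hf2⟩ := geometric_hahn_banach_open hconv.interior isOpen_interior
    (convex_singleton τ) hdisj
  have hfτ : u ≤ f τ := hf2 τ rfl
  -- the interior is closed under positive scaling
  have hsc : ∀ c : ℝ, 0 < c → ∀ a ∈ interior C, c • a ∈ interior C := by
    intro c hc a ha
    have himg : (fun x => c • x) '' interior C ⊆ C := by
      rintro _ ⟨x, hx, rfl⟩
      exact hsmul c hc.le x (interior_subset hx)
    have hopen : IsOpen ((fun x => c • x) '' interior C) :=
      (Homeomorph.smulOfNeZero c hc.ne').isOpenMap _ isOpen_interior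
    exact interior_maximal himg hopen ⟨a, ha, rfl⟩
  -- `f ≤ 0` on the interior
  have hle : ∀ a ∈ interior C, f a ≤ 0 := by
    intro a ha
    by_contra hpos
    push Not at hpos
    have hc : 0 < (u + 1 + |u|) / f a := by
      have : 0 < u + 1 + |u| := by
        have := neg_abs_le u
        linarith
      positivity
    have h1 := hf1 _ (hsc _ hc a ha)
    rw [map_smul, smul_eq_mul, div_mul_cancel₀ _ hpos.ne'] at h1
    have := le_abs_self u
    have := neg_abs_le u
    linarith
  -- `f` is nonpositive on the cone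
  have hcl : C ⊆ closure (interior C) := by
    rw [hconv.closure_interior_eq_closure_of_nonempty_interior hint]
    exact subset_closure
  have hleC : ∀ x ∈ C, f x ≤ 0 := by
    intro x hx
    have : x ∈ {y | f y ≤ 0} :=
      (isClosed_le f.continuous continuous_const).closure_subset_iff.mpr hle (hcl hx)
    exact this
  -- `0 ≤ f τ`
  have hτ0 : 0 ≤ f τ := by
    obtain ⟨a, ha⟩ := hint
    by_contra hneg
    push Not at hneg
    -- scale `a` towards `0`
    have huneg : u < 0 := lt_of_le_of_lt hfτ hneg
    by_cases hfa : f a = 0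
    · have := hf1 a ha
      rw [hfa] at this
      linarith
    · have hfa' : f a < 0 := lt_of_le_of_ne (hle a ha) hfa
      have hc : 0 < (u / 2) / f a := div_pos_of_neg_of_neg (by linarith) hfa'
      have h1 := hf1 _ (hsc _ hc a ha)
      rw [map_smul, smul_eq_mul, div_mul_cancel₀ _ hfa] at h1
      linarith
  refine ⟨-f.toLinearMap, ?_, ?_, ?_⟩
  · intro x hx
    simpa using hleC x hx
  · simpa using hτ0
  · obtain ⟨a, ha⟩ := hint
    by_cases hτz : f τ = 0
    · right
      refine ⟨a, interior_subset ha, ?_⟩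
      have := hf1 a ha
      have h2 : f a < 0 := by linarith
      simpa using h2.ne
    · left
      simpa using hτz

/-- **Proper separation.**  A point outside a convex cone of a finite dimensional real normed space
is properly separated from it. -/
theorem proper_separation {E : Type*} [NormedAddCommGroup E] [NormedSpace ℝ E]
    [FiniteDimensional ℝ E] (C : Set E) (h0 : (0 : E) ∈ C)
    (hadd : ∀ x ∈ C, ∀ y ∈ C, x + y ∈ C) (hsmul : ∀ c : ℝ, 0 ≤ c → ∀ x ∈ C, c • x ∈ C)
    (τ : E) (hτ : τ ∉ C) :
    ∃ φ : E →ₗ[ℝ] ℝ, (∀ x ∈ C, 0 ≤ φ x) ∧ φ τ ≤ 0 ∧ (φ τ ≠ 0 ∨ ∃ z ∈ C, φ z ≠ 0) := by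
  classical
  let W : Submodule ℝ E := Submodule.span ℝ C
  by_cases hτW : τ ∈ W
  · -- inside the span
    let C' : Set W := {x | (x : E) ∈ C}
    have hspan : Submodule.span ℝ C' = ⊤ := by
      have hsub : C ⊆ (W : Set E) := Submodule.subset_span
      have himg : (Submodule.span ℝ C').map W.subtype = W := by
        rw [Submodule.map_span]
        congr 1
        ext x
        simp only [mem_image, Submodule.subtype_apply, C']
        constructor
        · rintro ⟨y, hy, rfl⟩
          exact hy
        · intro hx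
          exact ⟨⟨x, hsub hx⟩, hx, rfl⟩
      apply Submodule.map_injective_of_injective W.injective_subtype
      rw [himg, Submodule.map_top, Submodule.range_subtype]
    obtain ⟨φ, h1, h2, h3⟩ := proper_sep_spanning C' (by simpa [C'] using h0)
      (fun x hx y hy => by simpa [C'] using hadd _ hx _ hy)
      (fun c hc x hx => by simpa [C'] using hsmul c hc _ hx) hspan ⟨τ, hτW⟩ hτ
    obtain ⟨g, hg⟩ := LinearMap.exists_extend φ
    have hgφ : ∀ x : W, g x = φ x := fun x => by
      rw [← hg]
      rfl
    refine ⟨g, ?_, ?_, ?_⟩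
    · intro x hx
      have := h1 ⟨x, Submodule.subset_span hx⟩ hx
      rwa [← hgφ] at this
    · have := h2
      rwa [← hgφ] at this
    · rcases h3 with h | ⟨z, hz, hne⟩
      · left
        rwa [← hgφ] at h
      · right
        refine ⟨z, hz, ?_⟩
        rwa [← hgφ] at hne
  · -- outside the span
    obtain ⟨f, hf1, hf2⟩ := Submodule.exists_le_ker_of_notMem hτW
    refine ⟨if f τ ≤ 0 then f else -f, ?_, ?_, Or.inl ?_⟩
    · intro x hx
      have : f x = 0 := hf2 (Submodule.subset_span hx)
      split_ifs <;> simp [this]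
    · split_ifs with h
      · exact h
      · simp only [LinearMap.neg_apply]
        push Not at h
        linarith
    · split_ifs
      · exact hf1
      · simpa using hf1

end Vale.Agent.Lib.P058K
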