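import Mathlib

/-!
Hahn-Banach over the rationals with real values: a sublinear functional `p` on a
rational vector space dominates a rational-linear map into the reals.
-/

namespace Vale.Agent.Lib.P058K

open Submodule

variable {V : Type*} [AddCommGroup V] [Module ℚ V]

theorem rat_hb_step (p : V → ℝ)
    (hadd : ∀ u v, p (u + v) ≤ p u + p v)
    (hsmul : ∀ q : ℚ, 0 < q → ∀ v, p (q • v) = (q : ℝ) * p v)
    (f : V →ₗ.[ℚ] ℝ) (hf : ∀ x : f.domain, f x ≤ p x) (hdom : f.domain ≠ ⊤) :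
    ∃ g, f < g ∧ ∀ x : g.domain, g x ≤ p x := by
  obtain ⟨y, -, hy⟩ : ∃ y ∈ (⊤ : Submodule ℚ V), y ∉ f.domain :=
    SetLike.exists_of_lt (lt_top_iff_ne_top.2 hdom)
  obtain ⟨c, hc1, hc2⟩ :
      ∃ c : ℝ, (∀ x : f.domain, f x - p ((x : V) - y) ≤ c) ∧
        ∀ x : f.domain, c ≤ p ((x : V) + y) - f x := by
    set Sn : Set ℝ := Set.range fun x : f.domain => f x - p ((x : V) - y) with hSn
    set Sp : Set ℝ := Set.range fun x : f.domain => p ((x : V) + y) - f x with hSp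
    have hne1 : Sn.Nonempty := ⟨_, ⟨0, rfl⟩⟩
    have hne2 : Sp.Nonempty := ⟨_, ⟨0, rfl⟩⟩
    have hle : ∀ a ∈ Sn, ∀ b ∈ Sp, a ≤ b := by
      rintro a ⟨x1, rfl⟩ b ⟨x2, rfl⟩
      have h1 := hf (x1 + x2)
      have h2 := hadd ((x1 : V) - y) ((x2 : V) + y)
      have h3 : ((x1 : V) - y) + ((x2 : V) + y) = ((x1 + x2 : f.domain) : V) := by
        rw [Submodule.coe_add]; abel
      rw [h3] at h2
      have h4 : f (x1 + x2) = f x1 + f x2 := map_add f.toFun _ _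
      simp only
      linarith
    obtain ⟨c, hc1, hc2⟩ := exists_between_of_forall_le hne1 hne2 hle
    exact ⟨c, fun x => hc1 ⟨x, rfl⟩, fun x => hc2 ⟨x, rfl⟩⟩
  refine ⟨f.supSpanSingleton y c hy, ?_, ?_⟩
  · refine lt_iff_le_not_ge.2 ⟨f.left_le_sup _ _, fun H => ?_⟩
    replace H := LinearPMap.domain_mono.monotone H
    rw [LinearPMap.domain_supSpanSingleton, sup_le_iff, span_le, Set.singleton_subset_iff] at H
    exact hy H.2
  · rintro ⟨z, hz⟩
    rcases mem_sup.1 hz with ⟨x, hx, y', hy', rfl⟩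
    rcases mem_span_singleton.1 hy' with ⟨r, rfl⟩
    rw [LinearPMap.supSpanSingleton_apply_mk _ _ _ _ _ hx]
    simp only [RingHom.id_apply]
    rcases lt_trichotomy r 0 with hr | hr | hr
    · -- r < 0 : write r = -s with s > 0
      have hs : 0 < -r := neg_pos.2 hr
      have hsinv : 0 < (-r)⁻¹ := inv_pos.2 hs
      set x1 : f.domain := (-r)⁻¹ • ⟨x, hx⟩ with hx1
      have key := hc1 x1
      have hx1v : ((x1 : f.domain) : V) = (-r)⁻¹ • x := rfl
      have hfx1 : f x1 = ((-r)⁻¹ : ℚ) • f ⟨x, hx⟩ := by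
        rw [hx1]; exact map_smul f.toFun _ _
      have hscale : (-r) • ((x1 : V) - y) = x + r • y := by
        rw [hx1v, smul_sub, smul_smul, mul_inv_cancel₀ hs.ne', one_smul, neg_smul, sub_neg_eq_add]
      have hp := hsmul (-r) hs ((x1 : V) - y)
      rw [hscale] at hp
      rw [hp]
      have hrR : (0 : ℝ) < ((-r : ℚ) : ℝ) := by exact_mod_cast hs
      have hfx2 : f ⟨x, hx⟩ = ((-r : ℚ) : ℝ) * f x1 := by
        rw [hfx1, Rat.smul_def, ← mul_assoc, ← Rat.cast_mul, mul_inv_cancel₀ hs.ne']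
        simp
      rw [hfx2, Rat.smul_def]
      have hcast : ((-r : ℚ) : ℝ) = -(r : ℝ) := by push_cast; ring
      have := mul_le_mul_of_nonneg_left key hrR.le
      rw [hcast] at this ⊢
      nlinarith
    · subst hr
      simp only [zero_smul, add_zero]
      exact hf ⟨x, hx⟩
    · have hsinv : 0 < r⁻¹ := inv_pos.2 hr
      set x1 : f.domain := r⁻¹ • ⟨x, hx⟩ with hx1
      have key := hc2 x1
      have hx1v : ((x1 : f.domain) : V) = r⁻¹ • x := rfl
      have hfx1 : f x1 = (r⁻¹ : ℚ) • f ⟨x, hx⟩ := by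
        rw [hx1]; exact map_smul f.toFun _ _
      have hscale : r • ((x1 : V) + y) = x + r • y := by
        rw [hx1v, smul_add, smul_smul, mul_inv_cancel₀ hr.ne', one_smul]
      have hp := hsmul r hr ((x1 : V) + y)
      rw [hscale] at hp
      rw [hp]
      have hrR : (0 : ℝ) < (r : ℝ) := by exact_mod_cast hr
      have hfx2 : f ⟨x, hx⟩ = (r : ℝ) * f x1 := by
        rw [hfx1, Rat.smul_def, ← mul_assoc, ← Rat.cast_mul, mul_inv_cancel₀ hr.ne']
        simp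
      rw [hfx2, Rat.smul_def]
      have := mul_le_mul_of_nonneg_left key hrR.le
      nlinarith

theorem rat_hahn_banach (p : V → ℝ)
    (hadd : ∀ u v, p (u + v) ≤ p u + p v)
    (hsmul : ∀ q : ℚ, 0 < q → ∀ v, p (q • v) = (q : ℝ) * p v) :
    ∃ ψ : V →ₗ[ℚ] ℝ, ∀ v, ψ v ≤ p v := by
  have hp0 : p 0 = 0 := by
    have := hsmul 2 (by norm_num) 0
    rw [smul_zero] at this
    push_cast at this
    linarith
  set S : Set (V →ₗ.[ℚ] ℝ) := {f | ∀ x : f.domain, f x ≤ p x} with hS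
  have hSc : ∀ c, c ⊆ S → IsChain (· ≤ ·) c → ∀ y ∈ c, ∃ ub ∈ S, ∀ z ∈ c, z ≤ ub := by
    intro c hcs c_chain y hy
    have cne : c.Nonempty := ⟨y, hy⟩
    have hcd : DirectedOn (· ≤ ·) c := c_chain.directedOn
    refine ⟨LinearPMap.sSup c hcd, ?_, fun _ ↦ LinearPMap.le_sSup hcd⟩
    rintro ⟨x, hx⟩
    have hdir : DirectedOn (· ≤ ·) (LinearPMap.domain '' c) :=
      directedOn_image.2 (hcd.mono LinearPMap.domain_mono.monotone)
    rcases (mem_sSup_of_directed (cne.image _) hdir).1 hx with ⟨_, ⟨f, hfc, rfl⟩, hfx⟩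
    have hle : f ≤ LinearPMap.sSup c hcd := LinearPMap.le_sSup _ hfc
    have h1 := hcs hfc ⟨x, hfx⟩
    have h2 : f ⟨x, hfx⟩ = (LinearPMap.sSup c hcd) ⟨x, hx⟩ := hle.2 rfl
    rw [h2] at h1
    exact h1
  have h0 : (⊥ : V →ₗ.[ℚ] ℝ) ∈ S := by
    rintro ⟨x, hx⟩
    have hx0 : x = 0 := (Submodule.mem_bot ℚ).1 hx
    subst hx0
    have : (⊥ : V →ₗ.[ℚ] ℝ) ⟨0, hx⟩ = 0 := map_zero (⊥ : V →ₗ.[ℚ] ℝ).toFun
    rw [this, hp0]
  obtain ⟨q, -, hqs, hq⟩ := zorn_le_nonempty₀ S hSc ⊥ h0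
  have hdom : q.domain = ⊤ := by
    by_contra hne
    rcases rat_hb_step p hadd hsmul q hqs hne with ⟨r, hqr, hr⟩
    exact hqr.ne' ((hq hr hqr.le).antisymm hqr.le)
  rcases q with ⟨g_dom, g⟩
  obtain rfl : g_dom = ⊤ := hdom
  refine ⟨g.comp (LinearMap.id.codRestrict ⊤ fun _ ↦ trivial), fun v => ?_⟩
  exact hqs ⟨v, trivial⟩

end Vale.Agent.Lib.P058K
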