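import Mathlib

/-!
# Signed polynomial arrays for rational points of a sphere: the truncated logarithm
-/

namespace Vale.Agent.Lib.P058K.RS

open Polynomial Finset

noncomputable section

/-- The truncated logarithm at `1`. -/
def tlog (N : ℕ) : ℚ[X] := ∑ j ∈ range N, C ((-1 : ℚ) ^ j / ((j : ℚ) + 1)) * (X - 1) ^ (j + 1)

theorem tlog_eval_one (N : ℕ) : (tlog N).eval 1 = 0 := by
  simp [tlog, eval_finsetSum]

theorem tlog_derivative (N : ℕ) : derivative (tlog N) = ∑ j ∈ range N, (1 - X : ℚ[X]) ^ j := by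
  unfold tlog
  rw [derivative_sum]
  refine sum_congr rfl fun j _ => ?_
  rw [derivative_C_mul, derivative_pow]
  have hj : ((j : ℚ) + 1) ≠ 0 := by positivity
  have e1 : derivative (X - 1 : ℚ[X]) = 1 := by simp
  rw [e1, mul_one]
  have e2 : (((j + 1 : ℕ) : ℚ)) = (j : ℚ) + 1 := by
    push_cast
    ring
  simp only [Nat.add_sub_cancel]
  rw [← mul_assoc, ← C_mul, e2, div_mul_cancel₀ _ hj]
  have e3 : (1 - X : ℚ[X]) = C (-1) * (X - 1) := by
    simp
  rw [e3, mul_pow, ← C_pow]

theorem tlog_deriv_eval_one (N : ℕ) (hN : 1 ≤ N) : (derivative (tlog N)).eval 1 = 1 := by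
  rw [tlog_derivative, eval_finsetSum]
  obtain ⟨M, rfl⟩ : ∃ M, N = M + 1 := ⟨N - 1, by omega⟩
  rw [sum_range_succ']
  simp

theorem X_mul_tlog_deriv (N : ℕ) : X * derivative (tlog N) = 1 - (1 - X) ^ N := by
  rw [tlog_derivative]
  have := geom_sum_mul (1 - X : ℚ[X]) N
  linear_combination (-1 : ℚ[X]) * this

/-- A polynomial with a root at `1` whose derivative has a zero of order `N` at `1` has a zero of
order `N + 1` at `1`. -/
theorem dvd_of_derivative_dvd {R : ℚ[X]} {N : ℕ} (h1 : R.eval 1 = 0)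
    (h : (X - 1 : ℚ[X]) ^ N ∣ derivative R) : (X - 1 : ℚ[X]) ^ (N + 1) ∣ R := by
  by_cases hR : R = 0
  · simp [hR]
  have hroot : R.IsRoot 1 := h1
  have hX : (X - 1 : ℚ[X]) = X - C 1 := by simp
  by_cases hd : derivative R = 0
  · exfalso
    have hdeg := derivative_eq_zero.mp hd
    obtain ⟨c, hc⟩ : ∃ c, R = C c := ⟨R.coeff 0, eq_C_of_natDegree_eq_zero hdeg⟩
    rw [hc, eval_C] at h1
    exact hR (by rw [hc, h1, C_0])
  · rw [hX] at h ⊢
    have h2 := (le_rootMultiplicity_iff hd).mpr h
    rw [derivative_rootMultiplicity_of_root hroot] at h2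
    have h3 : 0 < rootMultiplicity 1 R := (rootMultiplicity_pos hR).mpr hroot
    exact (le_rootMultiplicity_iff hR).mp (by omega)

/-- The additivity of the truncated logarithm modulo a power of `X - 1`. -/
theorem tlog_comp_dvd (N e : ℕ) :
    (X - 1 : ℚ[X]) ^ (N + 1) ∣ (tlog N).comp (X ^ e) - C (e : ℚ) * tlog N := by
  apply dvd_of_derivative_dvd
  · simp [eval_comp, tlog_eval_one]
  · -- the derivative, multiplied by `X`
    have hkey : X * derivative ((tlog N).comp (X ^ e) - C (e : ℚ) * tlog N) =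
        C (e : ℚ) * ((1 - X) ^ N - (1 - X ^ e) ^ N) := by
      rw [derivative_sub, derivative_comp, derivative_C_mul]
      have h1 := congrArg (fun p : ℚ[X] => p.comp (X ^ e)) (X_mul_tlog_deriv N)
      simp only [mul_comp, X_comp, sub_comp, one_comp, pow_comp] at h1
      have h2 := X_mul_tlog_deriv N
      have h3 : derivative ((X : ℚ[X]) ^ e) = C (e : ℚ) * X ^ (e - 1) := by
        rw [derivative_X_pow]
      rw [h3]
      have h4 : X * (C (e : ℚ) * X ^ (e - 1)) = C (e : ℚ) * X ^ e := by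
        rcases e with _ | e
        · simp
        · simp only [Nat.add_sub_cancel, pow_succ]
          try ring
      linear_combination (C (e : ℚ)) * h1 - (C (e : ℚ)) * h2 +
        (derivative (tlog N)).comp (X ^ e) * h4
    have hd : (X - 1 : ℚ[X]) ^ N ∣ X * derivative ((tlog N).comp (X ^ e) - C (e : ℚ) * tlog N) := by
      rw [hkey]
      apply Dvd.dvd.mul_left
      apply dvd_sub
      · have : (1 - X : ℚ[X]) = -(X - 1) := by ring
        rw [this, neg_pow]
        exact Dvd.intro_left _ rfl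
      · apply pow_dvd_pow_of_dvd
        have : (X - 1 : ℚ[X]) ∣ X ^ e - 1 := by
          simpa using sub_dvd_pow_sub_pow (X : ℚ[X]) 1 e
        have h5 : (1 - X ^ e : ℚ[X]) = -(X ^ e - 1) := by ring
        rw [h5]
        exact (dvd_neg).mpr this
    have hcop : IsCoprime ((X - 1 : ℚ[X]) ^ N) X := by
      apply IsCoprime.pow_left
      exact ⟨-1, 1, by ring⟩
    exact hcop.dvd_of_dvd_mul_left hd

end

end Vale.Agent.Lib.P058K.RS
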