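import Mathlib
import Vale.Agent.Lib.P058K.RationalSphereA
import Vale.Agent.Lib.P058S.SignedRamsey

/-!
# Signed balanced arrays from polynomials, for rational points of a sphere
-/

set_option linter.unusedVariables false
set_option linter.unusedSectionVars false

namespace Vale.Agent.Lib.P058K.RS

open Polynomial Finset
open Vale.Agent.Lib.P058 Vale.Agent.Lib.P058S

noncomputable section

/-- The variables: `none` is the translation variable, `some p` belongs to the coordinate `p`. -/
abbrev MV (d : ℕ) := MvPolynomial (Option (Fin d)) ℚ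

variable {d : ℕ}

/-- The value of a monomial. -/
def val (e : Fin d → ℕ) (c : Option (Fin d) →₀ ℕ) : ℕ := c none + ∑ p, c (some p) * e p

/-- The specialisation to one variable attached to a point. -/
def piE (e : Fin d → ℕ) : MV d →ₐ[ℚ] ℚ[X] :=
  MvPolynomial.aeval (fun v => Option.elim v X (fun p => X ^ e p))

theorem piE_monomial (e : Fin d → ℕ) (c : Option (Fin d) →₀ ℕ) (r : ℚ) :
    piE e (MvPolynomial.monomial c r) = C r * X ^ val e c := by
  unfold piE
  rw [MvPolynomial.aeval_monomial, Finsupp.prod_fintype _ _ (by simp), Fintype.prod_option]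
  simp only [Option.elim, algebraMap_eq]
  congr 1
  rw [val, pow_add]
  congr 1
  simp only [← pow_mul]
  rw [Finset.prod_pow_eq_pow_sum]
  congr 1
  exact sum_congr rfl fun p _ => by ring

theorem piE_coeff (e : Fin d → ℕ) (F : MV d) (m : ℕ) :
    (piE e F).coeff m = ∑ c ∈ F.support, if val e c = m then F.coeff c else 0 := by
  conv_lhs => rw [← F.support_sum_monomial_coeff]
  rw [map_sum, finsetSum_coeff]
  refine sum_congr rfl fun c _ => ?_
  rw [piE_monomial, coeff_C_mul_X_pow]
  by_cases h : val e c = m
  · simp [h]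
  · have : m ≠ val e c := fun h' => h h'.symm
    simp [h, this]

/-- A common denominator. -/
theorem exists_common {ι : Type*} (s : Finset ι) (f : ι → ℚ) :
    ∃ M : ℕ, 0 < M ∧ ∀ i ∈ s, ∃ z : ℤ, f i * M = z := by
  classical
  induction s using Finset.induction_on with
  | empty => exact ⟨1, one_pos, by simp⟩
  | insert a s ha ih =>
    obtain ⟨M, hM, h⟩ := ih
    refine ⟨M * (f a).den, Nat.mul_pos hM (f a).den_pos, fun i hi => ?_⟩
    rcases Finset.mem_insert.mp hi with rfl | hi
    · refine ⟨(f i).num * M, ?_⟩
      push_cast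
      have := Rat.mul_den_eq_num (f i)
      rw [mul_comm (M : ℚ), ← mul_assoc, this]
    · obtain ⟨z, hz⟩ := h i hi
      refine ⟨z * (f a).den, ?_⟩
      push_cast
      rw [← mul_assoc, hz]

/-- The sum of the images under `h` of a combination of singletons. -/
theorem map_sum_nsmul {α β ι : Type*} [DecidableEq β] (s : Finset ι) (n : ι → ℕ) (a : ι → α) (g : α → β) :
    (∑ i ∈ s, n i • ({a i} : Multiset α)).map g = ∑ i ∈ s, n i • ({g (a i)} : Multiset β) := by
  have := map_sum (Multiset.mapAddMonoidHom g) (fun i => n i • ({a i} : Multiset α)) s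
  simp only [Multiset.coe_mapAddMonoidHom, Multiset.map_nsmul, Multiset.map_singleton] at this
  exact this

theorem sum_sum_nsmul {ι : Type*} (s : Finset ι) (n : ι → ℕ) (a : ι → ℝ) :
    (∑ i ∈ s, n i • ({a i} : Multiset ℝ)).sum = ∑ i ∈ s, (n i : ℝ) * a i := by
  have := map_sum (Multiset.sumAddMonoidHom (M := ℝ)) (fun i => n i • ({a i} : Multiset ℝ)) s
  simp only [Multiset.coe_sumAddMonoidHom, Multiset.sum_nsmul, Multiset.sum_singleton,
    nsmul_eq_mul] at this
  exact this

/-- A polynomial with vanishing specialisations and scalar second moments gives a signed balanced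
array. -/
theorem signedArray_of_poly {k : ℕ} (F : MV d) (e : Fin k → Fin d → ℕ) (s D : ℕ) (hD : 0 < D)
    (hpi : ∀ a, piE (e a) F = 0) (κ : ℚ) (hκ : 0 < κ)
    (hmom : ∀ p q, ∑ c ∈ F.support, F.coeff c * (c (some p) : ℚ) * (c (some q) : ℚ) =
      if p = q then κ else 0)
    (x : Fin k → Fin d → ℝ) (hx : ∀ a p, x a p = ((e a p : ℝ) - s) / D) : SignedArray x := by
  classical
  have hDR : (D : ℝ) ≠ 0 := by
    have : D ≠ 0 := by omega
    exact_mod_cast this
  obtain ⟨M, hM, hz⟩ := exists_common F.support (fun c => F.coeff c)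
  let θ : (Option (Fin d) →₀ ℕ) → ℤ := fun c => ⌊F.coeff c * M⌋
  have hθ : ∀ c ∈ F.support, (θ c : ℚ) = F.coeff c * M := by
    intro c hc
    obtain ⟨z, hz'⟩ := hz c hc
    simp only [θ]
    rw [hz', Int.floor_intCast]
  let colOf : (Option (Fin d) →₀ ℕ) → ℝ × (Fin d → ℝ) := fun c =>
    (((c none : ℝ) + s * ∑ p, (c (some p) : ℝ)) / D, fun p => (c (some p) : ℝ))
  have hcol : ∀ a c, col (colOf c) (x a) = (val (e a) c : ℝ) / D := by
    intro a c
    simp only [col, colOf, hx]
    have : ∑ p, (c (some p) : ℝ) * (((e a p : ℝ) - s) / D) =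
        (∑ p, (c (some p) : ℝ) * (e a p : ℝ) - s * ∑ p, (c (some p) : ℝ)) / D := by
      rw [Finset.mul_sum, ← Finset.sum_sub_distrib, Finset.sum_div]
      exact sum_congr rfl fun p _ => by ring
    rw [this, val]
    push_cast
    field_simp
    ring
  let P : Multiset (ℝ × (Fin d → ℝ)) := ∑ c ∈ F.support, (θ c).toNat • {colOf c}
  let N : Multiset (ℝ × (Fin d → ℝ)) := ∑ c ∈ F.support, (-θ c).toNat • {colOf c}
  have hMR : (0 : ℝ) < M := by exact_mod_cast hM
  have hκR : (0 : ℝ) < κ := by exact_mod_cast hκ
  refine ⟨P, N, (M : ℝ) * κ, by positivity, fun a => ?_, fun p q => ?_⟩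
  · -- equal laws
    simp only [P, N]
    rw [map_sum_nsmul, map_sum_nsmul]
    ext r
    rw [Multiset.count_sum', Multiset.count_sum']
    simp only [Multiset.count_nsmul, Multiset.count_singleton]
    -- compare in the integers
    have hdiff : ∑ c ∈ F.support, θ c * (if r = col (colOf c) (x a) then (1 : ℤ) else 0) = 0 := by
      by_cases hex : ∃ c0 ∈ F.support, r = col (colOf c0) (x a)
      · obtain ⟨c0, hc0, hr⟩ := hex
        have hiff : ∀ c, r = col (colOf c) (x a) ↔ val (e a) c = val (e a) c0 := by
          intro c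
          rw [hr, hcol, hcol]
          constructor
          · intro h
            have h2 : (val (e a) c0 : ℝ) = (val (e a) c : ℝ) := by
              field_simp at h
              exact h
            exact_mod_cast h2.symm
          · intro h
            rw [h]
        have hq : (∑ c ∈ F.support, (θ c : ℚ) * (if r = col (colOf c) (x a) then (1 : ℚ) else 0)) = 0 := by
          have h0 := congrArg (fun p : ℚ[X] => p.coeff (val (e a) c0)) (hpi a)
          simp only [piE_coeff, coeff_zero] at h0
          have : ∑ c ∈ F.support, (θ c : ℚ) * (if r = col (colOf c) (x a) then (1 : ℚ) else 0) =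
              (∑ c ∈ F.support, if val (e a) c = val (e a) c0 then F.coeff c else 0) * M := by
            rw [Finset.sum_mul]
            refine sum_congr rfl fun c hc => ?_
            rw [hθ c hc]
            by_cases h : val (e a) c = val (e a) c0
            · simp [(hiff c).mpr h, h]
            · have h' : ¬ r = col (colOf c) (x a) := fun h2 => h ((hiff c).mp h2)
              simp [h, h']
          rw [this, h0, zero_mul]
        have : ((∑ c ∈ F.support, θ c * (if r = col (colOf c) (x a) then (1 : ℤ) else 0) : ℤ) : ℚ) = 0 := by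
          push_cast
          exact hq
        exact_mod_cast this
      · apply Finset.sum_eq_zero
        intro c hc
        have : ¬ r = col (colOf c) (x a) := fun h => hex ⟨c, hc, h⟩
        simp [this]
    have hnat : ∀ c, (((θ c).toNat : ℤ) - ((-θ c).toNat : ℤ)) = θ c := fun c => Int.toNat_sub_toNat_neg _
    have hz2 : ((∑ c ∈ F.support, (θ c).toNat * (if r = col (colOf c) (x a) then 1 else 0) : ℕ) : ℤ) =
        ((∑ c ∈ F.support, (-θ c).toNat * (if r = col (colOf c) (x a) then 1 else 0) : ℕ) : ℤ) := by
      push_cast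
      rw [← sub_eq_zero, ← Finset.sum_sub_distrib]
      refine Eq.trans (sum_congr rfl fun c _ => ?_) hdiff
      rw [← sub_mul, hnat]
    exact_mod_cast hz2
  · -- second moments
    simp only [P, N]
    rw [map_sum_nsmul, map_sum_nsmul, sum_sum_nsmul, sum_sum_nsmul, ← Finset.sum_sub_distrib]
    have hnat : ∀ c, (((θ c).toNat : ℝ) - ((-θ c).toNat : ℝ)) = θ c := by
      intro c
      have := Int.toNat_sub_toNat_neg (θ c)
      exact_mod_cast this
    have h1 : ∀ c ∈ F.support, ((θ c).toNat : ℝ) * ((colOf c).2 p * (colOf c).2 q) -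
        ((-θ c).toNat : ℝ) * ((colOf c).2 p * (colOf c).2 q) =
        (M : ℝ) * (((F.coeff c * (c (some p) : ℚ) * (c (some q) : ℚ) : ℚ)) : ℝ) := by
      intro c hc
      rw [← sub_mul, hnat]
      have h2 : (θ c : ℝ) = ((F.coeff c * M : ℚ) : ℝ) := by
        rw [← hθ c hc]
        push_cast
        rfl
      rw [h2]
      simp only [colOf]
      push_cast
      ring
    rw [Finset.sum_congr rfl h1, ← Finset.mul_sum, ← Rat.cast_sum, hmom p q]
    split_ifs <;> simp

/-! ### Moments -/

/-- Evaluation at the point with all coordinates `1`. -/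
def e1 : MV d →ₐ[ℚ] ℚ := MvPolynomial.aeval (fun _ => (1 : ℚ))

/-- The partial derivative in the variable of the coordinate `p`. -/
def dd (p : Fin d) : Derivation ℚ (MV d) (MV d) := MvPolynomial.pderiv (some p)

/-- The second moment functional. -/
def momE (p q : Fin d) (G : MV d) : ℚ :=
  e1 (dd p (dd q G)) + if p = q then e1 (dd p G) else 0

theorem momE_add (p q : Fin d) (G H : MV d) : momE p q (G + H) = momE p q G + momE p q H := by
  simp only [momE, map_add]
  split_ifs <;> ring

theorem momE_zero (p q : Fin d) : momE p q (0 : MV d) = 0 := by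
  simp [momE]

theorem momE_smul (p q : Fin d) (r : ℚ) (G : MV d) : momE p q (r • G) = r * momE p q G := by
  simp only [momE, Derivation.map_smul, map_smul, smul_eq_mul]
  split_ifs <;> ring

theorem momE_sub (p q : Fin d) (G H : MV d) : momE p q (G - H) = momE p q G - momE p q H := by
  simp only [momE, map_sub]
  split_ifs <;> ring

theorem momE_sum {ι : Type*} (p q : Fin d) (s : Finset ι) (f : ι → MV d) :
    momE p q (∑ i ∈ s, f i) = ∑ i ∈ s, momE p q (f i) := by
  classical
  induction s using Finset.induction_on with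
  | empty => simp [momE_zero]
  | insert a s ha ih => rw [Finset.sum_insert ha, Finset.sum_insert ha, momE_add, ih]

theorem momE_monomial (p q : Fin d) (c : Option (Fin d) →₀ ℕ) (r : ℚ) :
    momE p q (MvPolynomial.monomial c r) = r * (c (some p) : ℚ) * (c (some q) : ℚ) := by
  have he : ∀ (b : Option (Fin d) →₀ ℕ) (t : ℚ), e1 (MvPolynomial.monomial b t : MV d) = t := by
    intro b t
    simp [e1, MvPolynomial.aeval_monomial]
  simp only [momE, dd, MvPolynomial.pderiv_monomial, he]
  by_cases h : p = q
  · subst h
    simp only [if_true, Finsupp.coe_tsub, Pi.sub_apply, Finsupp.single_eq_same]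
    rcases hc : c (some p) with _ | n
    · simp
    · simp
      ring
  · have : some p ≠ some q := fun h' => h (Option.some.inj h')
    simp [h, Finsupp.single_apply, this.symm]
    ring

theorem sum_eq_momE (p q : Fin d) (G : MV d) :
    ∑ c ∈ G.support, G.coeff c * (c (some p) : ℚ) * (c (some q) : ℚ) = momE p q G := by
  conv_rhs => rw [← G.support_sum_monomial_coeff]
  rw [momE_sum]
  exact sum_congr rfl fun c _ => (momE_monomial p q c _).symm

/-- The embedding of polynomials in the translation variable. -/
def lift (g : ℚ[X]) : MV d := Polynomial.aeval (MvPolynomial.X none) g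

theorem dd_lift (p : Fin d) (g : ℚ[X]) : dd p (lift g : MV d) = 0 := by
  unfold lift dd
  rw [Derivation.map_aeval, MvPolynomial.pderiv_X_of_ne (by simp), smul_zero]

theorem e1_lift (g : ℚ[X]) : e1 (lift g : MV d) = g.eval 1 := by
  unfold lift
  rw [← Polynomial.aeval_algHom_apply]
  simp [e1, Polynomial.aeval_def, Polynomial.eval₂_eq_eval_map]

theorem piE_lift (e : Fin d → ℕ) (g : ℚ[X]) : piE e (lift g) = g := by
  unfold lift
  rw [← Polynomial.aeval_algHom_apply]
  simp [piE]

theorem momE_mul_lift (p q : Fin d) (G : MV d) (g : ℚ[X]) :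
    momE p q (G * lift g) = momE p q G * g.eval 1 := by
  have h1 : ∀ (r : Fin d) (H : MV d), dd r (H * lift g) = dd r H * lift g := by
    intro r H
    rw [Derivation.leibniz, dd_lift, smul_zero, zero_add, smul_eq_mul, mul_comm]
  simp only [momE, h1, map_mul, e1_lift]
  split_ifs <;> ring

theorem momE_sq (p q : Fin d) (U : MV d) (h0 : e1 U = 0) :
    momE p q (U ^ 2) = 2 * e1 (dd p U) * e1 (dd q U) := by
  have h1 : ∀ r : Fin d, dd r (U ^ 2) = U * dd r U + U * dd r U := by
    intro r
    rw [pow_two, Derivation.leibniz, smul_eq_mul]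
  have h2 : dd p (U * dd q U) = U * dd p (dd q U) + dd q U * dd p U := by
    rw [Derivation.leibniz, smul_eq_mul, smul_eq_mul]
  simp only [momE, h1, map_add, h2, map_mul, h0, zero_mul, zero_add, add_zero]
  split_ifs <;> ring

/-- The second coordinate function. -/
def tU (N : ℕ) (p : Fin d) : MV d := Polynomial.aeval (MvPolynomial.X (some p)) (tlog N)

theorem e1_tU (N : ℕ) (p : Fin d) : e1 (tU N p : MV d) = 0 := by
  unfold tU
  rw [← Polynomial.aeval_algHom_apply]
  simp [e1, Polynomial.aeval_def, Polynomial.eval₂_eq_eval_map, tlog_eval_one]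

theorem e1_dd_tU (N : ℕ) (hN : 1 ≤ N) (p q : Fin d) :
    e1 (dd q (tU N p : MV d)) = if q = p then 1 else 0 := by
  unfold tU dd
  rw [Derivation.map_aeval, smul_eq_mul, map_mul, ← Polynomial.aeval_algHom_apply]
  have h1 : Polynomial.aeval (e1 (MvPolynomial.X (some p) : MV d)) (derivative (tlog N)) = 1 := by
    have : e1 (MvPolynomial.X (some p) : MV d) = 1 := by simp [e1]
    rw [this]
    simpa [Polynomial.aeval_def, Polynomial.eval₂_eq_eval_map] using tlog_deriv_eval_one N hN
  rw [h1, one_mul]
  by_cases h : q = p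
  · subst h
    simp [MvPolynomial.pderiv_X_self]
  · have : some p ≠ some q := fun h' => h (Option.some.inj h').symm
    rw [MvPolynomial.pderiv_X_of_ne this]
    simp [h]

theorem piE_tU (N : ℕ) (e : Fin d → ℕ) (p : Fin d) :
    piE e (tU N p) = (tlog N).comp (X ^ e p) := by
  unfold tU
  rw [← Polynomial.aeval_algHom_apply]
  simp [piE, Polynomial.aeval_def, Polynomial.comp]

end

end Vale.Agent.Lib.P058K.RS
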