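import Mathlib
import Vale.Agent.Lib.P058K.RationalSphereB

/-!
# Every finite set of rational points of a sphere centred at the origin has a signed balanced array
-/

set_option linter.unusedVariables false
set_option linter.unusedSectionVars false

namespace Vale.Agent.Lib.P058K.RS

open Polynomial Finset
open Vale.Agent.Lib.P058 Vale.Agent.Lib.P058S

noncomputable section

variable {d : ℕ}

/-- The difference of two powers, factored at `1`. -/
theorem pow_sub_pow_factor (u v : ℕ) (h : u ≠ v) :
    ∃ (t : ℚ[X]) (ε : ℚ), (X ^ u - X ^ v : ℚ[X]) = C ε * (X - 1) * t ∧ ε ≠ 0 ∧ 0 < t.eval 1 := by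
  rcases lt_or_gt_of_ne h with h1 | h1
  · refine ⟨X ^ u * ∑ j ∈ range (v - u), X ^ j, -1, ?_, by norm_num, ?_⟩
    · have hg := geom_sum_mul (X : ℚ[X]) (v - u)
      have hv : (X : ℚ[X]) ^ v = X ^ u * X ^ (v - u) := by
        rw [← pow_add]
        congr 1
        omega
      rw [hv]
      simp only [map_neg, map_one]
      linear_combination ((X : ℚ[X]) ^ u) * hg
    · simp [eval_finsetSum]
      omega
  · refine ⟨X ^ v * ∑ j ∈ range (u - v), X ^ j, 1, ?_, by norm_num, ?_⟩
    · have hg := geom_sum_mul (X : ℚ[X]) (u - v)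
      have hv : (X : ℚ[X]) ^ u = X ^ v * X ^ (u - v) := by
        rw [← pow_add]
        congr 1
        omega
      rw [hv]
      simp only [map_one]
      linear_combination (-(X : ℚ[X]) ^ v) * hg
    · simp [eval_finsetSum]
      omega

/-- **Rational points of a sphere**: a signed balanced array. -/
theorem signedArray_of_int {k : ℕ} (e : Fin k → Fin d → ℕ) (s D : ℕ) (hD : 0 < D) (R : ℚ)
    (hR : ∀ a, ∑ p, ((e a p : ℚ) - s) ^ 2 = R) (hinj : ∀ a b, a ≠ b → ∃ p, e a p ≠ e b p)
    (x : Fin k → Fin d → ℝ) (hx : ∀ a p, x a p = ((e a p : ℝ) - s) / D) : SignedArray x := by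
  classical
  set N : ℕ := k + 1 with hN
  have hN1 : 1 ≤ N := by omega
  -- the basic polynomial
  let A : MV d := lift (tlog N)
  let B : Fin d → MV d := fun p => tU N p - (s : ℚ) • A
  let F : MV d := (-R) • A ^ 2 + ∑ p, B p ^ 2
  have he1A : e1 A = 0 := by
    simp only [A]
    rw [e1_lift, tlog_eval_one]
  have he1B : ∀ p, e1 (B p) = 0 := by
    intro p
    simp only [B, map_sub, map_smul, he1A, e1_tU, smul_zero, sub_zero]
  have hddA : ∀ p, dd p A = 0 := fun p => dd_lift p _
  have hddB : ∀ q p, e1 (dd q (B p)) = if q = p then 1 else 0 := by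
    intro q p
    simp only [B, map_sub, Derivation.map_smul, hddA, smul_zero, sub_zero]
    exact e1_dd_tU N hN1 p q
  -- the second moments of `F`
  have hmomF : ∀ p q, momE p q F = if p = q then 2 else 0 := by
    intro p q
    simp only [F]
    rw [momE_add, momE_smul, momE_sq p q A he1A, hddA, momE_sum]
    simp only [momE_sq p q _ (he1B _), hddB]
    rw [map_zero, mul_zero, zero_mul, mul_zero, zero_add]
    rw [Finset.sum_eq_single p]
    · by_cases h : p = q
      · subst h
        simp
      · have h' : q ≠ p := fun h2 => h h2.symm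
        simp [h, h']
    · intro b _ hb
      have : p ≠ b := fun h => hb h.symm
      simp [this]
    · simp
  -- the specialisations of `F` are divisible by a high power of `X - 1`
  have hdvd : ∀ a, (X - 1 : ℚ[X]) ^ (N + 1) ∣ piE (e a) F := by
    intro a
    set T := tlog N with hT
    have hpiB : ∀ p, (X - 1 : ℚ[X]) ^ (N + 1) ∣
        piE (e a) (B p) ^ 2 - C (((e a p : ℚ) - s) ^ 2) * T ^ 2 := by
      intro p
      have h1 := tlog_comp_dvd N (e a p)
      have h2 : piE (e a) (B p) - C ((e a p : ℚ) - s) * T = (tlog N).comp (X ^ e a p) - C (e a p : ℚ) * tlog N := by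
        simp only [B, A, map_sub, map_smul, piE_tU, piE_lift, smul_eq_C_mul, C_sub]
        rw [← hT]
        ring
      have h3 : piE (e a) (B p) ^ 2 - C (((e a p : ℚ) - s) ^ 2) * T ^ 2 =
          (piE (e a) (B p) - C ((e a p : ℚ) - s) * T) *
            (piE (e a) (B p) + C ((e a p : ℚ) - s) * T) := by
        rw [C_pow]
        ring
      rw [h3, h2]
      exact Dvd.dvd.mul_right h1 _
    have h4 : piE (e a) F = ∑ p, (piE (e a) (B p) ^ 2 - C (((e a p : ℚ) - s) ^ 2) * T ^ 2) := by
      rw [Finset.sum_sub_distrib, ← Finset.sum_mul, ← map_sum, hR a]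
      simp only [F, A, map_add, map_smul, map_pow, piE_lift, map_sum, smul_eq_C_mul, C_neg]
      rw [← hT]
      ring
    rw [h4]
    exact Finset.dvd_sum fun p _ => hpiB p
  -- the correcting factors
  have hz : ∀ a b : Fin k, ∃ (z : MV d) (t : ℚ[X]) (ε : ℚ), a ≠ b →
      piE (e b) z = 0 ∧ piE (e a) z = C ε * (X - 1) * t ∧ ε ≠ 0 ∧ 0 < t.eval 1 := by
    intro a b
    by_cases hab : a = b
    · exact ⟨1, 1, 1, fun h => absurd hab h⟩
    · obtain ⟨p, hp⟩ := hinj a b hab
      obtain ⟨t, ε, h1, h2, h3⟩ := pow_sub_pow_factor (e a p) (e b p) hp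
      refine ⟨MvPolynomial.X (some p) - MvPolynomial.X none ^ e b p, t, ε, fun _ => ⟨?_, ?_, h2, h3⟩⟩
      · simp [piE]
      · rw [← h1]
        simp [piE]
  choose z t ε hzz using hz
  let w : Fin k → MV d := fun a => ∏ b ∈ univ.erase a, z a b
  let T' : Fin k → ℚ[X] := fun a => ∏ b ∈ univ.erase a, t a b
  let c : Fin k → ℚ := fun a => ∏ b ∈ univ.erase a, ε a b
  let K : Fin k → ℕ := fun a => (univ.erase a).card
  have hKle : ∀ a, K a ≤ k := by
    intro a
    simp only [K]
    calc (univ.erase a).card ≤ (univ : Finset (Fin k)).card := card_le_card (erase_subset _ _)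
      _ = k := by simp
  have hc : ∀ a, c a ≠ 0 := by
    intro a
    simp only [c]
    exact Finset.prod_ne_zero_iff.mpr fun b hb => (hzz a b (Finset.ne_of_mem_erase hb).symm).2.2.1
  have hw : ∀ a, piE (e a) (w a) = C (c a) * (X - 1) ^ K a * T' a := by
    intro a
    simp only [w, T', c, K]
    rw [map_prod, Finset.prod_congr rfl fun b hb => (hzz a b (Finset.ne_of_mem_erase hb).symm).2.1,
      Finset.prod_mul_distrib, Finset.prod_mul_distrib, Finset.prod_const, ← map_prod]
  have hT'pos : ∀ a, 0 < (T' a).eval 1 := by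
    intro a
    simp only [T']
    rw [eval_prod]
    exact Finset.prod_pos fun b hb => (hzz a b (Finset.ne_of_mem_erase hb).symm).2.2.2
  let f : ℚ[X] := ∏ a, T' a
  have hfpos : 0 < f.eval 1 := by
    simp only [f]
    rw [eval_prod]
    exact Finset.prod_pos fun a _ => hT'pos a
  choose r hr using hdvd
  let h : Fin k → ℚ[X] := fun a =>
    C (c a)⁻¹ * (X - 1) ^ (N + 1 - K a) * r a * ∏ b ∈ univ.erase a, T' b
  have hh : ∀ a, piE (e a) (w a) * h a = piE (e a) F * f := by
    intro a
    rw [hw, hr a]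
    simp only [h, f]
    have h1 : (X - 1 : ℚ[X]) ^ (N + 1) = (X - 1) ^ K a * (X - 1) ^ (N + 1 - K a) := by
      rw [← pow_add]
      congr 1
      have := hKle a
      omega
    have h2 : ∏ b, T' b = T' a * ∏ b ∈ univ.erase a, T' b := (Finset.mul_prod_erase _ _ (mem_univ a)).symm
    have h3 : (C (c a) * C (c a)⁻¹ : ℚ[X]) = 1 := by
      rw [← C_mul, mul_inv_cancel₀ (hc a), C_1]
    rw [h1, h2]
    linear_combination ((X - 1) ^ K a * T' a * (X - 1) ^ (N + 1 - K a) * r a * ∏ b ∈ univ.erase a, T' b) * h3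
  have heval : ∀ a, (h a).eval 1 = 0 := by
    intro a
    have hpos : N + 1 - K a ≠ 0 := by
      have := hKle a
      omega
    simp [h, eval_pow, hpos]
  let G : MV d := F * lift f - ∑ a, w a * lift (h a)
  have hG : ∀ a, piE (e a) G = 0 := by
    intro a
    simp only [G, map_sub, map_mul, piE_lift, map_sum]
    rw [Finset.sum_eq_single a, hh a, sub_self]
    · intro b _ hb
      have : piE (e a) (w b) = 0 := by
        simp only [w]
        rw [map_prod]
        exact Finset.prod_eq_zero (Finset.mem_erase.mpr ⟨fun h => hb h.symm, mem_univ a⟩)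
          (hzz b a hb).1
      rw [this, zero_mul]
    · simp
  have hmomG : ∀ p q, momE p q G = if p = q then 2 * f.eval 1 else 0 := by
    intro p q
    simp only [G]
    rw [momE_sub, momE_mul_lift, hmomF, momE_sum]
    have : ∀ a, momE p q (w a * lift (h a)) = 0 := by
      intro a
      rw [momE_mul_lift, heval, mul_zero]
    simp only [this, sum_const_zero, sub_zero]
    split_ifs <;> simp
  refine signedArray_of_poly G e s D hD hG (2 * f.eval 1) (by positivity) (fun p q => ?_) x hx
  rw [sum_eq_momE, hmomG]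

/-- **Rational points of a sphere are Ramsey**: a finite family of points of `ℝ^d` with rational
coordinates, all at the same distance from the origin, is a Ramsey family. -/
theorem isRamseyFamily_of_rational {k : ℕ} (y : Fin k → Fin d → ℚ)
    (hs : ∀ a b, ∑ p, y a p ^ 2 = ∑ p, y b p ^ 2) (hinj : Function.Injective y)
    (X : Fin k → EuclideanSpace ℝ (Fin d)) (hX : ∀ a p, X a p = (y a p : ℝ)) :
    IsRamseyFamily X := by
  classical
  obtain ⟨D, hD, hz⟩ := exists_common (univ : Finset (Fin k × Fin d)) (fun t => y t.1 t.2)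
  have hz' : ∀ a p, ∃ z : ℤ, y a p * D = z := fun a p => hz (a, p) (mem_univ _)
  choose z hzv using hz'
  let s : ℕ := ∑ t : Fin k × Fin d, (z t.1 t.2).natAbs
  have hsle : ∀ a p, -(z a p) ≤ s := by
    intro a p
    have h1 : (z a p).natAbs ≤ s :=
      Finset.single_le_sum (f := fun t : Fin k × Fin d => (z t.1 t.2).natAbs)
        (fun _ _ => Nat.zero_le _) (mem_univ (a, p))
    have h2 : -(z a p) ≤ ((z a p).natAbs : ℤ) := by omega
    have h3 : ((z a p).natAbs : ℤ) ≤ s := by exact_mod_cast h1
    omega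
  let e : Fin k → Fin d → ℕ := fun a p => (z a p + s).toNat
  have he : ∀ a p, ((e a p : ℤ)) = z a p + s := by
    intro a p
    simp only [e]
    rw [Int.toNat_of_nonneg]
    have := hsle a p
    omega
  have heQ : ∀ a p, (e a p : ℚ) - s = y a p * D := by
    intro a p
    have h1 : ((e a p : ℤ) : ℚ) = ((z a p + s : ℤ) : ℚ) := by rw [he]
    push_cast at h1
    rw [hzv a p, h1]
    ring
  have hDQ : (D : ℚ) ≠ 0 := by
    have : D ≠ 0 := by omega
    exact_mod_cast this
  have hDR : (D : ℝ) ≠ 0 := by
    have : D ≠ 0 := by omega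
    exact_mod_cast this
  -- the common squared radius
  obtain ⟨R, hR⟩ : ∃ R : ℚ, ∀ a, ∑ p, ((e a p : ℚ) - s) ^ 2 = R := by
    rcases isEmpty_or_nonempty (Fin k) with h | ⟨⟨a0⟩⟩
    · exact ⟨0, fun a => (h.false a).elim⟩
    · refine ⟨∑ p, ((e a0 p : ℚ) - s) ^ 2, fun a => ?_⟩
      simp only [heQ, mul_pow]
      rw [← Finset.sum_mul, ← Finset.sum_mul, hs a a0]
  have hinj' : ∀ a b, a ≠ b → ∃ p, e a p ≠ e b p := by
    intro a b hab
    by_contra hcon
    push Not at hcon
    apply hab
    apply hinj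
    funext p
    have h1 : (e a p : ℚ) - s = (e b p : ℚ) - s := by rw [hcon p]
    rw [heQ, heQ] at h1
    exact mul_right_cancel₀ hDQ h1
  have hx : ∀ a p, (fun a p => X a p) a p = ((e a p : ℝ) - s) / D := by
    intro a p
    have h1 : (((e a p : ℚ) - s : ℚ) : ℝ) = ((y a p * D : ℚ) : ℝ) := by rw [heQ]
    push_cast at h1
    simp only [hX]
    rw [h1]
    field_simp
  exact G42.isRamseyFamily_of_signedArray X
    (signedArray_of_int e s D hD R hR hinj' _ hx)

end

end Vale.Agent.Lib.P058K.RS
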