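import Mathlib
import Vale.Agent.Lib.P058.FormulaBridge

/-!
# Word form of the single family theorem: every family of words of equal content is word Ramsey
-/

namespace Vale.Agent.Lib.P058K

open Finset Vale.Agent.Lib.P058

section Tokens

variable {ι P Λ C Θ : Type}

/-- The cell reduction with constant letters allowed inside the cells. -/
theorem wordRamsey_of_tokens [Nonempty ι] [Fintype P] [DecidableEq P] [Fintype Λ] [DecidableEq Λ]
    [Fintype C] [DecidableEq C] [Fintype Θ] [DecidableEq Θ]
    (W : ι → P → Λ) (e : Λ) (σ : C → List (P ⊕ Λ)) (R : ℕ)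
    (hR : ∀ p, ∑ s, (σ s).countP (fun t => decide (t = Sum.inl p)) = R)
    (fl : Θ → List Λ) (hfl : ∀ θ, e ∉ fl θ) (W' : ι → C → Θ)
    (hW' : ∀ i s, fl (W' i s) = ((σ s).map (Sum.elim (W i) id)).filter (· ≠ e))
    {M' : ℕ} (h : WordRamsey W' M') : WordRamsey W (M' * R) := by
  classical
  intro r hr
  obtain ⟨n', K', hhost⟩ := h r hr
  haveI : Nonempty (Fin r) := ⟨⟨0, hr⟩⟩
  let a : ℕ := ∑ θ, K' θ * (fl θ).length
  let Lσ : ℕ := ∑ s, (σ s).length
  let Nmax : ℕ := a + n' * Lσ
  obtain ⟨L, hL⟩ := ramsey_mono (α := (Fin a → Λ) → Fin r) a Nmax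
  refine ⟨L, fun l => if l = e then L - a else ∑ θ, K' θ * (fl θ).count l, fun c => ?_⟩
  obtain ⟨ε, hε, hεlt, g, hg⟩ := hL (fun S str => c (mkW e L S str))
  let flat : (Fin n' → Θ) → List Λ := fun y => (List.ofFn y).flatMap fl
  let strOf : List Λ → Fin a → Λ := fun l k => l.getD k.val e
  obtain ⟨τ', hlab, hcont, k, hk⟩ := hhost (fun y => g (strOf (flat y)))
  -- the tokens
  let gt : C ⊕ Θ → List (P ⊕ Λ) :=
    Sum.elim σ (fun θ => (fl θ).map Sum.inr)
  let tok : List (P ⊕ Λ) := (List.ofFn τ').flatMap gt
  have hcountP : ∀ Q : P ⊕ Λ → Bool, tok.countP Q = ∑ q, (gt (τ' q)).countP Q := by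
    intro Q
    simp only [tok]
    rw [List.countP_flatMap, List.map_ofFn, List.sum_ofFn]
    rfl
  let y : ι → Fin n' → Θ := fun i => hostWord (W' i) τ'
  let ev : ι → P ⊕ Λ → Λ := fun i => Sum.elim (W i) id
  have hflat : ∀ i, flat (y i) = (tok.map (ev i)).filter (· ≠ e) := by
    intro i
    have h1 : y i = (Sum.elim (W' i) id) ∘ τ' := rfl
    simp only [flat, tok]
    rw [h1, ← List.map_ofFn, List.flatMap_map, List.map_flatMap, List.filter_flatMap]
    congr 1
    funext t
    rcases t with s | θ
    · simp only [gt, Sum.elim_inl, hW']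
      rfl
    · simp only [gt, Sum.elim_inr, List.map_map]
      have : ev i ∘ Sum.inr = (id : Λ → Λ) := rfl
      rw [this, List.map_id]
      symm
      show List.filter _ (fl θ) = fl θ
      rw [List.filter_eq_self]
      intro x hx
      have hxe : x ≠ e := fun h => hfl θ (h ▸ hx)
      simpa using hxe
  have hlen_y : ∀ i, ∑ q, (fl (y i q)).length = a := fun i =>
    sum_fiber_count (y i) K' (hcont i) (fun θ => (fl θ).length)
  have hflatlen : ∀ i, (flat (y i)).length = a := by
    intro i
    simp only [flat]
    rw [List.length_flatMap, List.map_ofFn, List.sum_ofFn]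
    exact hlen_y i
  have hNt : tok.length ≤ Nmax := by
    let i0 : ι := Classical.arbitrary ι
    have h1 : tok.length = ∑ q, (gt (τ' q)).length := by
      simp only [tok]
      rw [List.length_flatMap, List.map_ofFn, List.sum_ofFn]
      rfl
    have h2 : ∀ q, (gt (τ' q)).length ≤ Lσ + (fl (y i0 q)).length := by
      intro q
      have hyq : y i0 q = Sum.elim (W' i0) id (τ' q) := rfl
      rcases ht : τ' q with s | θ
      · simp only [gt, Sum.elim_inl]
        have : (σ s).length ≤ Lσ :=
          single_le_sum (f := fun s => (σ s).length) (fun _ _ => Nat.zero_le _) (mem_univ s)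
        omega
      · simp only [gt, Sum.elim_inr, List.length_map]
        rw [hyq, ht]
        simp
    rw [h1]
    calc ∑ q, (gt (τ' q)).length ≤ ∑ q, (Lσ + (fl (y i0 q)).length) := sum_le_sum fun q _ => h2 q
      _ = n' * Lσ + a := by
        rw [sum_add_distrib, hlen_y i0]
        simp
      _ = Nmax := by
        simp only [Nmax]
        omega
  -- the labelling of the host
  let tokF : ℕ → P ⊕ Λ := fun j => tok.getD j (Sum.inr e)
  have hεL : ∀ j, j < tok.length → ε j < L := fun j hj => hεlt j (lt_of_lt_of_le hj hNt)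
  let τ : Fin L → P ⊕ Λ := fun q =>
    if h : ∃ j, j < tok.length ∧ ε j = q.val then tokF h.choose else Sum.inr e
  have hτ1 : ∀ j (hj : j < tok.length), τ ⟨ε j, hεL j hj⟩ = tokF j := by
    intro j hj
    have hex : ∃ j', j' < tok.length ∧ ε j' = (⟨ε j, hεL j hj⟩ : Fin L).val := ⟨j, hj, rfl⟩
    simp only [τ]
    rw [dif_pos hex]
    have := hε.injective hex.choose_spec.2
    rw [this]
  have hτ2 : ∀ q : Fin L, (¬∃ j, j < tok.length ∧ ε j = q.val) → τ q = Sum.inr e := by
    intro q hq
    simp only [τ]
    rw [dif_neg hq]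
  have hcard : ∀ Q : P ⊕ Λ → Bool, Q (Sum.inr e) = false →
      (univ.filter (fun q => Q (τ q) = true)).card = tok.countP Q := by
    intro Q hQ
    rw [← card_filter_getD tok (Sum.inr e) Q]
    symm
    refine card_bij (fun j hj => (⟨ε j, hεL j (mem_range.mp (mem_filter.mp hj).1)⟩ : Fin L))
      ?_ ?_ ?_
    · intro j hj
      have hj1 := mem_range.mp (mem_filter.mp hj).1
      simp only [mem_filter, mem_univ, true_and]
      rw [hτ1 j hj1]
      exact (mem_filter.mp hj).2
    · intro j hj j' hj' hjj
      exact hε.injective (Fin.mk.inj_iff.mp hjj)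
    · intro q hq
      have hq' : Q (τ q) = true := (mem_filter.mp hq).2
      by_cases hex : ∃ j, j < tok.length ∧ ε j = q.val
      · obtain ⟨j, hj, hjq⟩ := hex
        have hqe : q = ⟨ε j, hεL j hj⟩ := Fin.ext hjq.symm
        refine ⟨j, mem_filter.mpr ⟨mem_range.mpr hj, ?_⟩, hqe.symm⟩
        have := hτ1 j hj
        rw [← hqe] at this
        rw [this] at hq'
        exact hq'
      · rw [hτ2 q hex, hQ] at hq'
        exact absurd hq' (by simp)
  have hlabels : ∀ p, (univ.filter (fun q => τ q = Sum.inl p)).card = M' * R := by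
    intro p
    have h1 := hcard (fun t => decide (t = Sum.inl p)) (by simp)
    simp only [decide_eq_true_eq] at h1
    rw [h1, hcountP]
    have h2 : ∀ t : C ⊕ Θ, (gt t).countP (fun t => decide (t = Sum.inl p)) =
        ∑ s, if t = Sum.inl s then (σ s).countP (fun t => decide (t = Sum.inl p)) else 0 := by
      intro t
      rcases t with s | θ
      · simp only [gt, Sum.elim_inl, Sum.inl.injEq]
        rw [sum_ite_eq]
        simp only [mem_univ, if_true]
      · simp only [gt, Sum.elim_inr, reduceCtorEq, if_false, sum_const_zero]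
        rw [List.countP_eq_zero]
        intro x hx
        obtain ⟨b, -, rfl⟩ := List.mem_map.mp hx
        simp
    simp only [h2]
    rw [sum_comm, ← hR p, mul_sum]
    refine sum_congr rfl fun s _ => ?_
    rw [← sum_filter, sum_const, hlab s, smul_eq_mul]
  have hne : ∀ i, (univ.filter (fun q => hostWord (W i) τ q ≠ e)).card = a := by
    intro i
    have h1 := hcard (fun t => decide (ev i t ≠ e)) (by simp [ev])
    simp only [decide_eq_true_eq] at h1
    have h2 : tok.countP (fun t => decide (ev i t ≠ e)) = (flat (y i)).length := by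
      rw [hflat, ← List.countP_eq_length_filter, List.countP_map]
      rfl
    rw [h2, hflatlen] at h1
    exact h1
  have hcount : ∀ i l, (univ.filter (fun q => hostWord (W i) τ q = l)).card =
      if l = e then L - a else ∑ θ, K' θ * (fl θ).count l := by
    intro i l
    split_ifs with hl
    · subst hl
      have h1 := card_filter_add_card_filter_not (s := (univ : Finset (Fin L)))
        (fun q => hostWord (W i) τ q = l)
      simp only [card_univ, Fintype.card_fin] at h1
      have h2 := hne i
      simp only [ne_eq] at h2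
      omega
    · have h1 := hcard (fun t => decide (ev i t = l)) (by
        simp only [ev, Sum.elim_inr, id_eq]
        exact decide_eq_false (fun h : e = l => hl h.symm))
      simp only [decide_eq_true_eq] at h1
      have h2 : tok.countP (fun t => decide (ev i t = l)) = (flat (y i)).count l := by
        rw [hflat, List.count_filter (by simpa using hl), List.count, List.countP_map]
        congr 1
      rw [h2] at h1
      have h3 : (flat (y i)).count l = ∑ q, (fl (y i q)).count l := by
        simp only [flat]
        rw [List.count_flatMap, List.map_ofFn, List.sum_ofFn]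
        rfl
      rw [h3, sum_fiber_count (y i) K' (hcont i) (fun θ => (fl θ).count l)] at h1
      exact h1
  refine ⟨τ, hlabels, hcount, k, fun i => ?_⟩
  -- the colour
  let lst : List Λ := tok.map (ev i)
  have hlstD : ∀ j, lst.getD j e = ev i (tokF j) := by
    intro j
    simp only [lst, tokF]
    rcases Nat.lt_or_ge j tok.length with hj | hj
    · simp [List.getD_eq_getElem?_getD, List.getElem?_map, hj]
    · simp [List.getD_eq_getElem?_getD, List.getElem?_map, hj, ev]
  let U : Finset ℕ := (range tok.length).filter (fun j => ev i (tokF j) ≠ e)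
  have hU : (range lst.length).filter (fun j => (decide (lst.getD j e ≠ e) : Bool) = true) = U := by
    ext j
    simp only [mem_filter, mem_range, decide_eq_true_eq, U, hlstD, lst, List.length_map]
  have hUcard : U.card = a := by
    rw [← hU, card_filter_getD lst e (fun x => decide (x ≠ e)), List.countP_eq_length_filter]
    have := hflatlen i
    rw [hflat] at this
    exact this
  have hUsub : U ⊆ range Nmax := by
    intro j hj
    have := mem_range.mp (mem_filter.mp hj).1
    exact mem_range.mpr (lt_of_lt_of_le this hNt)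
  have hgU := hg U hUsub hUcard
  have hword : hostWord (W i) τ = mkW e L (U.image ε) (strOf (flat (y i))) := by
    funext q
    simp only [mkW]
    by_cases hex : ∃ j, j < tok.length ∧ ε j = q.val
    · obtain ⟨j, hj, hjq⟩ := hex
      have hqe : q = ⟨ε j, hεL j hj⟩ := Fin.ext hjq.symm
      have hq1 : τ q = tokF j := by rw [hqe, hτ1 j hj]
      have hv : hostWord (W i) τ q = ev i (tokF j) := by
        simp only [hostWord, hq1, ev]
      rw [hv, ← hjq]
      by_cases hjU : j ∈ U
      · rw [if_pos (mem_image_of_mem ε hjU), rk_image hε]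
        have hrk : rk U j < a := by
          rw [← hUcard]
          refine card_lt_card ⟨fun z hz => (mem_filter.mp hz).1, fun h => ?_⟩
          have := h hjU
          simp at this
        rw [dif_pos hrk]
        simp only [strOf]
        rw [hflat]
        have hQ : (decide (lst.getD j e ≠ e) : Bool) = true := by
          rw [hlstD]
          simpa using (mem_filter.mp hjU).2
        have := getD_filter_rk lst e (fun x => decide (x ≠ e)) j (by simpa [lst] using hj) hQ
        rw [hU, hlstD] at this
        exact this.symm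
      · have hmem : ε j ∉ U.image ε := by
          rw [hε.injective.mem_finset_image]
          exact hjU
        rw [if_neg hmem]
        by_contra hce
        exact hjU (mem_filter.mpr ⟨mem_range.mpr hj, hce⟩)
    · have hq1 := hτ2 q hex
      have hv : hostWord (W i) τ q = e := by
        simp only [hostWord, hq1, Sum.elim_inr, id_eq]
      rw [hv]
      have hmem : q.val ∉ U.image ε := by
        intro h
        obtain ⟨j, hj, hjq⟩ := mem_image.mp h
        exact hex ⟨j, mem_range.mp (mem_filter.mp hj).1, hjq⟩
      rw [if_neg hmem]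
  rw [hword]
  have h3 := congrFun hgU (strOf (flat (y i)))
  rw [h3]
  exact hk i


end Tokens

section Main

/-- Pull-back of a word Ramsey family along a map of indices. -/
theorem wordRamsey_comp {ι ι' P Λ : Type} [DecidableEq P] [DecidableEq Λ] {W : ι → P → Λ} {M : ℕ}
    (h : WordRamsey W M) (f : ι' → ι) : WordRamsey (fun i => W (f i)) M := by
  intro r hr
  obtain ⟨n, K, hc⟩ := h r hr
  refine ⟨n, K, fun c => ?_⟩
  obtain ⟨τ, h1, h2, k, hk⟩ := hc c
  exact ⟨τ, h1, fun i l => h2 (f i) l, k, fun i => hk (f i)⟩

/-- Word Ramsey families can be transported along a bijection of the positions. -/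
theorem wordRamsey_reindex {ι P P' Λ : Type} [DecidableEq P] [DecidableEq P'] [DecidableEq Λ]
    (e : P ≃ P') {W : ι → P → Λ} {M : ℕ} (h : WordRamsey (fun i => W i ∘ e.symm) M) :
    WordRamsey W M := by
  intro r hr
  obtain ⟨n, K, hc⟩ := h r hr
  refine ⟨n, K, fun c => ?_⟩
  obtain ⟨τ, h1, h2, k, hk⟩ := hc c
  have hw : ∀ i, hostWord (W i) (Sum.map e.symm id ∘ τ) = hostWord (W i ∘ e.symm) τ := by
    intro i
    funext q
    simp only [hostWord, Function.comp_apply]
    rcases τ q with p | l <;> simp
  refine ⟨Sum.map e.symm id ∘ τ, fun p => ?_, fun i l => ?_, k, fun i => ?_⟩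
  · rw [← h1 (e p)]
    congr 1
    ext q
    simp only [mem_filter, mem_univ, true_and, Function.comp_apply]
    rcases τ q with p' | l
    · simp only [Sum.map_inl, Sum.inl.injEq]
      constructor
      · intro hh
        rw [← hh]
        simp
      · intro hh
        rw [hh]
        simp
    · simp
  · rw [hw]
    exact h2 i l
  · rw [hw]
    exact hk i

theorem count_map_toList {X Y : Type} [Fintype X] [DecidableEq X]
    [DecidableEq Y] (f : X → Y) (a : Y) :
    (((univ : Finset X).toList).map f).countP (fun t => decide (t = a)) =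
      (univ.filter (fun x => f x = a)).card := by
  rw [List.countP_map, List.countP_eq_length_filter,
    ← List.toFinset_card_of_nodup ((Finset.nodup_toList _).filter _), List.toFinset_filter,
    Finset.toList_toFinset]
  congr 1
  ext x
  simp

theorem card_filter_comp_equiv {X : Type} [Fintype X] [DecidableEq X] (s : Equiv.Perm X)
    (Q : X → Prop) [DecidablePred Q] :
    (univ.filter (fun x => Q (s x))).card = (univ.filter Q).card := by
  rw [card_filter, card_filter]
  exact Equiv.sum_comp s (fun l => if Q l then 1 else 0)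

/-- **Single family theorem, word form.** All rearrangements of a word are word Ramsey. -/
theorem wordRamsey_perm {N : ℕ} {Λ : Type} [Fintype Λ] [DecidableEq Λ] (w₀ : Fin N → Λ) :
    ∃ M, 0 < M ∧ WordRamsey (fun π : Equiv.Perm (Fin N) => w₀ ∘ ⇑π⁻¹) M := by
  classical
  rcases Nat.eq_zero_or_pos N with rfl | hN
  · refine ⟨1, one_pos, WordRamsey.const _ w₀ fun π => ?_⟩
    funext x
    exact x.elim0
  let e : Λ := w₀ ⟨0, hN⟩
  obtain ⟨P', _, _, A, F, b, hb, hA, hcount, hF⟩ := formulaStmt N
  letI : Fintype A := Fintype.ofFinite A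
  let leaves : List P' := (univ : Finset P').toList
  let y : P' → Λ := fun x => w₀ (Sum.elim id id (F x))
  let Rd : A → List Λ := fun t =>
    (leaves.map (fun x => y ((t : Equiv.Perm P') x))).filter (· ≠ e)
  let S : Finset (List Λ) := univ.image Rd
  let e' : {l // l ∈ S} ≃ Fin S.card := S.equivFin
  have hRd : ∀ t, Rd t ∈ S := fun t => mem_image_of_mem Rd (mem_univ t)
  let u : A → Fin S.card := fun t => e' ⟨Rd t, hRd t⟩
  let fl : Fin S.card → List Λ := fun θ => (e'.symm θ).1
  have hfl' : ∀ t, fl (u t) = Rd t := by
    intro t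
    simp [fl, u]
  have hflne : ∀ θ, e ∉ fl θ := by
    intro θ hθ
    have hmem := (e'.symm θ).2
    obtain ⟨t, -, ht⟩ := mem_image.mp hmem
    have h1 : e ∈ Rd t := by
      rw [ht]
      exact hθ
    simpa [Rd] using (List.mem_filter.mp h1).2
  choose g hgA hg using fun π : Equiv.Perm (Fin N) => hF id π⁻¹
  let gg : Equiv.Perm (Fin N) → A := fun π => ⟨g π, hgA π⟩
  obtain ⟨M', hM'⟩ := reach_of_isPGroup hA u
  have hWR := wordRamsey_comp hM'.wordRamsey gg
  let tok : P' → Fin N ⊕ Λ := fun x => Sum.map id w₀ (F x)
  let σ : A → List (Fin N ⊕ Λ) := fun s => leaves.map (fun x => tok ((s : Equiv.Perm P') x))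
  have htok : ∀ (x : P') (p : Fin N), tok x = Sum.inl p ↔ F x = Sum.inl p := by
    intro x p
    simp only [tok]
    rcases F x with i | c <;> simp
  have hcov : ∀ p, ∑ s, (σ s).countP (fun t => decide (t = Sum.inl p)) = Fintype.card A * b := by
    intro p
    have h1 : ∀ s : A, (σ s).countP (fun t => decide (t = Sum.inl p)) = b := by
      intro s
      simp only [σ, leaves]
      rw [count_map_toList]
      rw [← hcount p]
      have h2 := card_filter_comp_equiv (s : Equiv.Perm P') (fun l => F l = Sum.inl p)
      rw [← h2]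
      congr 1
      ext x
      simp only [mem_filter, mem_univ, true_and]
      exact htok _ _
    simp only [h1]
    simp
  have hread : ∀ (π : Equiv.Perm (Fin N)) (s : A), fl (orbitFamily u (gg π) s) =
      ((σ s).map (Sum.elim (w₀ ∘ ⇑π⁻¹) id)).filter (· ≠ e) := by
    intro π s
    simp only [orbitFamily]
    rw [hfl']
    simp only [Rd, σ, List.map_map]
    congr 1
    apply List.map_congr_left
    intro x _
    simp only [Function.comp_apply, Subgroup.coe_mul, Subgroup.coe_inv, Equiv.Perm.mul_apply, gg, y]
    have h3 := hg π ((g π)⁻¹ ((s : Equiv.Perm P') x))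
    have h4 : g π ((g π)⁻¹ ((s : Equiv.Perm P') x)) = (s : Equiv.Perm P') x := by simp
    rw [h4] at h3
    rw [← h3]
    simp only [tok]
    rcases F ((s : Equiv.Perm P') x) with i | c <;> simp
  have hfinal := wordRamsey_of_tokens (fun π : Equiv.Perm (Fin N) => w₀ ∘ ⇑π⁻¹) e σ _ hcov fl hflne
    (fun π => orbitFamily u (gg π)) hread hWR
  refine ⟨_, ?_, hfinal⟩
  have h0 : 0 < M' := hM'.pos
  have h1 : 0 < Fintype.card A := Fintype.card_pos
  positivity

/-- **Single family theorem, word form.** Every nonempty family of words of equal content on a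
finite set of positions is word Ramsey. -/
theorem wordRamsey_of_equal_content {ι Q Λ : Type} [Nonempty ι] [Fintype Q] [DecidableEq Q]
    [Fintype Λ] [DecidableEq Λ] (W : ι → Q → Λ)
    (h : ∀ i j l, (univ.filter (fun q => W i q = l)).card = (univ.filter (fun q => W j q = l)).card) :
    ∃ M, 0 < M ∧ WordRamsey W M := by
  classical
  let e := Fintype.equivFin Q
  let i0 : ι := Classical.arbitrary ι
  let w₀ : Fin (Fintype.card Q) → Λ := W i0 ∘ e.symm
  have hcard : ∀ (i : ι) (l : Λ),
      (univ.filter (fun a => (W i ∘ e.symm) a = l)).card = (univ.filter (fun q => W i q = l)).card := by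
    intro i l
    rw [card_filter, card_filter]
    exact Equiv.sum_comp e.symm (fun q => if W i q = l then 1 else 0)
  have hperm : ∀ i, ∃ π : Equiv.Perm (Fin (Fintype.card Q)), w₀ ∘ ⇑π⁻¹ = W i ∘ e.symm := by
    intro i
    have hfe : ∀ l, Nonempty ({a // (W i ∘ e.symm) a = l} ≃ {b // w₀ b = l}) := by
      intro l
      apply Fintype.card_eq.mp
      rw [Fintype.card_subtype, Fintype.card_subtype]
      simp only [w₀]
      rw [hcard, hcard]
      exact h i i0 l
    let fe := fun l => Classical.choice (hfe l)
    let p := Equiv.ofFiberEquiv fe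
    refine ⟨p⁻¹, ?_⟩
    funext a
    simp only [inv_inv, Function.comp_apply]
    exact Equiv.ofFiberEquiv_map fe a
  choose π hπ using hperm
  obtain ⟨M, hM, hW⟩ := wordRamsey_perm w₀
  refine ⟨M, hM, wordRamsey_reindex e ?_⟩
  have := wordRamsey_comp hW π
  simpa only [hπ] using this

end Main

end Vale.Agent.Lib.P058K
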