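import Mathlib
import Vale.Agent.Lib.P058K.FiveSpherical
import Vale.Agent.Lib.P058K.QuadInterp

/-!
# Six points of a sphere that do not lie in one plane are separated by quadratics
-/

set_option linter.unusedVariables false
set_option linter.unusedSectionVars false

namespace Vale.Agent.Lib.P058K

open scoped RealInnerProductSpace

variable {d : ℕ}

/-- An affine function vanishing at three points and not at a fourth one outside their plane. -/
theorem exists_affine_triple (a b₁ b₂ b₃ : EuclideanSpace ℝ (Fin d))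
    (h : a - b₁ ∉ Submodule.span ℝ {b₂ - b₁, b₃ - b₁}) :
    ∃ (u : EuclideanSpace ℝ (Fin d)) (s : ℝ),
      ⟪u, a⟫ + s ≠ 0 ∧ ⟪u, b₁⟫ + s = 0 ∧ ⟪u, b₂⟫ + s = 0 ∧ ⟪u, b₃⟫ + s = 0 := by
  classical
  set W := Submodule.span ℝ {b₂ - b₁, b₃ - b₁} with hW
  haveI : FiniteDimensional ℝ W := FiniteDimensional.span_of_finite ℝ (Set.toFinite _)
  set p : EuclideanSpace ℝ (Fin d) := W.starProjection (a - b₁) with hp
  set n : EuclideanSpace ℝ (Fin d) := (a - b₁) - p with hn
  have hnorth : n ∈ Wᗮ := Submodule.sub_starProjection_mem_orthogonal _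
  have hpW : p ∈ W := Submodule.starProjection_apply_mem _ _
  have hn0 : n ≠ 0 := by
    intro h0
    apply h
    have : a - b₁ = p := sub_eq_zero.mp h0
    rw [this]
    exact hpW
  have h2 : ⟪n, b₂ - b₁⟫ = 0 := by
    have hm : b₂ - b₁ ∈ W := Submodule.subset_span (by simp)
    have := (Submodule.mem_orthogonal _ _).mp hnorth _ hm
    rwa [real_inner_comm] at this
  have h3 : ⟪n, b₃ - b₁⟫ = 0 := by
    have hm : b₃ - b₁ ∈ W := Submodule.subset_span (by simp)
    have := (Submodule.mem_orthogonal _ _).mp hnorth _ hm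
    rwa [real_inner_comm] at this
  have hpn : ⟪n, p⟫ = 0 := by
    have := (Submodule.mem_orthogonal _ _).mp hnorth _ hpW
    rwa [real_inner_comm] at this
  refine ⟨n, -⟪n, b₁⟫, ?_, by ring, ?_, ?_⟩
  · have e : ⟪n, a⟫ + -⟪n, b₁⟫ = ⟪n, a - b₁⟫ := by rw [inner_sub_right]; ring
    have e2 : a - b₁ = n + p := by rw [hn]; abel
    rw [e, e2, inner_add_right, hpn, add_zero]
    exact inner_self_ne_zero.2 hn0
  · have e : ⟪n, b₂⟫ + -⟪n, b₁⟫ = ⟪n, b₂ - b₁⟫ := by rw [inner_sub_right]; ring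
    rw [e, h2]
  · have e : ⟪n, b₃⟫ + -⟪n, b₁⟫ = ⟪n, b₃ - b₁⟫ := by rw [inner_sub_right]; ring
    rw [e, h3]

/-- Separation from a triple outside whose plane the point lies, and a pair. -/
theorem sep_of_triple (a b₀ b₁ b₂ b₃ b₄ c : EuclideanSpace ℝ (Fin d)) (r : ℝ)
    (ha : dist a c = r) (h₃ : dist b₃ c = r) (h₄ : dist b₄ c = r)
    (n₃ : a ≠ b₃) (n₄ : a ≠ b₄)
    (h : a - b₀ ∉ Submodule.span ℝ {b₁ - b₀, b₂ - b₀}) :
    ∃ (u v : EuclideanSpace ℝ (Fin d)) (s t : ℝ), (⟪u, a⟫ + s) * (⟪v, a⟫ + t) ≠ 0 ∧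
      ((⟪u, b₀⟫ + s) * (⟪v, b₀⟫ + t) = 0) ∧ ((⟪u, b₁⟫ + s) * (⟪v, b₁⟫ + t) = 0) ∧
      ((⟪u, b₂⟫ + s) * (⟪v, b₂⟫ + t) = 0) ∧ ((⟪u, b₃⟫ + s) * (⟪v, b₃⟫ + t) = 0) ∧
      ((⟪u, b₄⟫ + s) * (⟪v, b₄⟫ + t) = 0) := by
  obtain ⟨u, s, hu, h0, h1, h2⟩ := exists_affine_triple a b₀ b₁ b₂ h
  obtain ⟨v, t, hv, h3, h4⟩ := exists_affine_secant a b₃ b₄ c r ha h₃ h₄ n₃ n₄
  refine ⟨u, v, s, t, mul_ne_zero hu hv, ?_, ?_, ?_, ?_, ?_⟩
  · rw [h0, zero_mul]
  · rw [h1, zero_mul]
  · rw [h2, zero_mul]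
  · rw [h3, mul_zero]
  · rw [h4, mul_zero]

/-- If `a` lies in the plane of `b₀, b₁, b`, then `b` lies in the plane of `a, b₀, b₁`. -/
theorem plane_swap (a b₀ b₁ b c : EuclideanSpace ℝ (Fin d)) (r : ℝ)
    (ha : dist a c = r) (h₀ : dist b₀ c = r) (h₁ : dist b₁ c = r)
    (n₀ : a ≠ b₀) (n₁ : a ≠ b₁)
    (h : a - b₀ ∈ Submodule.span ℝ {b₁ - b₀, b - b₀}) :
    ∃ α β : ℝ, b = b₀ + α • (a - b₀) + β • (b₁ - b₀) := by
  obtain ⟨u, s, hu, hu0, hu1⟩ := exists_affine_secant a b₀ b₁ c r ha h₀ h₁ n₀ n₁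
  obtain ⟨p, q, hpq⟩ := Submodule.mem_span_pair.mp h
  have hq : q ≠ 0 := by
    intro hq0
    apply hu
    have e1 : ⟪u, a - b₀⟫ = p * ⟪u, b₁ - b₀⟫ := by
      rw [← hpq, hq0, zero_smul, add_zero, inner_smul_right]
    have e2 : ⟪u, b₁ - b₀⟫ = 0 := by
      rw [inner_sub_right]; linarith
    rw [e2, mul_zero, inner_sub_right] at e1
    linarith
  refine ⟨1 / q, -p / q, ?_⟩
  have e : q • (b - b₀) = (a - b₀) - p • (b₁ - b₀) := by
    rw [← hpq]; abel
  have e2 : b - b₀ = (1 / q) • (a - b₀) + (-p / q) • (b₁ - b₀) := by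
    have := congrArg (fun y => (1 / q) • y) e
    simp only [smul_smul] at this
    rw [one_div, inv_mul_cancel₀ hq, one_smul, smul_sub, smul_smul] at this
    have h1 : (1 / q) = q⁻¹ := one_div q
    have h2 : (-p / q) = -(q⁻¹ * p) := by field_simp
    rw [this, h1, h2, neg_smul, sub_eq_add_neg]
  have e3 : b = b₀ + (b - b₀) := by abel
  rw [e3, e2]
  abel

/-- Separation by a product of two affine functions for at most six points of a sphere that do
not lie in a common plane. -/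
theorem exists_quadratic_separating_six {k : ℕ} (hk : k ≤ 6) (x : Fin k → EuclideanSpace ℝ (Fin d))
    (hinj : Function.Injective x) (c : EuclideanSpace ℝ (Fin d)) (r : ℝ)
    (hs : ∀ a, dist (x a) c = r)
    (hnp : ¬ ∃ p v w : EuclideanSpace ℝ (Fin d), ∀ i, ∃ α β : ℝ, x i = p + α • v + β • w)
    (a : Fin k) :
    ∃ (u v : EuclideanSpace ℝ (Fin d)) (s t : ℝ), (⟪u, x a⟫ + s) * (⟪v, x a⟫ + t) ≠ 0 ∧
      ∀ b, b ≠ a → (⟪u, x b⟫ + s) * (⟪v, x b⟫ + t) = 0 := by
  classical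
  by_cases hk5 : k ≤ 5
  · exact exists_quadratic_separating hk5 x hinj c r hs a
  have hk6 : k = 6 := by omega
  subst hk6
  let S : Type := {b : Fin 6 // b ≠ a}
  have hcard : Fintype.card S = 5 := by
    simp only [S]
    rw [Fintype.card_subtype_compl]
    simp
  let e : Fin 5 ≃ S := (Fintype.equivFinOfCardEq hcard).symm
  let b : Fin 5 → EuclideanSpace ℝ (Fin d) := fun i => x (e i).1
  have hb : ∀ i, dist (b i) c = r := fun i => hs _
  have hab : ∀ i, x a ≠ b i := fun i h => (e i).2 (hinj h).symm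
  have key : ∀ (i j l : Fin 5), x a - b 0 ∉ Submodule.span ℝ {b 1 - b 0, b i - b 0} →
      (∀ m : Fin 5, m = 0 ∨ m = 1 ∨ m = i ∨ m = j ∨ m = l) →
      ∃ (u v : EuclideanSpace ℝ (Fin d)) (s t : ℝ), (⟪u, x a⟫ + s) * (⟪v, x a⟫ + t) ≠ 0 ∧
        ∀ b, b ≠ a → (⟪u, x b⟫ + s) * (⟪v, x b⟫ + t) = 0 := by
    intro i j l h hm
    obtain ⟨u, v, s, t, h0, h1, h2, h3, h4, h5⟩ := sep_of_triple (x a) (b 0) (b 1) (b i) (b j) (b l) c r
      (hs a) (hb j) (hb l) (hab j) (hab l) h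
    refine ⟨u, v, s, t, h0, fun y hy => ?_⟩
    have hy' : y = (e (e.symm ⟨y, hy⟩)).1 := by simp
    rw [hy']
    rcases hm (e.symm ⟨y, hy⟩) with hh | hh | hh | hh | hh <;> rw [hh]
    · exact h1
    · exact h2
    · exact h3
    · exact h4
    · exact h5
  by_cases h2 : x a - b 0 ∈ Submodule.span ℝ {b 1 - b 0, b 2 - b 0}
  · by_cases h3 : x a - b 0 ∈ Submodule.span ℝ {b 1 - b 0, b 3 - b 0}
    · by_cases h4 : x a - b 0 ∈ Submodule.span ℝ {b 1 - b 0, b 4 - b 0}
      · exfalso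
        apply hnp
        refine ⟨b 0, x a - b 0, b 1 - b 0, fun y => ?_⟩
        by_cases hy : y = a
        · refine ⟨1, 0, ?_⟩
          rw [hy]; simp
        · have hy' : y = (e (e.symm ⟨y, hy⟩)).1 := by simp
          rw [hy']
          set m := e.symm ⟨y, hy⟩
          have hgen : ∀ i : Fin 5, x a - b 0 ∈ Submodule.span ℝ {b 1 - b 0, b i - b 0} →
              ∃ α β : ℝ, b i = b 0 + α • (x a - b 0) + β • (b 1 - b 0) := fun i hi =>
            plane_swap (x a) (b 0) (b 1) (b i) c r (hs a) (hb 0) (hb 1) (hab 0) (hab 1) hi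
          have hall : ∀ m : Fin 5, ∃ α β : ℝ, b m = b 0 + α • (x a - b 0) + β • (b 1 - b 0) := by
            intro m
            fin_cases m
            · exact ⟨0, 0, by simp⟩
            · exact ⟨0, 1, by simp⟩
            · exact hgen 2 h2
            · exact hgen 3 h3
            · exact hgen 4 h4
          exact hall m
      · exact key 4 2 3 h4 (by decide)
    · exact key 3 2 4 h3 (by decide)
  · exact key 2 3 4 h2 (by decide)

/-- Interpolation by quadratics from separation by products of two affine functions. -/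
theorem quadInterp_of_sep {k : ℕ} (x : Fin k → EuclideanSpace ℝ (Fin d))
    (hsep : ∀ a, ∃ (u v : EuclideanSpace ℝ (Fin d)) (s t : ℝ),
      (⟪u, x a⟫ + s) * (⟪v, x a⟫ + t) ≠ 0 ∧ ∀ b, b ≠ a → (⟪u, x b⟫ + s) * (⟪v, x b⟫ + t) = 0) :
    QI.QuadInterp x := by
  classical
  intro g
  choose u v s t h0 h1 using hsep
  have hinner : ∀ (w y : EuclideanSpace ℝ (Fin d)), ⟪w, y⟫ = ∑ i, w i * y i := by
    intro w y
    simp [PiLp.inner_apply, mul_comm]
  let q : Fin k → Fin k → ℝ := fun b a => (⟪u b, x a⟫ + s b) * (⟪v b, x a⟫ + t b)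
  have hq : ∀ b a, q b a = s b * t b + (∑ i, (t b * u b i + s b * v b i) * x a i) +
      ∑ i, ∑ j, (u b i * v b j) * (x a i * x a j) := by
    intro b a
    simp only [q, hinner]
    have e1 : ∑ i, ∑ j, (u b i * v b j) * (x a i * x a j) =
        (∑ i, u b i * x a i) * (∑ j, v b j * x a j) := by
      rw [Finset.sum_mul_sum]
      refine Finset.sum_congr rfl fun i _ => Finset.sum_congr rfl fun j _ => by ring
    have e2 : ∑ i, (t b * u b i + s b * v b i) * x a i =
        t b * (∑ i, u b i * x a i) + s b * (∑ j, v b j * x a j) := by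
      rw [Finset.mul_sum, Finset.mul_sum, ← Finset.sum_add_distrib]
      refine Finset.sum_congr rfl fun i _ => by ring
    rw [e1, e2]; ring
  let lam : Fin k → ℝ := fun b => g b / q b b
  refine ⟨∑ b, lam b * (s b * t b), fun i => ∑ b, lam b * (t b * u b i + s b * v b i),
    fun i j => ∑ b, lam b * (u b i * v b j), fun a => ?_⟩
  have hsum : g a = ∑ b, lam b * q b a := by
    rw [Finset.sum_eq_single a]
    · change g a = g a / q a a * q a a
      rw [div_mul_cancel₀ _ (h0 a)]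
    · intro b _ hb
      have : q b a = 0 := h1 b a (Ne.symm hb)
      rw [this, mul_zero]
    · intro h; exact absurd (Finset.mem_univ a) h
  have e2 : ∑ i, (∑ b, lam b * (t b * u b i + s b * v b i)) * x a i =
      ∑ b, lam b * ∑ i, (t b * u b i + s b * v b i) * x a i := by
    simp_rw [Finset.sum_mul, Finset.mul_sum, mul_assoc]
    rw [Finset.sum_comm]
  have e3 : ∑ i, ∑ j, (∑ b, lam b * (u b i * v b j)) * (x a i * x a j) =
      ∑ b, lam b * ∑ i, ∑ j, (u b i * v b j) * (x a i * x a j) := by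
    simp_rw [Finset.sum_mul, Finset.mul_sum, mul_assoc]
    symm
    refine Finset.sum_comm.trans (Finset.sum_congr rfl fun i _ => ?_)
    exact Finset.sum_comm
  rw [hsum, e2, e3, ← Finset.sum_add_distrib, ← Finset.sum_add_distrib]
  refine Finset.sum_congr rfl fun b _ => ?_
  rw [hq]; ring

/-- **Two-hyperplane criterion.** A family of distinct points of a sphere is Ramsey as soon as for
every point `a` the other points are covered by two affine hyperplanes missing `a`. -/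
theorem isRamseyFamily_of_two_hyperplanes {k : ℕ} (x : Fin k → EuclideanSpace ℝ (Fin d))
    (c : EuclideanSpace ℝ (Fin d)) (r : ℝ) (hs : ∀ a, dist (x a) c = r)
    (hsep : ∀ a, ∃ (u v : EuclideanSpace ℝ (Fin d)) (s t : ℝ),
      (⟪u, x a⟫ + s) * (⟪v, x a⟫ + t) ≠ 0 ∧ ∀ b, b ≠ a → (⟪u, x b⟫ + s) * (⟪v, x b⟫ + t) = 0) :
    Vale.Agent.Lib.P058.IsRamseyFamily x :=
  QI.isRamseyFamily_of_quadInterp x c r hs (quadInterp_of_sep x hsep)

/-- **At most six points of a sphere, not all in one plane, form a Ramsey set.** -/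
theorem isRamseyFamily_six_nonplanar {k : ℕ} (hk : k ≤ 6) (x : Fin k → EuclideanSpace ℝ (Fin d))
    (hinj : Function.Injective x) (c : EuclideanSpace ℝ (Fin d)) (r : ℝ)
    (hs : ∀ a, dist (x a) c = r)
    (hnp : ¬ ∃ p v w : EuclideanSpace ℝ (Fin d), ∀ i, ∃ α β : ℝ, x i = p + α • v + β • w) :
    Vale.Agent.Lib.P058.IsRamseyFamily x :=
  isRamseyFamily_of_two_hyperplanes x c r hs
    (exists_quadratic_separating_six hk x hinj c r hs hnp)

end Vale.Agent.Lib.P058K
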