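import Mathlib
import Vale.Agent.Lib.P058K.SixSpherical
import Vale.Agent.Lib.P058K.FiveRamsey
import Vale.Agent.Lib.P058S.Assembly
import Vale.Agent.Lib.P058S.SixSigned

/-!
# Every spherical set of at most six points is Ramsey
-/

set_option linter.unusedVariables false
set_option linter.unusedSectionVars false

namespace Vale.Agent.Lib.P058K

open scoped RealInnerProductSpace
open Vale.Agent.Lib.P058

variable {d : ℕ}

/-- Core: six points with coordinates in an orthonormal pair. -/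
theorem isRamseyFamily_six_of_frame (x : Fin 6 → EuclideanSpace ℝ (Fin d))
    (hinj : Function.Injective x) (c : EuclideanSpace ℝ (Fin d)) (r : ℝ)
    (hs : ∀ a, dist (x a) c = r) (e1 e2 : EuclideanSpace ℝ (Fin d))
    (he11 : ⟪e1, e1⟫ = 1) (he22 : ⟪e2, e2⟫ = 1) (he12 : ⟪e1, e2⟫ = 0)
    (X Y : Fin 6 → ℝ) (hXY : ∀ i, x i - x 0 = X i • e1 + Y i • e2) :
    IsRamseyFamily x := by
  classical
  have hnorm : ∀ a b : ℝ, ‖a • e1 + b • e2‖ ^ 2 = a ^ 2 + b ^ 2 := by
    intro a b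
    rw [← real_inner_self_eq_norm_sq]
    simp only [inner_add_left, inner_add_right, inner_smul_left, inner_smul_right, he11, he22,
      he12, real_inner_comm e1 e2, conj_trivial]
    ring
  have hdist : ∀ i j, dist (x i) (x j) ^ 2 = (X i - X j) ^ 2 + (Y i - Y j) ^ 2 := by
    intro i j
    have : x i - x j = (X i - X j) • e1 + (Y i - Y j) • e2 := by
      have h3 : x i - x j = (x i - x 0) - (x j - x 0) := by abel
      rw [h3, hXY i, hXY j, sub_smul, sub_smul]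
      abel
    rw [dist_eq_norm, this, hnorm]
  -- the circle
  obtain ⟨c', hc'⟩ : ∃ c', c' = c - x 0 := ⟨_, rfl⟩
  obtain ⟨z0, hz0⟩ : ∃ z0, z0 = ⟪e1, c'⟫ := ⟨_, rfl⟩
  obtain ⟨z1, hz1⟩ : ∃ z1, z1 = ⟪e2, c'⟫ := ⟨_, rfl⟩
  have hcirc : ∀ i, (X i - z0) ^ 2 + (Y i - z1) ^ 2 = r ^ 2 - ‖c'‖ ^ 2 + z0 ^ 2 + z1 ^ 2 := by
    intro i
    have h3 : x i - c = (X i • e1 + Y i • e2) - c' := by
      rw [← hXY i, hc']; abel
    have h4 : ‖x i - c‖ ^ 2 = r ^ 2 := by rw [← dist_eq_norm, hs i]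
    rw [h3, norm_sub_sq_real, hnorm, inner_add_left, inner_smul_left, inner_smul_left,
      ← hz0, ← hz1] at h4
    simp only [conj_trivial] at h4
    nlinarith
  have hne : ∀ i j, i ≠ j → X i ≠ X j ∨ Y i ≠ Y j := by
    intro i j hij
    by_contra hcon
    push Not at hcon
    apply hij
    apply hinj
    have h3 := hXY i
    rw [hcon.1, hcon.2, ← hXY j] at h3
    exact sub_left_injective h3
  obtain ⟨Rsq, hRsq⟩ : ∃ Rsq, Rsq = r ^ 2 - ‖c'‖ ^ 2 + z0 ^ 2 + z1 ^ 2 := ⟨_, rfl⟩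
  rw [← hRsq] at hcirc
  have hRpos : 0 < Rsq := by
    have h0 := hcirc 0
    have h3 : 0 ≤ Rsq := by rw [← h0]; positivity
    rcases h3.lt_or_eq with h | h
    · exact h
    · exfalso
      have e0 := hcirc 0
      have e1' := hcirc 1
      rw [← h] at e0 e1'
      have x0 : X 0 = z0 := by nlinarith [sq_nonneg (X 0 - z0), sq_nonneg (Y 0 - z1)]
      have y0 : Y 0 = z1 := by nlinarith [sq_nonneg (X 0 - z0), sq_nonneg (Y 0 - z1)]
      have x1 : X 1 = z0 := by nlinarith [sq_nonneg (X 1 - z0), sq_nonneg (Y 1 - z1)]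
      have y1 : Y 1 = z1 := by nlinarith [sq_nonneg (X 1 - z0), sq_nonneg (Y 1 - z1)]
      rcases hne 0 1 (by decide) with h' | h'
      · exact h' (x0.trans x1.symm)
      · exact h' (y0.trans y1.symm)
  have hsqrt : Real.sqrt Rsq ^ 2 = Rsq := Real.sq_sqrt hRpos.le
  have hsa := Vale.Agent.Lib.P058S.Six.six_signedArray X Y z0 z1 (Real.sqrt Rsq)
    (Real.sqrt_pos.mpr hRpos) (fun i => by rw [hsqrt]; exact hcirc i) hne
  let x2 : Fin 6 → EuclideanSpace ℝ (Fin 2) := fun i => WithLp.toLp 2 ![X i, Y i]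
  have hR2 : IsRamseyFamily x2 := by
    apply Vale.Agent.Lib.P058S.isRamseyFamily_of_signedArray
    have : (fun a p => x2 a p) = (fun i : Fin 6 => ![X i, Y i]) := by
      funext a p
      simp [x2]
    rw [this]
    exact hsa
  refine hR2.congr fun i j => ?_
  have h3 : dist (x i) (x j) ^ 2 = dist (x2 i) (x2 j) ^ 2 := by
    rw [hdist, QI.dist_sq_coord, Fin.sum_univ_two]
    simp [x2]
  exact (sq_eq_sq₀ dist_nonneg dist_nonneg).mp h3

/-- Gram–Schmidt on two vectors. -/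
theorem exists_frame_of_pair (v' w' u : EuclideanSpace ℝ (Fin d)) (hv'0 : v' ≠ 0)
    (huv : ⟪u, v'⟫ = 0) (huw : ⟪u, w'⟫ ≠ 0) :
    ∃ e1 e2 : EuclideanSpace ℝ (Fin d), ⟪e1, e1⟫ = 1 ∧ ⟪e2, e2⟫ = 1 ∧ ⟪e1, e2⟫ = 0 ∧
      ∀ a b : ℝ, ∃ X Y : ℝ, a • v' + b • w' = X • e1 + Y • e2 := by
  have hnv : ‖v'‖ ≠ 0 := norm_ne_zero_iff.mpr hv'0
  obtain ⟨e1, he1⟩ : ∃ e1, e1 = (1 / ‖v'‖) • v' := ⟨_, rfl⟩
  have he11 : ⟪e1, e1⟫ = 1 := by
    rw [he1, inner_smul_left, inner_smul_right, real_inner_self_eq_norm_sq]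
    simp only [conj_trivial]
    field_simp
  have hue1 : ⟪u, e1⟫ = 0 := by rw [he1, inner_smul_right, huv, mul_zero]
  obtain ⟨f, hf⟩ : ∃ f, f = w' - ⟪e1, w'⟫ • e1 := ⟨_, rfl⟩
  have hfe : ⟪e1, f⟫ = 0 := by
    rw [hf, inner_sub_right, inner_smul_right, he11]; ring
  have hf0 : f ≠ 0 := by
    intro h
    rw [h] at hf
    have hw : w' = ⟪e1, w'⟫ • e1 := sub_eq_zero.mp hf.symm
    apply huw
    rw [hw, inner_smul_right, hue1, mul_zero]
  have hnf : ‖f‖ ≠ 0 := norm_ne_zero_iff.mpr hf0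
  obtain ⟨e2, he2⟩ : ∃ e2, e2 = (1 / ‖f‖) • f := ⟨_, rfl⟩
  have he22 : ⟪e2, e2⟫ = 1 := by
    rw [he2, inner_smul_left, inner_smul_right, real_inner_self_eq_norm_sq]
    simp only [conj_trivial]
    field_simp
  have he12 : ⟪e1, e2⟫ = 0 := by
    rw [he2, inner_smul_right, hfe, mul_zero]
  have hv'f : ‖v'‖ • e1 = v' := by
    rw [he1, smul_smul, mul_one_div_cancel hnv, one_smul]
  have hf2 : ‖f‖ • e2 = f := by
    rw [he2, smul_smul, mul_one_div_cancel hnf, one_smul]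
  have hw'f : ⟪e1, w'⟫ • e1 + ‖f‖ • e2 = w' := by
    rw [hf2, hf]; abel
  refine ⟨e1, e2, he11, he22, he12, fun a b => ⟨a * ‖v'‖ + b * ⟪e1, w'⟫, b * ‖f‖, ?_⟩⟩
  have h1 : a • v' = (a * ‖v'‖) • e1 := by rw [mul_smul, hv'f]
  have h2 : b • w' = (b * ⟪e1, w'⟫) • e1 + (b * ‖f‖) • e2 := by
    rw [mul_smul, mul_smul, ← smul_add, hw'f]
  rw [h1, h2, add_smul]
  abel

/-- Planar span in terms of two differences. -/
theorem exists_span_of_plane (x : Fin 6 → EuclideanSpace ℝ (Fin d))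
    (u : EuclideanSpace ℝ (Fin d)) (hv'0 : x 1 - x 0 ≠ 0)
    (huv : ⟪u, x 1 - x 0⟫ = 0) (huw : ⟪u, x 2 - x 0⟫ ≠ 0)
    (p v w : EuclideanSpace ℝ (Fin d)) (α β : Fin 6 → ℝ)
    (hαβ : ∀ i, x i = p + α i • v + β i • w) :
    ∀ i, ∃ a b : ℝ, x i - x 0 = a • (x 1 - x 0) + b • (x 2 - x 0) := by
  obtain ⟨v', hv'⟩ : ∃ v', v' = x 1 - x 0 := ⟨_, rfl⟩
  obtain ⟨w', hw'⟩ : ∃ w', w' = x 2 - x 0 := ⟨_, rfl⟩
  rw [← hv'] at hv'0 huv ⊢
  rw [← hw'] at huw ⊢
  have hdiff : ∀ i, x i - x 0 = (α i - α 0) • v + (β i - β 0) • w := by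
    intro i
    rw [hαβ i, hαβ 0, sub_smul, sub_smul]
    abel
  obtain ⟨A, hA⟩ : ∃ A, A = α 1 - α 0 := ⟨_, rfl⟩
  obtain ⟨B, hB⟩ : ∃ B, B = β 1 - β 0 := ⟨_, rfl⟩
  obtain ⟨C, hC⟩ : ∃ C, C = α 2 - α 0 := ⟨_, rfl⟩
  obtain ⟨E, hE⟩ : ∃ E, E = β 2 - β 0 := ⟨_, rfl⟩
  have hv'e : v' = A • v + B • w := by rw [hv', hA, hB]; exact hdiff 1
  have hw'e : w' = C • v + E • w := by rw [hw', hC, hE]; exact hdiff 2
  obtain ⟨D, hD⟩ : ∃ D, D = A * E - B * C := ⟨_, rfl⟩
  have h1 : E • v' - B • w' = D • v := by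
    rw [hv'e, hw'e, hD]
    simp only [smul_add, smul_smul, sub_smul]
    rw [mul_comm E A, mul_comm E B, mul_comm B C]
    abel
  have h2 : A • w' - C • v' = D • w := by
    rw [hv'e, hw'e, hD]
    simp only [smul_add, smul_smul, sub_smul]
    rw [mul_comm C B, mul_comm C A]
    abel
  have hD0 : D ≠ 0 := by
    intro h
    rw [h, zero_smul] at h1 h2
    have hb : B = 0 := by
      have := congrArg (fun y => ⟪u, y⟫) h1
      simp only [inner_sub_right, inner_smul_right, huv, inner_zero_right, mul_zero] at this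
      have h3 : B * ⟪u, w'⟫ = 0 := by linarith
      exact (mul_eq_zero.mp h3).resolve_right huw
    have ha : A = 0 := by
      have := congrArg (fun y => ⟪u, y⟫) h2
      simp only [inner_sub_right, inner_smul_right, huv, inner_zero_right, mul_zero] at this
      have h3 : A * ⟪u, w'⟫ = 0 := by linarith
      exact (mul_eq_zero.mp h3).resolve_right huw
    apply hv'0
    rw [hv'e, ha, hb]
    simp
  have hvD : D • v = E • v' + (-B) • w' := by rw [← h1, neg_smul]; abel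
  have hwD : D • w = (-C) • v' + A • w' := by rw [← h2, neg_smul]; abel
  intro i
  refine ⟨((α i - α 0) * E + (β i - β 0) * (-C)) / D,
    ((α i - α 0) * (-B) + (β i - β 0) * A) / D, ?_⟩
  have key : D • (x i - x 0) = ((α i - α 0) * E + (β i - β 0) * (-C)) • v' +
      ((α i - α 0) * (-B) + (β i - β 0) * A) • w' := by
    rw [hdiff i, smul_add, smul_comm D (α i - α 0), smul_comm D (β i - β 0), hvD, hwD]
    simp only [smul_add, smul_smul, add_smul]
    abel
  have h3 : x i - x 0 = D⁻¹ • (D • (x i - x 0)) := by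
    rw [smul_smul, inv_mul_cancel₀ hD0, one_smul]
  rw [h3, key, smul_add, smul_smul, smul_smul, div_eq_inv_mul, div_eq_inv_mul]

/-- Six distinct points of a sphere in one plane are Ramsey. -/
theorem isRamseyFamily_six_planar (x : Fin 6 → EuclideanSpace ℝ (Fin d))
    (hinj : Function.Injective x) (c : EuclideanSpace ℝ (Fin d)) (r : ℝ)
    (hs : ∀ a, dist (x a) c = r)
    (hp : ∃ p v w : EuclideanSpace ℝ (Fin d), ∀ i, ∃ α β : ℝ, x i = p + α • v + β • w) :
    IsRamseyFamily x := by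
  classical
  obtain ⟨p, v, w, hpl⟩ := hp
  choose α β hαβ using hpl
  have hv'0 : x 1 - x 0 ≠ 0 := sub_ne_zero.mpr fun h => by
    have := hinj h
    simp at this
  have n0 : x 2 ≠ x 0 := fun h => by
    have := hinj h
    simp at this
  have n1 : x 2 ≠ x 1 := fun h => by
    have := hinj h
    simp at this
  obtain ⟨u, s, hu, hu0, hu1⟩ := exists_affine_secant (x 2) (x 0) (x 1) c r (hs 2) (hs 0) (hs 1) n0 n1
  have huv : ⟪u, x 1 - x 0⟫ = 0 := by
    rw [inner_sub_right]; linarith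
  have huw : ⟪u, x 2 - x 0⟫ ≠ 0 := by
    rw [inner_sub_right]
    intro h
    apply hu
    linarith
  have hspan := exists_span_of_plane x u hv'0 huv huw p v w α β hαβ
  obtain ⟨e1, e2, he11, he22, he12, hfr⟩ := exists_frame_of_pair _ _ u hv'0 huv huw
  have hcoord : ∀ i, ∃ X Y : ℝ, x i - x 0 = X • e1 + Y • e2 := by
    intro i
    obtain ⟨a, b, hab⟩ := hspan i
    obtain ⟨X, Y, hXY⟩ := hfr a b
    exact ⟨X, Y, hab.trans hXY⟩
  choose X Y hXY using hcoord
  exact isRamseyFamily_six_of_frame x hinj c r hs e1 e2 he11 he22 he12 X Y hXY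

/-- **Every family of at most six distinct points of a sphere is Ramsey**, in any dimension. -/
theorem isRamseyFamily_of_card_le_six {k : ℕ} (hk : k ≤ 6) (x : Fin k → EuclideanSpace ℝ (Fin d))
    (hinj : Function.Injective x) (c : EuclideanSpace ℝ (Fin d)) (r : ℝ)
    (hs : ∀ a, dist (x a) c = r) : IsRamseyFamily x := by
  by_cases hk5 : k ≤ 5
  · exact isRamseyFamily_of_card_le_five hk5 x hinj c r hs
  have hk6 : k = 6 := by omega
  subst hk6
  by_cases hp : ∃ p v w : EuclideanSpace ℝ (Fin d), ∀ i, ∃ α β : ℝ, x i = p + α • v + β • w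
  · exact isRamseyFamily_six_planar x hinj c r hs hp
  · exact isRamseyFamily_six_nonplanar le_rfl x hinj c r hs hp

/-- **Every spherical set of at most six points is Ramsey.** -/
theorem isRamsey_of_ncard_le_six (A : Set (EuclideanSpace ℝ (Fin d))) (hfin : A.Finite)
    (hcard : A.ncard ≤ 6) (c : EuclideanSpace ℝ (Fin d)) (r : ℝ) (hs : ∀ a ∈ A, dist a c = r) :
    IsRamsey A := by
  classical
  have hfin' := hfin.fintype
  let e := (Fintype.equivFin A).symm
  have hk : Fintype.card A ≤ 6 := by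
    have : Fintype.card A = A.ncard := by
      rw [← Nat.card_eq_fintype_card, Nat.card_coe_set_eq]
    rw [this]; exact hcard
  have hR := (isRamseyFamily_of_card_le_six hk (fun i => (e i : EuclideanSpace ℝ (Fin d)))
    (fun i j h => e.injective (Subtype.ext h)) c r (fun i => hs _ (e i).2)).range
  have hrange : Set.range (fun i => (e i : EuclideanSpace ℝ (Fin d))) = A := by
    ext y
    constructor
    · rintro ⟨i, rfl⟩; exact (e i).2
    · intro hy
      exact ⟨e.symm ⟨y, hy⟩, by simp⟩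
  rwa [hrange] at hR

end Vale.Agent.Lib.P058K
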