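import Mathlib
import Vale.Agent.Lib.P058S.Defs

/-!
# A signed balanced array forces the points onto a sphere
-/

namespace Vale.Agent.Lib.P058K.RS

open Finset Vale.Agent.Lib.P058S

/-- The sum of squares of a column over a multiset of columns, expanded in moments. -/
theorem sum_col_sq {d : ℕ} (M : Multiset (ℝ × (Fin d → ℝ))) (y : Fin d → ℝ) :
    (M.map (fun c => col c y ^ 2)).sum = (M.map (fun c => c.1 ^ 2)).sum +
      2 * ∑ p, (M.map (fun c => c.1 * c.2 p)).sum * y p +
      ∑ p, ∑ q, (M.map (fun c => c.2 p * c.2 q)).sum * (y p * y q) := by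
  induction M using Multiset.induction_on with
  | empty => simp
  | cons c M ih =>
    simp only [Multiset.map_cons, Multiset.sum_cons, ih]
    have h1 : col c y ^ 2 = c.1 ^ 2 + 2 * ∑ p, (c.1 * c.2 p) * y p +
        ∑ p, ∑ q, (c.2 p * c.2 q) * (y p * y q) := by
      unfold col
      have : ∑ p, ∑ q, (c.2 p * c.2 q) * (y p * y q) = (∑ p, c.2 p * y p) ^ 2 := by
        rw [pow_two, Finset.sum_mul_sum]
        exact sum_congr rfl fun p _ => sum_congr rfl fun q _ => by ring
      rw [this]
      have h2 : ∑ p, (c.1 * c.2 p) * y p = c.1 * ∑ p, c.2 p * y p := by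
        rw [Finset.mul_sum]
        exact sum_congr rfl fun p _ => by ring
      rw [h2]
      ring
    rw [h1]
    simp only [add_mul, Finset.sum_add_distrib, mul_add]
    ring

/-- The points of a signed balanced array lie on a sphere. -/
theorem exists_sphere_of_signedArray {k d : ℕ} (x : Fin k → Fin d → ℝ) (h : SignedArray x) :
    ∃ (z : Fin d → ℝ) (ρ : ℝ), ∀ a, ∑ p, (x a p - z p) ^ 2 = ρ := by
  obtain ⟨P, N, s, hs, hl, hm⟩ := h
  let E0 : ℝ := (P.map (fun c => c.1 ^ 2)).sum - (N.map (fun c => c.1 ^ 2)).sum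
  let E1 : Fin d → ℝ := fun p => (P.map (fun c => c.1 * c.2 p)).sum - (N.map (fun c => c.1 * c.2 p)).sum
  have hs' : s ≠ 0 := hs.ne'
  have key : ∀ a, E0 + 2 * ∑ p, E1 p * x a p + s * ∑ p, x a p ^ 2 = 0 := by
    intro a
    have h1 : (P.map (fun c => col c (x a) ^ 2)).sum = (N.map (fun c => col c (x a) ^ 2)).sum := by
      have h2 := congrArg (fun m => (m.map (fun t : ℝ => t ^ 2)).sum) (hl a)
      simpa [Multiset.map_map, Function.comp_def] using h2
    rw [sum_col_sq, sum_col_sq] at h1
    have h3 : ∑ p, ∑ q, (P.map (fun c => c.2 p * c.2 q)).sum * (x a p * x a q) -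
        ∑ p, ∑ q, (N.map (fun c => c.2 p * c.2 q)).sum * (x a p * x a q) =
        s * ∑ p, x a p ^ 2 := by
      rw [← Finset.sum_sub_distrib, Finset.mul_sum]
      refine sum_congr rfl fun p _ => ?_
      rw [← Finset.sum_sub_distrib]
      have h7 : ∀ q, (P.map (fun c => c.2 p * c.2 q)).sum * (x a p * x a q) -
          (N.map (fun c => c.2 p * c.2 q)).sum * (x a p * x a q) =
          if q = p then s * x a p ^ 2 else 0 := by
        intro q
        rw [← sub_mul, hm p q]
        by_cases hq : q = p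
        · subst hq
          rw [if_pos rfl, if_pos rfl]
          ring
        · have : p ≠ q := fun h => hq h.symm
          simp [hq, this]
      simp only [h7]
      simp
    have h4 : ∑ p, E1 p * x a p = ∑ p, (P.map (fun c => c.1 * c.2 p)).sum * x a p -
        ∑ p, (N.map (fun c => c.1 * c.2 p)).sum * x a p := by
      rw [← Finset.sum_sub_distrib]
      exact sum_congr rfl fun p _ => by simp only [E1]; ring
    rw [h4, ← h3]
    simp only [E0]
    linarith
  refine ⟨fun p => -E1 p / s, ∑ p, (E1 p / s) ^ 2 - E0 / s, fun a => ?_⟩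
  have h5 := key a
  have h6 : ∑ p, (x a p - -E1 p / s) ^ 2 =
      ∑ p, x a p ^ 2 + 2 / s * ∑ p, E1 p * x a p + ∑ p, (E1 p / s) ^ 2 := by
    rw [Finset.mul_sum, ← Finset.sum_add_distrib, ← Finset.sum_add_distrib]
    refine sum_congr rfl fun p _ => ?_
    field_simp
    ring
  rw [h6]
  field_simp
  field_simp at h5
  linarith

end Vale.Agent.Lib.P058K.RS
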