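import Mathlib
import Vale.Agent.Lib.P058K.SphereOfSigned
import Vale.Agent.Lib.P058S.SignedIff

/-!
# Ramsey families lie on a sphere
-/

namespace Vale.Agent.Lib.P058K.RS

open Vale.Agent.Lib.P058 Vale.Agent.Lib.P058S

/-- A finite Ramsey family lies on a sphere. -/
theorem exists_center_of_isRamsey {k d : ℕ} (x : Fin k → EuclideanSpace ℝ (Fin d))
    (h : IsRamsey (Set.range x)) :
    ∃ (z : EuclideanSpace ℝ (Fin d)) (r : ℝ), ∀ a, dist (x a) z = r := by
  obtain ⟨z, ρ, hz⟩ := exists_sphere_of_signedArray _ ((isRamsey_range_iff_signedArray x).mp h)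
  refine ⟨WithLp.toLp 2 z, Real.sqrt ρ, fun a => ?_⟩
  rw [EuclideanSpace.dist_eq]
  congr 1
  rw [← hz a]
  refine Finset.sum_congr rfl fun p _ => ?_
  simp [Real.dist_eq, sq_abs]

end Vale.Agent.Lib.P058K.RS
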