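import Vale.Agent.Lib.P058K.ListRamseyH30

/-!
# From equal-law column multisets to the Ramsey property

`LemmaCStmt` says that on host words the colour of a spelled word depends only on its content.
Together with Hales-Jewett and two column multisets `P`, `N` with equal laws at each index and
`D(N) = (lam / L) d²`, `D(P) = (lam / L + lam) d²`, this gives the Ramsey property.
-/

set_option linter.unusedVariables false
set_option linter.unusedSectionVars false

namespace Vale.Agent.Lib.P058K.R62

open Finset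
open Vale.Agent.Lib.P058

/-- The colour of a spelled word depends only on its content, for finitely many words at once. -/
def LemmaCStmt : Prop :=
  ∀ (Q : Type) [Fintype Q] [DecidableEq Q] (U : Finset (Q → ℝ)) (r : ℕ), 0 < r →
    ∃ M n : ℕ, 0 < M ∧ ∀ c : (Fin n → ℝ) → Fin r, ∃ τ : Fin n → Q ⊕ ℝ,
      (∀ q, (univ.filter fun p => τ p = Sum.inl q).card = M) ∧
      ∀ u ∈ U, ∀ π : Equiv.Perm Q, c (hostWord (u ∘ π) τ) = c (hostWord u τ)

/-- Lemma C over the real letters, from the statement over a finite alphabet. -/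
theorem lemmaCStmt : LemmaCStmt := by
  classical
  intro Q _ _ U r hr
  -- the finite alphabet
  let Ls : Finset ℝ := U.biUnion fun u => univ.image u
  have hmem : ∀ u ∈ U, ∀ q, u q ∈ Ls := fun u hu q =>
    mem_biUnion.mpr ⟨u, hu, mem_image_of_mem _ (mem_univ q)⟩
  let w0 : U → Q → Ls := fun u q => ⟨u.1 q, hmem u.1 u.2 q⟩
  obtain ⟨M, n, K, hM, h⟩ := listRamsey (Λ := Ls) w0 r hr
  refine ⟨M, n, hM, fun c => ?_⟩
  obtain ⟨τ', h1, -, h3⟩ := h (fun w => c (fun p => (w p : ℝ)))
  refine ⟨fun p => Sum.map id Subtype.val (τ' p), fun q => ?_, fun u hu π => ?_⟩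
  · rw [← h1 q]
    congr 1
    ext p
    simp only [mem_filter, mem_univ, true_and]
    rcases hp : τ' p with q₀ | l
    · simp
    · simp
  · obtain ⟨col, hcol⟩ := h3 ⟨u, hu⟩
    have key : ∀ π' : Equiv.Perm Q, (hostWord (u ∘ π') fun p => Sum.map id Subtype.val (τ' p)) =
        fun p => ((hostWord (w0 ⟨u, hu⟩ ∘ π') τ' p : Ls) : ℝ) := by
      intro π'
      funext p
      rcases hp : τ' p with q₀ | l
      · simp [hostWord, hp, w0]
      · simp [hostWord, hp]
    have e1 := hcol π
    have e2 := hcol 1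
    rw [key π]
    have e3 : hostWord u (fun p => Sum.map id Subtype.val (τ' p)) =
        fun p => ((hostWord (w0 ⟨u, hu⟩ ∘ (1 : Equiv.Perm Q)) τ' p : Ls) : ℝ) := by
      rw [← key 1]
      rfl
    rw [e3, e1, e2]

/-- Sum over host positions. -/
lemma sum_host {Q : Type} [Fintype Q] [DecidableEq Q] {n M : ℕ} (τ : Fin n → Q ⊕ ℝ)
    (hτ : ∀ q, (univ.filter fun p => τ p = Sum.inl q).card = M) (y y' : Q → ℝ) :
    ∑ p, (hostWord y τ p - hostWord y' τ p) ^ 2 = M * ∑ q, (y q - y' q) ^ 2 := by
  have h1 : ∀ p, (hostWord y τ p - hostWord y' τ p) ^ 2 =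
      ∑ q, if τ p = Sum.inl q then (y q - y' q) ^ 2 else 0 := by
    intro p
    rcases hp : τ p with q₀ | l
    · simp [hostWord, hp]
    · simp [hostWord, hp]
  simp_rw [h1]
  rw [Finset.sum_comm, Finset.mul_sum]
  refine Finset.sum_congr rfl fun q _ => ?_
  rw [← Finset.sum_filter, Finset.sum_const, hτ q, nsmul_eq_mul]

section Columns

variable {κ ι : Type} [Fintype ι] [DecidableEq ι] {B S : ℕ}

/-- The base word of `w`: `L` blocks of the law of `P` at `w j`. -/
def baseWord (P : Fin S → κ → ℝ) (w : ι → κ) : (ι × Fin B) × Fin S → ℝ :=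
  fun q => P q.2 (w q.1.1)

/-- The row `i` of the column array attached to a line. -/
def colWord (P N : Fin S → κ → ℝ) (idx : ι → Option (κ)) (T : Finset (ι × Fin B))
    (i : κ) : (ι × Fin B) × Fin S → ℝ := fun q =>
  match idx q.1.1 with
  | some b => P q.2 b
  | none => if q.1 ∈ T then P q.2 i else N q.2 i

/-- Each row of the column array is a rearrangement of the base word of the line point. -/
lemma col_eq_base_comp (P N : Fin S → κ → ℝ) (idx : ι → Option (κ))
    (T : Finset (ι × Fin B)) (i : κ) (ρ : Equiv.Perm (Fin S))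
    (hρ : ∀ s, P (ρ s) i = N s i) :
    ∃ π : Equiv.Perm ((ι × Fin B) × Fin S),
      colWord P N idx T i = baseWord P (fun j => (idx j).getD i) ∘ π := by
  classical
  let g : ι × Fin B → Equiv.Perm (Fin S) := fun p =>
    match idx p.1 with
    | some _ => 1
    | none => if p ∈ T then 1 else ρ
  refine ⟨Equiv.prodShear (Equiv.refl _) g, ?_⟩
  funext q
  rcases q with ⟨⟨j, a⟩, s⟩
  simp only [colWord, baseWord, Function.comp_apply, Equiv.prodShear_apply, Equiv.refl_apply]
  rcases hj : idx j with _ | b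
  · by_cases hT : (j, a) ∈ T
    · simp [g, hj, hT]
    · simp [g, hj, hT, hρ]
  · simp [g, hj]

/-- The squared distance of two rows of the column array. -/
lemma sum_col (P N : Fin S → κ → ℝ) (idx : ι → Option (κ)) (T : Finset (ι × Fin B))
    (hT : T ⊆ (univ.filter fun j => idx j = none) ×ˢ (univ : Finset (Fin B))) (i i' : κ) :
    ∑ q, (colWord P N idx T i q - colWord P N idx T i' q) ^ 2 =
      (T.card : ℝ) * ∑ s, (P s i - P s i') ^ 2 +
        ((((univ.filter fun j => idx j = none) ×ˢ (univ : Finset (Fin B))).card : ℝ) - T.card) *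
          ∑ s, (N s i - N s i') ^ 2 := by
  classical
  set A := (univ.filter fun j => idx j = none) ×ˢ (univ : Finset (Fin B)) with hA
  rw [Fintype.sum_prod_type]
  have h1 : ∀ p : ι × Fin B,
      ∑ s, (colWord P N idx T i (p, s) - colWord P N idx T i' (p, s)) ^ 2 =
        if p ∈ A then (if p ∈ T then ∑ s, (P s i - P s i') ^ 2 else ∑ s, (N s i - N s i') ^ 2)
        else 0 := by
    rintro ⟨j, a⟩
    rcases hj : idx j with _ | b
    · have hmem : (j, a) ∈ A := by simp [hA, hj]
      rw [if_pos hmem]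
      by_cases hp : (j, a) ∈ T
      · rw [if_pos hp]
        refine Finset.sum_congr rfl fun s _ => ?_
        simp [colWord, hj, hp]
      · rw [if_neg hp]
        refine Finset.sum_congr rfl fun s _ => ?_
        simp [colWord, hj, hp]
    · have hmem : (j, a) ∉ A := by simp [hA, hj]
      rw [if_neg hmem]
      refine Finset.sum_eq_zero fun s _ => ?_
      simp [colWord, hj]
  simp_rw [h1]
  rw [← Finset.sum_filter]
  have hfilt : (univ.filter fun p : ι × Fin B => p ∈ A) = A := by
    ext p
    simp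
  rw [hfilt, Finset.sum_ite]
  have hTf : A.filter (fun p => p ∈ T) = T := by
    ext p
    simp only [mem_filter]
    exact ⟨fun h => h.2, fun h => ⟨hT h, h⟩⟩
  have hTn : (A.filter (fun p => p ∉ T)).card = A.card - T.card := by
    have := Finset.card_sdiff_of_subset hT
    rw [← this]
    congr 1
    ext p
    simp [mem_filter, mem_sdiff]
  rw [hTf, Finset.sum_const, Finset.sum_const, hTn, nsmul_eq_mul, nsmul_eq_mul,
    Nat.cast_sub (Finset.card_le_card hT)]

end Columns

/-- **Theorem R.** -/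
theorem theoremR {κ : Type} [Finite κ] {d : ℕ} (x : κ → EuclideanSpace ℝ (Fin d))
    (hPN : ∀ L : ℕ, 1 ≤ L → ∃ (S : ℕ) (P N : Fin S → κ → ℝ) (lam : ℝ), 0 < S ∧ 0 < lam ∧
      (∀ i, ∃ π : Equiv.Perm (Fin S), ∀ s, P (π s) i = N s i) ∧
      (∀ i j, ∑ s, (N s i - N s j) ^ 2 = lam / L * dist (x i) (x j) ^ 2) ∧
      (∀ i j, ∑ s, (P s i - P s j) ^ 2 = (lam / L + lam) * dist (x i) (x j) ^ 2)) :
    IsRamseyFamily x := by
  classical
  have : Fintype κ := Fintype.ofFinite κ
  have hC := lemmaCStmt
  intro r hr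
  have hr0 : 0 < r := by omega
  obtain ⟨ι, _, hHJ⟩ := Combinatorics.Line.exists_mono_in_high_dimension κ (Fin r)
  have hι : Nonempty ι := by
    obtain ⟨l, -⟩ := hHJ (fun _ => ⟨0, hr0⟩)
    obtain ⟨i, -⟩ := l.proper
    exact ⟨i⟩
  obtain ⟨B, hBdef⟩ : ∃ B, B = Fintype.card ι := ⟨_, rfl⟩
  have hB : 1 ≤ B := by rw [hBdef]; exact Fintype.card_pos
  obtain ⟨S, P, N, lam, hS, hlam, hperm, hNd, hPd⟩ := hPN B hB
  choose ρ hρ using hperm
  obtain ⟨M, n, hM, hc⟩ := hC ((ι × Fin B) × Fin S)
    ((univ : Finset (ι → κ)).image (fun w => baseWord (B := B) P w)) r hr0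
  have hBpos : (0 : ℝ) < B := by exact_mod_cast hB
  have hMpos : (0 : ℝ) < M := by exact_mod_cast hM
  -- the dimension is positive
  have hn : 1 ≤ n := by
    obtain ⟨τ, hτ, -⟩ := hc (fun _ => ⟨0, hr0⟩)
    obtain ⟨j⟩ := hι
    have hc1 := hτ ((j, ⟨0, hB⟩), ⟨0, hS⟩)
    rcases Nat.eq_zero_or_pos n with rfl | hnpos
    · simp at hc1
      omega
    · exact hnpos
  have hspos : 0 < Real.sqrt (M * (lam * B)) := Real.sqrt_pos.mpr (by positivity)
  obtain ⟨s, hsdef⟩ : ∃ s, s = Real.sqrt (M * (lam * B)) := ⟨_, rfl⟩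
  have hs : 0 < s := by rw [hsdef]; exact hspos
  have hs2 : s ^ 2 = M * (lam * B) := by
    rw [hsdef, Real.sq_sqrt (by positivity)]
  refine ⟨n, hn, fun cR => ?_⟩
  obtain ⟨τ, hτ, hmono⟩ := hc (fun w => cR (s⁻¹ • WithLp.toLp 2 w))
  obtain ⟨l, k, hk⟩ := hHJ (fun w => cR (s⁻¹ • WithLp.toLp 2 (hostWord (baseWord (B := B) P w) τ)))
  -- the labelled pairs
  obtain ⟨Act, hAct⟩ : ∃ Act : Finset ι, Act = univ.filter fun j => l.idxFun j = none := ⟨_, rfl⟩
  have hnA : 1 ≤ Act.card := by
    obtain ⟨j, hj⟩ := l.proper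
    have : j ∈ Act := by simp [hAct, hj]
    exact Finset.card_pos.mpr ⟨j, this⟩
  have hnB : Act.card ≤ B := by
    rw [hBdef]
    exact Finset.card_le_univ _
  have hAcard : (Act ×ˢ (univ : Finset (Fin B))).card = Act.card * B := by
    simp
  have hle : B - Act.card ≤ (Act ×ˢ (univ : Finset (Fin B))).card := by
    rw [hAcard]
    have : B ≤ Act.card * B := Nat.le_mul_of_pos_left B hnA
    omega
  obtain ⟨T, hTsub, hTcard⟩ := Finset.exists_subset_card_eq hle
  have hTsub' : T ⊆ (univ.filter fun j => l.idxFun j = none) ×ˢ (univ : Finset (Fin B)) := by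
    rw [← hAct]
    exact hTsub
  -- the points
  let y : κ → (ι × Fin B) × Fin S → ℝ := fun i => colWord P N l.idxFun T i
  refine ⟨fun i => s⁻¹ • WithLp.toLp 2 (hostWord (y i) τ), ?_, k, ?_⟩
  · intro i j
    have hsum := sum_host τ hτ (y i) (y j)
    have hcol := sum_col P N l.idxFun T hTsub' i j
    rw [← hAct, hAcard, hTcard, hPd i j, hNd i j] at hcol
    have hnB' : ((B - Act.card : ℕ) : ℝ) = (B : ℝ) - Act.card := by
      rw [Nat.cast_sub hnB]
    rw [hnB'] at hcol
    have htotal : ∑ p, (hostWord (y i) τ p - hostWord (y j) τ p) ^ 2 =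
        s ^ 2 * dist (x i) (x j) ^ 2 := by
      rw [hsum, hs2]
      show (M : ℝ) * ∑ q, (colWord P N l.idxFun T i q - colWord P N l.idxFun T j q) ^ 2 = _
      rw [hcol]
      push_cast
      field_simp
      ring
    rw [dist_smul₀, EuclideanSpace.dist_eq]
    have h3 : ∑ p, dist ((WithLp.toLp 2 (hostWord (y i) τ) : EuclideanSpace ℝ (Fin n)) p)
        ((WithLp.toLp 2 (hostWord (y j) τ) : EuclideanSpace ℝ (Fin n)) p) ^ 2 =
        ∑ p, (hostWord (y i) τ p - hostWord (y j) τ p) ^ 2 := by
      refine Finset.sum_congr rfl fun p _ => ?_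
      simp [Real.dist_eq, sq_abs]
    have h4 : Real.sqrt (s ^ 2 * dist (x i) (x j) ^ 2) = s * dist (x i) (x j) := by
      rw [← mul_pow, Real.sqrt_sq (by positivity)]
    rw [h3, htotal, h4, Real.norm_of_nonneg (inv_pos.mpr hs).le, ← mul_assoc,
      inv_mul_cancel₀ hs.ne', one_mul]
  · intro i
    obtain ⟨π, hπ⟩ := col_eq_base_comp (B := B) P N l.idxFun T i (ρ i) (hρ i)
    have hU : baseWord (B := B) P (fun j => (l.idxFun j).getD i) ∈
        (univ : Finset (ι → κ)).image (fun w => baseWord (B := B) P w) :=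
      mem_image_of_mem _ (mem_univ _)
    have h1 := hmono _ hU π
    have h2 := hk i
    show cR (s⁻¹ • WithLp.toLp 2 (hostWord (colWord P N l.idxFun T i) τ)) = k
    rw [hπ, h1]
    exact h2

end Vale.Agent.Lib.P058K.R62

namespace Vale.Agent.Lib.P058K.R62

open Finset
open Vale.Agent.Lib.P058

/-- A multiset of size `S` is the image of a function on `Fin S`. -/
lemma exists_enum {α : Type} (m : Multiset α) (S : ℕ) (h : Multiset.card m = S) :
    ∃ f : Fin S → α, (univ : Finset (Fin S)).val.map f = m := by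
  induction m using Quot.inductionOn with
  | h l =>
    have hS : l.length = S := by simpa using h
    subst hS
    refine ⟨l.get, ?_⟩
    rw [Fin.univ_val_map, List.ofFn_get]
    rfl

/-- Two functions with the same multiset of values differ by a permutation. -/
lemma exists_perm_of_map_eq {S : ℕ} (f g : Fin S → ℝ)
    (h : (univ : Finset (Fin S)).val.map f = (univ : Finset (Fin S)).val.map g) :
    ∃ π : Equiv.Perm (Fin S), ∀ s, f (π s) = g s := by
  classical
  have hc : ∀ a : ℝ, (univ.filter fun s => g s = a).card = (univ.filter fun s => f s = a).card := by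
    intro a
    have h1 := congrArg (Multiset.count a) h
    rw [Multiset.count_map, Multiset.count_map] at h1
    have e1 : (Multiset.filter (fun s => a = f s) (univ : Finset (Fin S)).val).card =
        (univ.filter fun s => f s = a).card := by
      simp only [eq_comm (a := a)]
      rfl
    have e2 : (Multiset.filter (fun s => a = g s) (univ : Finset (Fin S)).val).card =
        (univ.filter fun s => g s = a).card := by
      simp only [eq_comm (a := a)]
      rfl
    rw [e1, e2] at h1
    exact h1.symm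
  have e : ∀ a : ℝ, {s // g s = a} ≃ {s // f s = a} := fun a =>
    Fintype.equivOfCardEq (by simpa [Fintype.card_subtype] using hc a)
  exact ⟨Equiv.ofFiberEquiv e, fun s => Equiv.ofFiberEquiv_map e s⟩

/-- **Theorem R**, with the column families given as multisets. -/
theorem theoremR_multiset {κ : Type} [Finite κ] [Nonempty κ] {d : ℕ} (x : κ → EuclideanSpace ℝ (Fin d))
    (hPN : ∀ L : ℕ, 1 ≤ L → ∃ (Pm Nm : Multiset (κ → ℝ)) (lam : ℝ), 0 < lam ∧
      (∀ i, Pm.map (fun f => f i) = Nm.map (fun f => f i)) ∧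
      (∀ i j, (Nm.map fun f => (f i - f j) ^ 2).sum = lam / L * dist (x i) (x j) ^ 2) ∧
      (∀ i j, (Pm.map fun f => (f i - f j) ^ 2).sum = (lam / L + lam) * dist (x i) (x j) ^ 2)) :
    IsRamseyFamily x := by
  classical
  refine theoremR x fun L hL => ?_
  obtain ⟨Pm, Nm, lam, hlam, hlaw, hN, hP⟩ := hPN L hL
  have hcard : Multiset.card Pm = Multiset.card Nm := by
    have := congrArg Multiset.card (hlaw (Classical.arbitrary κ))
    simpa using this
  obtain ⟨P, hPe⟩ := exists_enum ((0 : κ → ℝ) ::ₘ Pm) (Multiset.card Pm + 1) (by simp)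
  obtain ⟨N, hNe⟩ := exists_enum ((0 : κ → ℝ) ::ₘ Nm) (Multiset.card Pm + 1) (by simp [hcard])
  refine ⟨Multiset.card Pm + 1, P, N, lam, Nat.succ_pos _, hlam, fun i => ?_, fun i j => ?_,
    fun i j => ?_⟩
  · refine exists_perm_of_map_eq (fun s => P s i) (fun s => N s i) ?_
    have e1 : (univ : Finset (Fin (Multiset.card Pm + 1))).val.map (fun s => P s i) =
        ((univ : Finset (Fin (Multiset.card Pm + 1))).val.map P).map (fun f => f i) := by
      rw [Multiset.map_map]
      rfl
    have e2 : (univ : Finset (Fin (Multiset.card Pm + 1))).val.map (fun s => N s i) =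
        ((univ : Finset (Fin (Multiset.card Pm + 1))).val.map N).map (fun f => f i) := by
      rw [Multiset.map_map]
      rfl
    rw [e1, e2, hPe, hNe, Multiset.map_cons, Multiset.map_cons, hlaw i]
  · have e : ∑ s, (N s i - N s j) ^ 2 =
        (((univ : Finset (Fin (Multiset.card Pm + 1))).val.map N).map
          (fun f => (f i - f j) ^ 2)).sum := by
      rw [Multiset.map_map]
      rfl
    rw [e, hNe, Multiset.map_cons, Multiset.sum_cons, hN i j]
    simp
  · have e : ∑ s, (P s i - P s j) ^ 2 =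
        (((univ : Finset (Fin (Multiset.card Pm + 1))).val.map P).map
          (fun f => (f i - f j) ^ 2)).sum := by
      rw [Multiset.map_map]
      rfl
    rw [e, hPe, Multiset.map_cons, Multiset.sum_cons, hP i j]
    simp

end Vale.Agent.Lib.P058K.R62
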